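import Vale.Agent.P322.Entropy

/-!
The low-noise consequence: `I(f(X);Y) ≤ 1 - c h₂(ε)` for every `c < 1` and all small `ε`.
-/

namespace Vale.Agent.P322

open Real Filter Topology

lemma binEntropy_le_eps {ε : ℝ} (h1 : ε < 1) :
    binEntropy ε ≤ ε * (-log ε + 1) := by
  unfold binEntropy
  have h1e : 0 < 1 - ε := by linarith
  have h2 : log (1 - ε)⁻¹ ≤ (1 - ε)⁻¹ - 1 := log_le_sub_one_of_pos (by positivity)
  have h3 : (1 - ε) * log (1 - ε)⁻¹ ≤ ε := by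
    calc (1 - ε) * log (1 - ε)⁻¹ ≤ (1 - ε) * ((1 - ε)⁻¹ - 1) := by gcongr
      _ = ε := by
        field_simp
        ring
  rw [log_inv]
  nlinarith

lemma exists_params {c : ℝ} (hc0 : 0 ≤ c) (hc : c < 1) :
    ∃ θ γ : ℝ, 0 < θ ∧ θ ≤ 1 ∧ 1 / 2 ≤ γ ∧ γ < 1 ∧ c < θ ^ (1 - γ) * (γ ^ γ - θ ^ γ) := by
  set θ := (1 - c) / 2 with hθ
  have hθ0 : 0 < θ := by
    rw [hθ]
    linarith
  have hθ1 : θ ≤ 1 := by
    rw [hθ]
    linarith
  have hcont : ContinuousAt (fun γ : ℝ => θ ^ (1 - γ) * (γ ^ γ - θ ^ γ)) 1 := by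
    apply ContinuousAt.mul
    · exact ContinuousAt.rpow continuousAt_const (continuousAt_const.sub continuousAt_id)
        (Or.inl hθ0.ne')
    · apply ContinuousAt.sub
      · exact ContinuousAt.rpow continuousAt_id continuousAt_id (Or.inl one_ne_zero)
      · exact ContinuousAt.rpow continuousAt_const continuousAt_id (Or.inl hθ0.ne')
  have hval : c < (fun γ : ℝ => θ ^ (1 - γ) * (γ ^ γ - θ ^ γ)) 1 := by
    simp only [sub_self, rpow_zero, one_mul, rpow_one]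
    rw [hθ]
    linarith
  have hev := hcont.eventually_const_lt hval
  obtain ⟨δ, hδ, hball⟩ := Metric.eventually_nhds_iff.1 hev
  refine ⟨θ, max (1 / 2) (1 - δ / 2), hθ0, hθ1, le_max_left _ _, ?_, ?_⟩
  · exact max_lt (by norm_num) (by linarith)
  · apply hball
    rw [Real.dist_eq, abs_lt]
    have h1 := le_max_right (1 / 2 : ℝ) (1 - δ / 2)
    have h2 : max (1 / 2 : ℝ) (1 - δ / 2) < 1 := max_lt (by norm_num) (by linarith)
    constructor <;> linarith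

lemma eventually_params {a c c₁ : ℝ} (ha : 0 < a) (hcc : c < c₁) :
    ∀ᶠ Λ : ℝ in atTop, 1 ≤ Λ ∧ exp (-Λ) * Λ ^ a ≤ 1 / 4 ∧ Λ * exp (-Λ) ≤ 1 / 2 ∧
      c * (Λ + 1) ≤ (Λ - a * log Λ) * (1 - exp (-Λ)) * c₁ := by
  have h1 : ∀ᶠ Λ : ℝ in atTop, 1 ≤ Λ := eventually_ge_atTop 1
  have h2 : ∀ᶠ Λ : ℝ in atTop, exp (-Λ) * Λ ^ a ≤ 1 / 4 := by
    have := tendsto_rpow_mul_exp_neg_mul_atTop_nhds_zero a 1 one_pos
    have h3 := this.eventually (gt_mem_nhds (show (0 : ℝ) < 1 / 4 by norm_num))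
    filter_upwards [h3] with Λ hΛ
    rw [neg_one_mul] at hΛ
    rw [mul_comm]
    exact hΛ.le
  have h3 : ∀ᶠ Λ : ℝ in atTop, Λ * exp (-Λ) ≤ 1 / 2 := by
    have := tendsto_rpow_mul_exp_neg_mul_atTop_nhds_zero 1 1 one_pos
    have h3 := this.eventually (gt_mem_nhds (show (0 : ℝ) < 1 / 2 by norm_num))
    filter_upwards [h3, eventually_gt_atTop 0] with Λ hΛ hpos
    rw [neg_one_mul, rpow_one] at hΛ
    exact hΛ.le
  have h4 : ∀ᶠ Λ : ℝ in atTop,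
      c * (Λ + 1) ≤ (Λ - a * log Λ) * (1 - exp (-Λ)) * c₁ := by
    have t1 : Tendsto (fun Λ : ℝ => c * (1 + Λ⁻¹)) atTop (𝓝 (c * (1 + 0))) :=
      (tendsto_const_nhds.add tendsto_inv_atTop_zero).const_mul c
    have t2 : Tendsto (fun Λ : ℝ => log Λ / Λ) atTop (𝓝 0) := by
      have := Real.tendsto_pow_log_div_mul_add_atTop 1 0 1 one_ne_zero
      simpa using this
    have t3 : Tendsto (fun Λ : ℝ => exp (-Λ)) atTop (𝓝 0) := tendsto_exp_neg_atTop_nhds_zero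
    have t4 : Tendsto (fun Λ : ℝ => (1 - a * (log Λ / Λ)) * (1 - exp (-Λ)) * c₁) atTop
        (𝓝 ((1 - a * 0) * (1 - 0) * c₁)) :=
      ((tendsto_const_nhds.sub (t2.const_mul a)).mul (tendsto_const_nhds.sub t3)).mul
        tendsto_const_nhds
    have t5 : (c * (1 + 0) : ℝ) < (1 - a * 0) * (1 - 0) * c₁ := by
      simpa using hcc
    have h6 := t1.eventually_lt t4 t5
    filter_upwards [h6, eventually_gt_atTop 0] with Λ hΛ hpos
    have e1 : c * (Λ + 1) = Λ * (c * (1 + Λ⁻¹)) := by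
      field_simp
    have e2 : (Λ - a * log Λ) * (1 - exp (-Λ)) * c₁ =
        Λ * ((1 - a * (log Λ / Λ)) * (1 - exp (-Λ)) * c₁) := by
      field_simp
    rw [e1, e2]
    exact mul_le_mul_of_nonneg_left hΛ.le hpos.le
  filter_upwards [h1, h2, h3, h4] with Λ a1 a2 a3 a4
  exact ⟨a1, a2, a3, a4⟩

/-- The bound for all small `ε`, in the case `0 ≤ c`. -/
theorem low_noise_nonneg {c : ℝ} (hc0 : 0 ≤ c) (hc : c < 1) :
    ∃ ε₀ : ℝ, 0 < ε₀ ∧ ∀ ε : ℝ, 0 < ε → ε < ε₀ → ∀ (n : ℕ) (f : Cube n → Bool),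
      mutualInfo ε f ≤ 1 - c * h2 ε := by
  obtain ⟨θ, γ, hθ0, hθ1, hγ, hγ1, hc1⟩ := exists_params hc0 hc
  set c₁ := θ ^ (1 - γ) * (γ ^ γ - θ ^ γ) with hc₁
  have h1γ : 0 < 1 - γ := by linarith
  set a := 1 / (1 - γ) with ha
  have hapos : 0 < a := by positivity
  have haγ : a * (γ - 1) = -1 := by
    rw [ha]
    field_simp
    ring
  obtain ⟨Λ₀, hΛ₀⟩ := eventually_atTop.1 (eventually_params hapos hc1)
  refine ⟨min (exp (-Λ₀)) (1 / 2), lt_min (exp_pos _) (by norm_num), ?_⟩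
  intro ε hε0 hεlt n f
  have hε1 : ε < 1 / 2 := lt_of_lt_of_le hεlt (min_le_right _ _)
  have hε2 : ε < exp (-Λ₀) := lt_of_lt_of_le hεlt (min_le_left _ _)
  set Λ := -log ε with hΛ
  have hεexp : exp (-Λ) = ε := by
    rw [hΛ, neg_neg, exp_log hε0]
  have hΛge : Λ₀ ≤ Λ := by
    have := (log_lt_iff_lt_exp hε0).2 hε2
    rw [hΛ]
    linarith
  obtain ⟨p1, p2, p3, p4⟩ := hΛ₀ Λ hΛge
  rw [hεexp] at p2 p3 p4
  have hΛpos : 0 < Λ := by linarith
  have hlogΛ : 0 ≤ log Λ := log_nonneg p1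
  have hΛa : 1 ≤ Λ ^ a := one_le_rpow p1 hapos.le
  have hΛapos : 0 < Λ ^ a := by linarith
  set φ₁ := ε * Λ ^ a with hφ₁
  have hφ₁pos : 0 < φ₁ := by positivity
  set K := -log φ₁ with hK
  have hKeq : K = Λ - a * log Λ := by
    rw [hK, hφ₁, log_mul hε0.ne' hΛapos.ne', log_rpow hΛpos, hΛ]
    ring
  have hKpos : 0 < K := by
    have h3 : log φ₁ ≤ log (1 / 4) := log_le_log hφ₁pos p2
    have h4 : log (1 / 4 : ℝ) < 0 := log_neg (by norm_num) (by norm_num)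
    rw [hK]
    linarith
  have hKle : K ≤ Λ := by
    rw [hKeq]
    nlinarith
  have h1ε : 0 < 1 - ε := by linarith
  have h01 : θ * (ε * (1 - ε)) ≤ φ₁ := by
    rw [hφ₁]
    have h3 : θ * (1 - ε) ≤ 1 := by nlinarith
    nlinarith
  have hl4 : 1 ≤ log 4 := by
    have e : (4 : ℝ) = 2 ^ 2 := by norm_num
    rw [e, log_pow]
    have := log_two_gt_d9
    norm_num
    linarith
  have hcond : φ₁ ^ (γ - 1) * K ≤ log 4 * (θ * (ε * (1 - ε))) ^ (γ - 1) := by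
    have e1 : φ₁ ^ (γ - 1) = ε ^ (γ - 1) * Λ⁻¹ := by
      rw [hφ₁, mul_rpow hε0.le hΛapos.le, ← rpow_mul hΛpos.le, haγ, rpow_neg_one]
    have e2 : (θ * (ε * (1 - ε))) ^ (γ - 1) = (θ * (1 - ε)) ^ (γ - 1) * ε ^ (γ - 1) := by
      have : θ * (ε * (1 - ε)) = (θ * (1 - ε)) * ε := by ring
      rw [this, mul_rpow (by positivity) hε0.le]
    have h3 : 1 ≤ (θ * (1 - ε)) ^ (γ - 1) :=
      one_le_rpow_of_pos_of_le_one_of_nonpos (by positivity) (by nlinarith) (by linarith)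
    have hεγ : 0 < ε ^ (γ - 1) := rpow_pos_of_pos hε0 _
    rw [e1, e2]
    have h4 : Λ⁻¹ * K ≤ 1 := by
      rw [inv_mul_le_iff₀ hΛpos]
      linarith
    calc ε ^ (γ - 1) * Λ⁻¹ * K = ε ^ (γ - 1) * (Λ⁻¹ * K) := by ring
      _ ≤ ε ^ (γ - 1) * 1 := by gcongr
      _ = 1 * 1 * ε ^ (γ - 1) := by ring
      _ ≤ log 4 * (θ * (1 - ε)) ^ (γ - 1) * ε ^ (γ - 1) := by gcongr
      _ = _ := by ring
  have hKA : K * (ε * (1 - ε)) ≤ 1 / 2 := by
    have h3 : K * (ε * (1 - ε)) ≤ Λ * ε := by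
      have h4 : ε * (1 - ε) ≤ ε := by nlinarith
      calc K * (ε * (1 - ε)) ≤ K * ε := by gcongr
        _ ≤ Λ * ε := by gcongr
    linarith
  have hq := quant_bound hε0 (by linarith) hγ hγ1 hθ0 hθ1 h01 hK hKpos hcond hKA f
  rw [← hc₁] at hq
  have hlog2 : 0 < log 2 := log_pos (by norm_num)
  -- conclude
  have hbin := binEntropy_le_eps (ε := ε) (by linarith)
  have h5 : c * binEntropy ε ≤ K * (ε * (1 - ε)) * c₁ := by
    rw [← hKeq] at p4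
    calc c * binEntropy ε ≤ c * (ε * (-log ε + 1)) := by gcongr
      _ = ε * (c * (Λ + 1)) := by
        rw [hΛ]
        ring
      _ ≤ ε * (K * (1 - ε) * c₁) := by gcongr
      _ = _ := by ring
  have h6 : c * binEntropy ε ≤ log 2 * (1 - mutualInfo ε f) := le_trans h5 hq
  have h7 : c * h2 ε = c * binEntropy ε / log 2 := by
    rw [h2_eq]
    ring
  rw [h7]
  have h8 : c * binEntropy ε / log 2 ≤ 1 - mutualInfo ε f := by
    rw [div_le_iff₀ hlog2]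
    linarith
  linarith

/-- The bound for all small `ε`. -/
theorem low_noise {c : ℝ} (hc : c < 1) :
    ∃ ε₀ : ℝ, 0 < ε₀ ∧ ∀ ε : ℝ, 0 < ε → ε < ε₀ → ∀ (n : ℕ) (f : Cube n → Bool),
      mutualInfo ε f ≤ 1 - c * h2 ε := by
  obtain ⟨ε₀, hε₀, h⟩ := low_noise_nonneg (c := max c 0) (le_max_right _ _)
    (max_lt hc one_pos)
  refine ⟨min ε₀ 1, lt_min hε₀ one_pos, fun ε h0 h1 n f => ?_⟩
  have h3 := h ε h0 (lt_of_lt_of_le h1 (min_le_left _ _)) n f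
  have h4 : 0 ≤ h2 ε := by
    rw [h2_eq]
    have hε1 : ε ≤ 1 := (lt_of_lt_of_le h1 (min_le_right _ _)).le
    exact div_nonneg (binEntropy_nonneg h0.le hε1) (log_pos (by norm_num)).le
  have h5 : c * h2 ε ≤ max c 0 * h2 ε := mul_le_mul_of_nonneg_right (le_max_left _ _) h4
  linarith

end Vale.Agent.P322
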