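import Vale.Agent.P322.Planes

/-!
The lower envelope `LL` and the closure of the induction step.
-/

namespace Vale.Agent.P322

open Real

/-- The coefficient of the entropy term in the envelope. -/
noncomputable def kap (ε : ℝ) : ℝ := 2.4 * (ε * (1 - ε)) / binEntropy ε

/-- The envelope: `E h(T g) ≥ h(ε) · LL ε (E g)`. -/
noncomputable def LL (ε a : ℝ) : ℝ :=
  kap ε * binEntropy a + (1 - kap ε * log 2) * (4 * a * (1 - a))

lemma Small.kap_mul {ε ℓ : ℝ} (hs : Small ε ℓ) : binEntropy ε * kap ε = 2.4 * (ε * (1 - ε)) := by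
  unfold kap
  have := hs.H_pos
  field_simp

lemma Small.kap_nonneg {ε ℓ : ℝ} (hs : Small ε ℓ) : 0 ≤ kap ε := by
  unfold kap
  have h1 := hs.H_pos
  have h2 := hs.pos
  have h3 := hs.eps
  exact div_nonneg (mul_nonneg (by norm_num) (mul_nonneg h2.le (by linarith))) h1.le

lemma Small.kap_upper {ε ℓ : ℝ} (hs : Small ε ℓ) : kap ε * ℓ ≤ 2.4 := by
  have h1 := hs.H_pos
  have h2 := hs.pos
  have h3 := hs.eps
  have h4 := hs.H_lower
  have h5 := hs.kap_mul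
  have hk := hs.kap_nonneg
  have hb := hs.big
  have hq : ε * ℓ ≤ binEntropy ε := by
    have : 0 ≤ (1 - ε) * ε := mul_nonneg (by linarith) h2.le
    linarith
  have h6 : kap ε * (ε * ℓ) ≤ kap ε * binEntropy ε := mul_le_mul_of_nonneg_left hq hk
  have h7 : ε * (kap ε * ℓ) ≤ ε * 2.4 := by
    have : kap ε * binEntropy ε = 2.4 * (ε * (1 - ε)) := by rw [mul_comm]; exact h5
    nlinarith
  exact le_of_mul_le_mul_left h7 h2

lemma Small.kap_lower {ε ℓ : ℝ} (hs : Small ε ℓ) : 2.4 * (1 - ε) ≤ kap ε * (ℓ + 1) := by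
  have h2 := hs.pos
  have h4 := hs.H_upper
  have h5 := hs.kap_mul
  have hk := hs.kap_nonneg
  have h6 : kap ε * binEntropy ε ≤ kap ε * (ε * (ℓ + 1)) := mul_le_mul_of_nonneg_left h4 hk
  have h7 : ε * (2.4 * (1 - ε)) ≤ ε * (kap ε * (ℓ + 1)) := by
    have : kap ε * binEntropy ε = 2.4 * (ε * (1 - ε)) := by rw [mul_comm]; exact h5
    nlinarith
  exact le_of_mul_le_mul_left h7 h2

/-- `ξ = κ log 2` is small. -/
lemma Small.xi_le {ε ℓ : ℝ} (hs : Small ε ℓ) : kap ε * log 2 ≤ 0.0401 := by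
  have h1 := hs.kap_upper
  have hk := hs.kap_nonneg
  have hb := hs.big
  have hl := log_two_lt_d9
  have hl0 : 0 < log 2 := log_pos (by norm_num)
  have h2 : kap ε * 41.5 ≤ 2.4 := le_trans (mul_le_mul_of_nonneg_left hb hk) h1
  have h3 : kap ε * log 2 ≤ kap ε * 0.6931471808 := mul_le_mul_of_nonneg_left hl.le hk
  nlinarith

lemma Small.xi_nonneg {ε ℓ : ℝ} (hs : Small ε ℓ) : 0 ≤ kap ε * log 2 :=
  mul_nonneg hs.kap_nonneg (log_pos (by norm_num)).le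

lemma four_mul_le_one (a : ℝ) : 4 * a * (1 - a) ≤ 1 := by nlinarith [sq_nonneg (2 * a - 1)]

lemma LL_le_one {ε ℓ a : ℝ} (hs : Small ε ℓ) : LL ε a ≤ 1 := by
  unfold LL
  have h1 := hs.xi_le
  have h2 := hs.kap_nonneg
  have h3 : kap ε * binEntropy a ≤ kap ε * log 2 :=
    mul_le_mul_of_nonneg_left binEntropy_le_log_two h2
  have h4 : (1 - kap ε * log 2) * (4 * a * (1 - a)) ≤ (1 - kap ε * log 2) * 1 :=
    mul_le_mul_of_nonneg_left (four_mul_le_one a) (by linarith)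
  linarith

lemma LL_nonneg {ε ℓ a : ℝ} (hs : Small ε ℓ) (h0 : 0 ≤ a) (h1 : a ≤ 1) : 0 ≤ LL ε a := by
  unfold LL
  have h2 := hs.xi_le
  have h3 := hs.kap_nonneg
  have h4 := binEntropy_nonneg h0 h1
  have h5 : 0 ≤ 4 * a * (1 - a) := mul_nonneg (by linarith) (by linarith)
  exact add_nonneg (mul_nonneg h3 h4) (mul_nonneg (by linarith) h5)

lemma LL_one_sub (ε a : ℝ) : LL ε (1 - a) = LL ε a := by
  unfold LL
  rw [binEntropy_one_sub]
  ring

/-- The midpoint identity for the envelope. -/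
lemma LL_mid (ε a₁ a₂ : ℝ) :
    LL ε ((a₁ + a₂) / 2) = (LL ε a₁ + LL ε a₂) / 2
      + kap ε * (binEntropy ((a₁ + a₂) / 2) - (binEntropy a₁ + binEntropy a₂) / 2)
      + (1 - kap ε * log 2) * (a₁ - a₂) ^ 2 := by
  unfold LL
  ring

/-- Subadditivity of the entropy. -/
lemma entropy_subadd {p q : ℝ} (hp : 0 ≤ p) (hq : 0 ≤ q) (hpq : p + q ≤ 1) :
    binEntropy (p + q) ≤ binEntropy p + binEntropy q := by
  have hc := strictConcave_binEntropy.concaveOn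
  rcases eq_or_lt_of_le (add_nonneg hp hq) with h | h
  · have hp' : p = 0 := by linarith
    have hq' : q = 0 := by linarith
    simp [hp', hq']
  have hr : ∀ z : ℝ, 0 ≤ z → z ≤ p + q → z / (p + q) * binEntropy (p + q) ≤ binEntropy z := by
    intro z hz0 hz1
    have h3 := hc.2 (show (p + q) ∈ Set.Icc (0 : ℝ) 1 from ⟨h.le, hpq⟩)
      (show (0 : ℝ) ∈ Set.Icc (0 : ℝ) 1 by simp)
      (show 0 ≤ z / (p + q) from div_nonneg hz0 h.le)
      (show 0 ≤ 1 - z / (p + q) by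
        have : z / (p + q) ≤ 1 := (div_le_one h).mpr hz1
        linarith) (by ring)
    simp only [smul_eq_mul, binEntropy_zero, mul_zero, add_zero] at h3
    have e : z / (p + q) * (p + q) = z := by field_simp
    rwa [e] at h3
  have h1 := hr p hp (by linarith)
  have h2 := hr q hq (by linarith)
  have e : p / (p + q) * binEntropy (p + q) + q / (p + q) * binEntropy (p + q) = binEntropy (p + q) := by
    field_simp
  linarith

/-- Subadditivity of the envelope. -/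
lemma LL_subadd {ε ℓ p q : ℝ} (hs : Small ε ℓ) (hp : 0 ≤ p) (hq : 0 ≤ q) (hpq : p + q ≤ 1) :
    LL ε (p + q) ≤ LL ε p + LL ε q := by
  unfold LL
  have h2 := hs.xi_le
  have h3 := hs.kap_nonneg
  have h4 := mul_le_mul_of_nonneg_left (entropy_subadd hp hq hpq) h3
  have h5 : 4 * (p + q) * (1 - (p + q)) ≤ 4 * p * (1 - p) + 4 * q * (1 - q) := by
    nlinarith [mul_nonneg hp hq]
  have h6 := mul_le_mul_of_nonneg_left h5 (show 0 ≤ 1 - kap ε * log 2 by linarith)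
  nlinarith

/-- The envelope at the reflected gap. -/
lemma LL_gap {ε ℓ a₁ a₂ : ℝ} (hs : Small ε ℓ) (h1 : a₁ ∈ Set.Icc (0 : ℝ) 1)
    (h2 : a₂ ∈ Set.Icc (0 : ℝ) 1) :
    LL ε (1 - |a₁ - a₂|) ≤ LL ε a₁ + LL ε a₂ := by
  obtain ⟨h10, h11⟩ := h1
  obtain ⟨h20, h21⟩ := h2
  rcases le_total a₂ a₁ with h | h
  · rw [abs_of_nonneg (by linarith)]
    have := LL_subadd hs (show 0 ≤ 1 - a₁ by linarith) h20 (by linarith)
    rw [LL_one_sub] at this
    rwa [show 1 - (a₁ - a₂) = 1 - a₁ + a₂ by ring]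
  · rw [abs_of_nonpos (by linarith)]
    have := LL_subadd hs (show 0 ≤ 1 - a₂ by linarith) h10 (by linarith)
    rw [LL_one_sub] at this
    rw [show 1 - -(a₁ - a₂) = 1 - a₂ + a₁ by ring]
    linarith

/-- `φ(a) ≥ d/4` at a midpoint. -/
lemma phi_mid_ge {a₁ a₂ : ℝ} (h1 : a₁ ∈ Set.Icc (0 : ℝ) 1) (h2 : a₂ ∈ Set.Icc (0 : ℝ) 1) :
    |a₁ - a₂| / 4 ≤ (a₁ + a₂) / 2 * (1 - (a₁ + a₂) / 2) := by
  obtain ⟨h10, h11⟩ := h1
  obtain ⟨h20, h21⟩ := h2
  rcases le_total a₂ a₁ with h | h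
  · rw [abs_of_nonneg (by linarith)]
    nlinarith [mul_nonneg h20 (show 0 ≤ 1 - a₁ by linarith), mul_nonneg (show 0 ≤ a₁ - a₂ by linarith)
      (show 0 ≤ 1 - (a₁ - a₂) by linarith)]
  · rw [abs_of_nonpos (by linarith)]
    nlinarith [mul_nonneg h10 (show 0 ≤ 1 - a₂ by linarith), mul_nonneg (show 0 ≤ a₂ - a₁ by linarith)
      (show 0 ≤ 1 - (a₂ - a₁) by linarith)]

/-- The entropy defect at a midpoint is at most `d log 2`. -/
lemma J_le_lin {a₁ a₂ : ℝ} (h1 : a₁ ∈ Set.Icc (0 : ℝ) 1) (h2 : a₂ ∈ Set.Icc (0 : ℝ) 1) :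
    binEntropy ((a₁ + a₂) / 2) - (binEntropy a₁ + binEntropy a₂) / 2 ≤ |a₁ - a₂| * log 2 := by
  have hb := J_bound h1 h2
  have hp := phi_mid_ge h1 h2
  have hl : 0 < log 2 := log_pos (by norm_num)
  set J := binEntropy ((a₁ + a₂) / 2) - (binEntropy a₁ + binEntropy a₂) / 2 with hJ
  set φ := (a₁ + a₂) / 2 * (1 - (a₁ + a₂) / 2) with hφ
  set d := |a₁ - a₂| with hd
  have hd0 : 0 ≤ d := abs_nonneg _
  have hsq : (a₁ - a₂) ^ 2 = d ^ 2 := by rw [hd, sq_abs]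
  rw [hsq] at hb
  rcases le_or_gt J 0 with hJ0 | hJ0
  · have := mul_nonneg hd0 hl.le
    linarith
  rcases eq_or_lt_of_le hd0 with hd1 | hd1
  · -- `d = 0`: the two points coincide
    have : a₁ = a₂ := by
      have : |a₁ - a₂| = 0 := by rw [← hd]; exact hd1.symm
      have := abs_eq_zero.mp this
      linarith
    rw [hJ, this, ← hd1]
    simp
  · have h3 : J * (d / 4) ≤ J * φ := mul_le_mul_of_nonneg_left hp hJ0.le
    have h4 : d * J ≤ d * (d * log 2) := by nlinarith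
    exact le_of_mul_le_mul_left h4 hd1

/-- The data of one induction step. -/
structure Step (ε ℓ a₁ a₂ U W T Φ ES : ℝ) : Prop where
  hs : Small ε ℓ
  h1 : a₁ ∈ Set.Icc (0 : ℝ) 1
  h2 : a₂ ∈ Set.Icc (0 : ℝ) 1
  hU : binEntropy ε * LL ε a₁ ≤ U
  hW : binEntropy ε * LL ε a₂ ≤ W
  hT : |a₁ - a₂| ≤ T
  hgap : ∀ y, 0 ≤ y → U + W + ε * (1 - ε) * (2 * y * T - y ^ 2 * Φ) ≤ ES
  hΦ1 : Φ ≤ (a₁ + a₂) / 2 * (1 - (a₁ + a₂) / 2)
  hΦ2 : Φ ≤ (U + W) / (4 * log 2) + T / 4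
  hconc : U + W ≤ ES
  hmid : (1 - ε * (1 - ε) / (20 * binEntropy ε)) * (U + W) + binEntropy ε * T ≤ ES
  hpx : ∀ x, 0 < x → x ≤ 1 → lamx ε ℓ x * (U + W) + binEntropy ε * (2 - x / ℓ) * T ≤ ES
  htop : 2 * binEntropy ε * T ≤ ES

section regimes

variable {ε ℓ a₁ a₂ U W T Φ ES : ℝ}

lemma Step.target_eq (S : Step ε ℓ a₁ a₂ U W T Φ ES) :
    binEntropy ε * LL ε ((a₁ + a₂) / 2) = binEntropy ε * (LL ε a₁ + LL ε a₂) / 2
      + 2.4 * (ε * (1 - ε)) * (binEntropy ((a₁ + a₂) / 2) - (binEntropy a₁ + binEntropy a₂) / 2)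
      + binEntropy ε * (1 - kap ε * log 2) * |a₁ - a₂| ^ 2 := by
  rw [LL_mid, sq_abs, ← S.hs.kap_mul]
  ring

lemma Step.B_le (S : Step ε ℓ a₁ a₂ U W T Φ ES) : LL ε a₁ + LL ε a₂ ≤ 2 := by
  have := LL_le_one (a := a₁) S.hs
  have := LL_le_one (a := a₂) S.hs
  linarith

/-- The common form of the defect term. -/
lemma Step.J_term (S : Step ε ℓ a₁ a₂ U W T Φ ES) :
    2.4 * (ε * (1 - ε)) * (binEntropy ((a₁ + a₂) / 2) - (binEntropy a₁ + binEntropy a₂) / 2)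
      ≤ 0.0401 * (binEntropy ε * |a₁ - a₂|) := by
  have hJ := J_le_lin S.h1 S.h2
  have hk := S.hs.kap_nonneg
  have hH := S.hs.H_pos
  have hd : 0 ≤ |a₁ - a₂| := abs_nonneg _
  rw [← S.hs.kap_mul]
  have h2 : binEntropy ε * kap ε * (binEntropy ((a₁ + a₂) / 2) - (binEntropy a₁ + binEntropy a₂) / 2)
      ≤ binEntropy ε * kap ε * (|a₁ - a₂| * log 2) :=
    mul_le_mul_of_nonneg_left hJ (mul_nonneg hH.le hk)
  have h3 : (kap ε * log 2) * (binEntropy ε * |a₁ - a₂|) ≤ 0.0401 * (binEntropy ε * |a₁ - a₂|) :=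
    mul_le_mul_of_nonneg_right S.hs.xi_le (mul_nonneg hH.le hd)
  nlinarith

lemma Step.quad_term (S : Step ε ℓ a₁ a₂ U W T Φ ES) :
    binEntropy ε * (1 - kap ε * log 2) * |a₁ - a₂| ^ 2 ≤ binEntropy ε * |a₁ - a₂| ^ 2 := by
  have h := S.hs.xi_nonneg
  have hH := S.hs.H_pos
  have : 0 ≤ binEntropy ε * (kap ε * log 2) * |a₁ - a₂| ^ 2 :=
    mul_nonneg (mul_nonneg hH.le h) (sq_nonneg _)
  nlinarith

lemma Step.A_nonneg (S : Step ε ℓ a₁ a₂ U W T Φ ES) : 0 < ε * (1 - ε) := by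
  have h0 := S.hs.pos
  have h1 := S.hs.eps
  exact mul_pos h0 (by linarith)

lemma Step.d_le_one (S : Step ε ℓ a₁ a₂ U W T Φ ES) : |a₁ - a₂| ≤ 1 := by
  obtain ⟨h10, h11⟩ := S.h1
  obtain ⟨h20, h21⟩ := S.h2
  rw [abs_le]
  constructor <;> linarith

lemma Step.R0 (S : Step ε ℓ a₁ a₂ U W T Φ ES) (hd : a₁ = a₂) :
    binEntropy ε * LL ε ((a₁ + a₂) / 2) ≤ ES / 2 := by
  have e : (a₁ + a₂) / 2 = a₂ := by rw [hd]; ring
  rw [e]
  have h1 := S.hU
  have h2 := S.hW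
  have h3 := S.hconc
  rw [hd] at h1
  linarith

lemma Step.R1 (S : Step ε ℓ a₁ a₂ U W T Φ ES) (hd : 0 < |a₁ - a₂|)
    (hφ : binEntropy ε * ((a₁ + a₂) / 2 * (1 - (a₁ + a₂) / 2)) ≤ 0.08 * (ε * (1 - ε))) :
    binEntropy ε * LL ε ((a₁ + a₂) / 2) ≤ ES / 2 := by
  rw [S.target_eq]
  have hJ := J_bound S.h1 S.h2
  have hφ4 := phi_mid_ge S.h1 S.h2
  have hq2 := S.quad_term
  have hUU := S.hU
  have hWW := S.hW
  have hA := S.A_nonneg
  have hH := S.hs.H_pos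
  have hTT := S.hT
  have hΦ := S.hΦ1
  rw [← sq_abs (a₁ - a₂)] at hJ
  set H := binEntropy ε with hHdef
  set A := ε * (1 - ε) with hAdef
  set J := binEntropy ((a₁ + a₂) / 2) - (binEntropy a₁ + binEntropy a₂) / 2 with hJdef
  set φ := (a₁ + a₂) / 2 * (1 - (a₁ + a₂) / 2) with hφdef
  set d := |a₁ - a₂| with hddef
  have hφpos : 0 < φ := by linarith
  set q := d ^ 2 / φ with hq
  have hqφ : q * φ = d ^ 2 := by
    rw [hq]; field_simp
  have hq0 : 0 ≤ q := by positivity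
  set y := d / φ with hy
  have hy0 : 0 ≤ y := by positivity
  have hyd : y * d = q := by
    rw [hy, hq]; field_simp
  have hyφ : y ^ 2 * φ = q := by
    rw [hy, hq]; field_simp
  have g := S.hgap y hy0
  have t1 : y * d ≤ y * T := mul_le_mul_of_nonneg_left hTT hy0
  have t2 : y ^ 2 * Φ ≤ y ^ 2 * φ := mul_le_mul_of_nonneg_left hΦ (sq_nonneg _)
  have t3 : A * q ≤ A * (2 * y * T - y ^ 2 * Φ) := by
    apply mul_le_mul_of_nonneg_left _ hA.le
    nlinarith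
  -- the defect
  have hJq : J ≤ log 2 / 4 * q := by
    have : J * φ ≤ log 2 / 4 * q * φ := by
      rw [mul_assoc, hqφ]; exact hJ
    exact le_of_mul_le_mul_right this hφpos
  have hl := log_two_lt_d9
  have hJq2 : 2.4 * A * J ≤ 0.42 * (A * q) := by
    have h5 : 2.4 * A * J ≤ 2.4 * A * (log 2 / 4 * q) :=
      mul_le_mul_of_nonneg_left hJq (by positivity)
    have h6 : 0 ≤ A * q := by positivity
    nlinarith
  have hquad : H * d ^ 2 ≤ 0.08 * (A * q) := by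
    rw [← hqφ]
    have := mul_le_mul_of_nonneg_right hφ hq0
    nlinarith
  have hsum : H * (LL ε a₁ + LL ε a₂) ≤ U + W := by linarith
  linarith

/-- The lower bound for `ES` in the second regime, in plain variables. -/
lemma R2_low {H A r d Y q y B U W T Φ ES : ℝ} (hA : 0 ≤ A) (hH : 0 ≤ H) (hr0 : 0 ≤ r)
    (hAr : A * 16 * (r / 4) ≤ 1) (hY : Y = 2 * H * r + d) (hy0 : 0 ≤ y) (hy4 : y ≤ 4)
    (hyd : y * d = 4 * q) (hyY : y ^ 2 * Y = 16 * q)
    (g : U + W + A * (2 * y * T - y ^ 2 * Φ) ≤ ES) (hΦ : Φ ≤ (U + W) * (r / 4) + T / 4)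
    (hTT : d ≤ T) (hUW : H * B ≤ U + W) (hBB : B ≤ 2) :
    H * B + 4 * (A * q) ≤ ES := by
  have t2 : y ^ 2 * Φ ≤ y ^ 2 * ((U + W) * (r / 4) + T / 4) :=
    mul_le_mul_of_nonneg_left hΦ (sq_nonneg _)
  have t3 : A * (y ^ 2 * Φ) ≤ A * (y ^ 2 * ((U + W) * (r / 4) + T / 4)) :=
    mul_le_mul_of_nonneg_left t2 hA
  have hc1 : 0 ≤ 1 - A * y ^ 2 * (r / 4) := by
    have h8 : y ^ 2 ≤ 16 := by nlinarith
    have h9 : A * y ^ 2 ≤ A * 16 := mul_le_mul_of_nonneg_left h8 hA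
    have h10 : A * y ^ 2 * (r / 4) ≤ A * 16 * (r / 4) :=
      mul_le_mul_of_nonneg_right h9 (by positivity)
    linarith
  have hc2 : 0 ≤ A * y * (2 - y / 4) :=
    mul_nonneg (mul_nonneg hA hy0) (by linarith)
  have t4 := mul_le_mul_of_nonneg_left hUW hc1
  have t5 := mul_le_mul_of_nonneg_left hTT hc2
  have hW4 : H * B * (r / 4) + d / 4 ≤ Y / 4 := by
    have h12 : H * B ≤ H * 2 := mul_le_mul_of_nonneg_left hBB hH
    have h13 := mul_le_mul_of_nonneg_right h12 (show 0 ≤ r / 4 by positivity)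
    rw [hY]
    linarith
  have t6 : A * (y ^ 2 * (H * B * (r / 4) + d / 4)) ≤ A * (y ^ 2 * (Y / 4)) :=
    mul_le_mul_of_nonneg_left (mul_le_mul_of_nonneg_left hW4 (sq_nonneg _)) hA
  have e7 : A * (y ^ 2 * (Y / 4)) = 4 * (A * q) := by
    rw [show y ^ 2 * (Y / 4) = (y ^ 2 * Y) / 4 by ring, hyY]
    ring
  have e8 : (1 - A * y ^ 2 * (r / 4)) * (H * B) + A * y * (2 - y / 4) * d
      = H * B + A * (2 * (y * d)) - A * (y ^ 2 * (H * B * (r / 4) + d / 4)) := by ring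
  have e9 : (1 - A * y ^ 2 * (r / 4)) * (U + W) + A * y * (2 - y / 4) * T
      = U + W + A * (2 * y * T) - A * (y ^ 2 * ((U + W) * (r / 4) + T / 4)) := by ring
  rw [hyd] at e8
  have e10 : A * (2 * y * T - y ^ 2 * Φ) = A * (2 * y * T) - A * (y ^ 2 * Φ) := by ring
  have e11 : A * (2 * (4 * q)) = 8 * (A * q) := by ring
  rw [e11] at e8
  linarith

/-- The defect in the second regime, in plain variables. -/
lemma R2_defect {H A J φ d l : ℝ} (hA : 0 ≤ A) (hH : 0 ≤ H) (hl : l < 0.6932)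
    (hJ : J * φ ≤ l / 4 * d ^ 2) (hφ : 0.08 * A < H * φ) :
    2.4 * A * J ≤ 5.2 * (H * d ^ 2) := by
  have hsqd : 0 ≤ H * d ^ 2 := by positivity
  rcases le_or_gt J 0 with hJ0 | hJ0
  · have : 2.4 * A * J ≤ 0 := mul_nonpos_of_nonneg_of_nonpos (by positivity) hJ0
    linarith
  · have h14 : J * (0.08 * A) ≤ J * (H * φ) := mul_le_mul_of_nonneg_left hφ.le hJ0.le
    have h15 : H * (J * φ) ≤ H * (l / 4 * d ^ 2) := mul_le_mul_of_nonneg_left hJ hH
    have h16 : H * (l / 4 * d ^ 2) ≤ H * (0.1733 * d ^ 2) := by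
      apply mul_le_mul_of_nonneg_left _ hH
      apply mul_le_mul_of_nonneg_right _ (sq_nonneg _)
      linarith
    have e1 : 2.4 * A * J = 30 * (J * (0.08 * A)) := by ring
    have e2 : J * (H * φ) = H * (J * φ) := by ring
    have e3 : H * (0.1733 * d ^ 2) = 0.1733 * (H * d ^ 2) := by ring
    rw [e1]
    linarith

lemma R2_size {H A r d ε L : ℝ} (hA : A = ε * (1 - ε)) (h0 : 0 < ε) (hε : ε ≤ 1 / 10000000)
    (hH : 0 ≤ H) (hr0 : 0 ≤ r) (hr1 : r ≤ 1.45) (hHu : H ≤ ε * L) (hL : 0 ≤ L)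
    (hsq : ε * L ^ 2 ≤ 1 / 40000) (hd1 : H * d ≤ A / 4) :
    6.2 * H * (2 * H * r + d) ≤ 2 * A := by
  have hHsq : H * H ≤ ε * (1 / 40000) := by
    have h17 : H * H ≤ (ε * L) * (ε * L) :=
      mul_le_mul hHu hHu hH (by positivity)
    have h18 : ε * (ε * L ^ 2) ≤ ε * (1 / 40000) := mul_le_mul_of_nonneg_left hsq h0.le
    have e : (ε * L) * (ε * L) = ε * (ε * L ^ 2) := by ring
    linarith
  have h19 : H * H * r ≤ ε * (1 / 40000) * 1.45 :=
    mul_le_mul hHsq hr1 hr0 (by positivity)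
  have h20 : ε ≤ 1.01 * A := by
    rw [hA]
    nlinarith
  have e : 6.2 * H * (2 * H * r + d) = 12.4 * (H * H * r) + 6.2 * (H * d) := by ring
  rw [e]
  linarith

lemma Step.R2 (S : Step ε ℓ a₁ a₂ U W T Φ ES) (hd : 0 < |a₁ - a₂|)
    (hφ : 0.08 * (ε * (1 - ε)) < binEntropy ε * ((a₁ + a₂) / 2 * (1 - (a₁ + a₂) / 2)))
    (hd1 : binEntropy ε * |a₁ - a₂| ≤ ε * (1 - ε) / 4) :
    binEntropy ε * LL ε ((a₁ + a₂) / 2) ≤ ES / 2 := by
  rw [S.target_eq]
  have hJ := J_bound S.h1 S.h2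
  have hq2 := S.quad_term
  have hUU := S.hU
  have hWW := S.hW
  have hA := S.A_nonneg
  have hH := S.hs.H_pos
  have hTT := S.hT
  have hΦ := S.hΦ2
  have hBB := S.B_le
  rw [← sq_abs (a₁ - a₂)] at hJ
  have hl := log_two_lt_d9
  have hl' := log_two_gt_d9
  have hl0 : 0 < log 2 := log_pos (by norm_num)
  have hJ2 := R2_defect hA.le hH.le (by linarith) hJ hφ
  have hr0 : 0 < (log 2)⁻¹ := by positivity
  have hrl : (log 2)⁻¹ * log 2 = 1 := by field_simp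
  have hr1 : (log 2)⁻¹ ≤ 1.45 := by nlinarith
  have hsize := R2_size (H := binEntropy ε) (A := ε * (1 - ε)) (r := (log 2)⁻¹) (d := |a₁ - a₂|)
    (ε := ε) (L := ℓ + 1) rfl S.hs.pos S.hs.eps hH.le hr0.le hr1 S.hs.H_upper
    (by have := S.hs.big; linarith) S.hs.sq hd1
  have hUW : binEntropy ε * (LL ε a₁ + LL ε a₂) ≤ U + W := by
    rw [mul_add]
    linarith
  -- the auxiliary quantities
  generalize hYdef : 2 * binEntropy ε * (log 2)⁻¹ + |a₁ - a₂| = Y at hsize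
  have hYpos : 0 < Y := by
    rw [← hYdef]
    positivity
  have hdY : |a₁ - a₂| ≤ Y := by
    rw [← hYdef]
    have : 0 ≤ 2 * binEntropy ε * (log 2)⁻¹ := by positivity
    linarith
  have hY4 : 4 * |a₁ - a₂| / Y ≤ 4 := by
    rw [div_le_iff₀ hYpos]
    linarith
  have hAr : ε * (1 - ε) * 16 * ((log 2)⁻¹ / 4) ≤ 1 := by
    have h0 := S.hs.pos
    have h1 := S.hs.eps
    have hA1 : ε * (1 - ε) ≤ 1 / 1000000 := by nlinarith
    have : ε * (1 - ε) * (log 2)⁻¹ ≤ 1 / 1000000 * 1.45 := mul_le_mul hA1 hr1 hr0.le (by norm_num)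
    nlinarith
  have low := R2_low (H := binEntropy ε) (A := ε * (1 - ε)) (r := (log 2)⁻¹) (d := |a₁ - a₂|)
    (Y := Y) (q := |a₁ - a₂| ^ 2 / Y) (y := 4 * |a₁ - a₂| / Y) (B := LL ε a₁ + LL ε a₂)
    (U := U) (W := W) (T := T) (Φ := Φ) (ES := ES) hA.le hH.le hr0.le hAr hYdef.symm
    (by positivity) hY4 (by field_simp) (by field_simp; ring) (S.hgap _ (by positivity))
    (by
      have e : (U + W) * ((log 2)⁻¹ / 4) = (U + W) / (4 * log 2) := by
        field_simp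
      rw [e]; exact hΦ)
    hTT hUW hBB
  have hfin : 6.2 * (binEntropy ε * |a₁ - a₂| ^ 2) ≤ 2 * (ε * (1 - ε) * (|a₁ - a₂| ^ 2 / Y)) := by
    have hq0 : 0 ≤ |a₁ - a₂| ^ 2 / Y := by positivity
    have h21 := mul_le_mul_of_nonneg_right hsize hq0
    have e : 6.2 * binEntropy ε * Y * (|a₁ - a₂| ^ 2 / Y) = 6.2 * (binEntropy ε * |a₁ - a₂| ^ 2) := by
      field_simp
    rw [e] at h21
    linarith
  linarith

lemma Step.R3a (S : Step ε ℓ a₁ a₂ U W T Φ ES)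
    (hd1 : ε * (1 - ε) / 4 < binEntropy ε * |a₁ - a₂|) (hd2 : |a₁ - a₂| ≤ 1 / 4) :
    binEntropy ε * LL ε ((a₁ + a₂) / 2) ≤ ES / 2 := by
  rw [S.target_eq]
  have hJ := S.J_term
  have hq2 := S.quad_term
  have hUU := S.hU
  have hWW := S.hW
  have hA := S.A_nonneg
  have hH := S.hs.H_pos
  have hHl := S.hs.H_lower
  have hTT := S.hT
  have hBB := S.B_le
  have hmid := S.hmid
  have hd0 : 0 ≤ |a₁ - a₂| := abs_nonneg _
  have hUW : binEntropy ε * (LL ε a₁ + LL ε a₂) ≤ U + W := by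
    rw [mul_add]
    linarith
  have hμ1 : ε * (1 - ε) / (20 * binEntropy ε) ≤ 1 := by
    rw [div_le_one (by positivity)]
    have h0 := S.hs.pos
    have h1 := S.hs.eps
    have hb := S.hs.big
    have : 0 < ε * ℓ := by positivity
    have h3 : ε * (41.5 : ℝ) ≤ ε * ℓ := mul_le_mul_of_nonneg_left hb h0.le
    nlinarith
  have hμH : ε * (1 - ε) / (20 * binEntropy ε) * binEntropy ε = ε * (1 - ε) / 20 := by
    field_simp
  generalize ε * (1 - ε) / (20 * binEntropy ε) = μ at hμ1 hμH hmid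
  have t1 := mul_le_mul_of_nonneg_left hUW (show 0 ≤ 1 - μ by linarith)
  have t2 := mul_le_mul_of_nonneg_left hTT hH.le
  have hμ0 : 0 ≤ μ * binEntropy ε := by
    rw [hμH]
    positivity
  have t3 : μ * binEntropy ε * (LL ε a₁ + LL ε a₂) ≤ μ * binEntropy ε * 2 :=
    mul_le_mul_of_nonneg_left hBB hμ0
  rw [hμH] at t3
  have t4 : |a₁ - a₂| ^ 2 ≤ 1 / 4 * |a₁ - a₂| := by nlinarith
  have t5 := mul_le_mul_of_nonneg_left t4 hH.le
  have e : (1 - μ) * (binEntropy ε * (LL ε a₁ + LL ε a₂))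
      = binEntropy ε * (LL ε a₁ + LL ε a₂) - μ * binEntropy ε * (LL ε a₁ + LL ε a₂) := by ring
  rw [hμH] at e
  linarith

/-- The slope of the plane attached to `1/2`. -/
lemma Small.lam_half {ε ℓ : ℝ} (hs : Small ε ℓ) : 0.85 ≤ lamx ε ℓ (1 / 2) := by
  unfold lamx
  have h1 := hs.K0_lower
  have hb := hs.big
  have e : -log (1 / 2 : ℝ) = log 2 := by
    rw [one_div, log_inv]
    ring
  rw [e]
  have hl := log_two_lt_d9
  have hl0 : 0 < log 2 := log_pos (by norm_num)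
  rw [le_div_iff₀ (by linarith)]
  linarith

lemma Step.R3b (S : Step ε ℓ a₁ a₂ U W T Φ ES)
    (hd1 : 1 / 4 ≤ |a₁ - a₂|) (hd2 : |a₁ - a₂| ≤ 7 / 10) :
    binEntropy ε * LL ε ((a₁ + a₂) / 2) ≤ ES / 2 := by
  rw [S.target_eq]
  have hJ := S.J_term
  have hq2 := S.quad_term
  have hUU := S.hU
  have hWW := S.hW
  have hH := S.hs.H_pos
  have hTT := S.hT
  have hBB := S.B_le
  have hb := S.hs.big
  have hpl := S.hs.lam_half
  have hlam1 := S.hs.lamx_le (x := 1 / 2) (by norm_num) (by norm_num)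
  have hp := S.hpx (1 / 2) (by norm_num) (by norm_num)
  have hUW : binEntropy ε * (LL ε a₁ + LL ε a₂) ≤ U + W := by
    rw [mul_add]
    linarith
  generalize lamx ε ℓ (1 / 2) = lam at hpl hlam1 hp
  have hδ : (1 / 2 : ℝ) / ℓ ≤ 0.0121 := by
    rw [div_le_iff₀ (by linarith)]
    linarith
  have hδ0 : 0 ≤ (1 / 2 : ℝ) / ℓ := by
    have : 0 < ℓ := by linarith
    positivity
  generalize (1 / 2 : ℝ) / ℓ = δ at hδ hδ0 hp
  have t1 := mul_le_mul_of_nonneg_left hUW (show 0 ≤ lam by linarith)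
  have t2 := mul_le_mul_of_nonneg_left hTT
    (mul_nonneg hH.le (show 0 ≤ 2 - δ by linarith))
  have t3 : binEntropy ε * (LL ε a₁ + LL ε a₂) ≤ binEntropy ε * 2 :=
    mul_le_mul_of_nonneg_left hBB hH.le
  have t4 := mul_le_mul_of_nonneg_left t3 (show 0 ≤ 1 - lam by linarith)
  have hd3 : 0 ≤ (|a₁ - a₂| - 1 / 4) * (7 / 10 - |a₁ - a₂|) :=
    mul_nonneg (by linarith) (by linarith)
  have hkey : 0.15 + 0.0401 * |a₁ - a₂| + |a₁ - a₂| ^ 2 ≤ (1 - δ / 2) * |a₁ - a₂| := by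
    have : δ * |a₁ - a₂| ≤ 0.0121 * |a₁ - a₂| :=
      mul_le_mul_of_nonneg_right hδ (by linarith)
    nlinarith
  have hkey2 := mul_le_mul_of_nonneg_left hkey hH.le
  nlinarith

/-- The key numerical estimate in the last regime. -/
lemma Small.lam_key {ε ℓ x : ℝ} (hs : Small ε ℓ) (hx0 : 0 < x) (hx1 : x ≤ 1) :
    2 + 1 / ℓ ≤ lamx ε ℓ x * (kap ε * (-log x) + 2.8 * (1 - kap ε * log 2)) := by
  have hb := hs.big
  have hℓ : 0 < ℓ := by linarith
  have hX := log_neg_nonneg hx0 hx1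
  have hK := hs.K0_lower
  have hκ := hs.kap_lower
  have hκ0 := hs.kap_nonneg
  have hξ := hs.xi_le
  have hε := hs.eps
  have hε0 := hs.pos
  have hinv : 1 / ℓ ≤ 1 / 41.5 := by
    apply one_div_le_one_div_of_le <;> linarith
  have hinv0 : 0 < 1 / ℓ := by positivity
  have hz : 1 / ℓ * ℓ = 1 := by field_simp
  generalize 1 / ℓ = z at hinv hinv0 hz ⊢
  have hlam : lamx ε ℓ x * (ℓ + -log x) = K0 ε ℓ := hs.lamx_mul hx0 hx1
  have hlam0 := hs.lamx_nonneg hx0 hx1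
  generalize -log x = X at hX hlam hlam0 ⊢
  generalize lamx ε ℓ x = lam at hlam hlam0 ⊢
  generalize K0 ε ℓ = K at hK hlam
  have hK0 : 0 < K := by linarith
  -- two inequalities for `K`
  have h1 : 2 + z ≤ K * kap ε := by
    have h2 : K * (2.4 * (1 - ε)) ≤ K * (kap ε * (ℓ + 1)) :=
      mul_le_mul_of_nonneg_left hκ hK0.le
    have h3 : (2 + z) * (ℓ + 1) ≤ K * (kap ε) * (ℓ + 1) := by
      have h4 : (9 / 10 * ℓ - 1 - 1 / 100000) * (2.4 * (1 - ε)) ≤ K * (2.4 * (1 - ε)) :=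
        mul_le_mul_of_nonneg_right hK (by linarith)
      have h5 : ε * ℓ ≤ 1 / 1000000 := by
        have := hs.lin
        nlinarith
      nlinarith
    exact le_of_mul_le_mul_right h3 (by linarith)
  have h6 : 2 * ℓ + 1 ≤ K * (2.8 * (1 - kap ε * log 2)) := by
    have h7 : (9 / 10 * ℓ - 1 - 1 / 100000) * (2.8 * (1 - 0.0401)) ≤ K * (2.8 * (1 - 0.0401)) :=
      mul_le_mul_of_nonneg_right hK (by norm_num)
    have h8 : K * (2.8 * (1 - 0.0401)) ≤ K * (2.8 * (1 - kap ε * log 2)) :=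
      mul_le_mul_of_nonneg_left (by linarith) hK0.le
    nlinarith
  have hpos : 0 < ℓ + X := by linarith
  have hgoal : (2 + z) * (ℓ + X) ≤ lam * (kap ε * X + 2.8 * (1 - kap ε * log 2)) * (ℓ + X) := by
    have e : lam * (kap ε * X + 2.8 * (1 - kap ε * log 2)) * (ℓ + X)
        = (lam * (ℓ + X)) * (kap ε * X + 2.8 * (1 - kap ε * log 2)) := by ring
    rw [e, hlam]
    have h9 := mul_le_mul_of_nonneg_right h1 hX
    have e2 : (2 + z) * (ℓ + X) = (2 + z) * X + 2 * ℓ + z * ℓ := by ring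
    have e3 : z * ℓ = 1 := hz
    rw [e2, e3]
    nlinarith
  exact le_of_mul_le_mul_right hgoal hpos

lemma Step.R3c (S : Step ε ℓ a₁ a₂ U W T Φ ES)
    (hd1 : 7 / 10 ≤ |a₁ - a₂|) (hd2 : |a₁ - a₂| < 1) :
    binEntropy ε * LL ε ((a₁ + a₂) / 2) ≤ ES / 2 := by
  have hH := S.hs.H_pos
  have hb := S.hs.big
  have hℓ : 0 < ℓ := by linarith
  have hTT := S.hT
  have hLa := LL_le_one (ε := ε) (a := (a₁ + a₂) / 2) S.hs
  have hgap := LL_gap S.hs S.h1 S.h2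
  set d := |a₁ - a₂| with hd
  set x := 1 - d with hx
  have hx0 : 0 < x := by rw [hx]; linarith
  have hx3 : x ≤ 3 / 10 := by rw [hx]; linarith
  have hx1 : x ≤ 1 := by linarith
  have hp := S.hpx x hx0 hx1
  have hlam0 := S.hs.lamx_nonneg hx0 hx1
  have hkey := S.hs.lam_key hx0 hx1
  -- a lower bound for the envelope
  have hL : x * (kap ε * (-log x) + 2.8 * (1 - kap ε * log 2)) ≤ LL ε x := by
    unfold LL
    have h1 := entropy_ge_mul_log hx0.le hx1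
    have h2 := mul_le_mul_of_nonneg_left h1 S.hs.kap_nonneg
    have hξ := S.hs.xi_le
    have h3 : 2.8 * x ≤ 4 * x * (1 - x) := by nlinarith
    have h4 := mul_le_mul_of_nonneg_left h3 (show 0 ≤ 1 - kap ε * log 2 by linarith)
    nlinarith
  have hUW : binEntropy ε * (LL ε x) ≤ U + W := by
    have := S.hU
    have := S.hW
    have h5 := mul_le_mul_of_nonneg_left hgap hH.le
    rw [mul_add] at h5
    linarith
  have hδ : x / ℓ ≤ 2 := by
    rw [div_le_iff₀ hℓ]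
    linarith
  have t1 := mul_le_mul_of_nonneg_left hUW hlam0
  have t2 := mul_le_mul_of_nonneg_left hTT (mul_nonneg hH.le (show 0 ≤ 2 - x / ℓ by linarith))
  have t3 : lamx ε ℓ x * (x * (kap ε * (-log x) + 2.8 * (1 - kap ε * log 2)))
      ≤ lamx ε ℓ x * LL ε x := mul_le_mul_of_nonneg_left hL hlam0
  have t4 : x * (2 + 1 / ℓ) ≤ x * (lamx ε ℓ x * (kap ε * (-log x) + 2.8 * (1 - kap ε * log 2))) :=
    mul_le_mul_of_nonneg_left hkey hx0.le
  have e : x * (lamx ε ℓ x * (kap ε * (-log x) + 2.8 * (1 - kap ε * log 2)))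
      = lamx ε ℓ x * (x * (kap ε * (-log x) + 2.8 * (1 - kap ε * log 2))) := by ring
  rw [e] at t4
  have h6 : x * (2 + 1 / ℓ) ≤ lamx ε ℓ x * LL ε x := by linarith
  -- assemble
  have h7 : 2 ≤ lamx ε ℓ x * LL ε x + (2 - x / ℓ) * d := by
    have hd' : d = 1 - x := by rw [hx]; ring
    rw [hd']
    have e2 : x / ℓ = x * (1 / ℓ) := by ring
    rw [e2]
    have : 0 ≤ x * (1 / ℓ) * x := by positivity
    nlinarith
  have h8 := mul_le_mul_of_nonneg_left h7 hH.le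
  have h9 := mul_le_mul_of_nonneg_left hLa hH.le
  nlinarith

lemma Step.Rtop (S : Step ε ℓ a₁ a₂ U W T Φ ES) (hd1 : 1 ≤ |a₁ - a₂|) :
    binEntropy ε * LL ε ((a₁ + a₂) / 2) ≤ ES / 2 := by
  have hH := S.hs.H_pos
  have hTT := S.hT
  have hLa := LL_le_one (ε := ε) (a := (a₁ + a₂) / 2) S.hs
  have h9 := mul_le_mul_of_nonneg_left hLa hH.le
  have h1 := S.htop
  have h2 : 2 * binEntropy ε * 1 ≤ 2 * binEntropy ε * T :=
    mul_le_mul_of_nonneg_left (by linarith) (by positivity)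
  linarith

/-- The closure of the induction step. -/
theorem Step.closure (S : Step ε ℓ a₁ a₂ U W T Φ ES) :
    binEntropy ε * LL ε ((a₁ + a₂) / 2) ≤ ES / 2 := by
  rcases eq_or_ne a₁ a₂ with h | h
  · exact S.R0 h
  have hd : 0 < |a₁ - a₂| := abs_pos.mpr (sub_ne_zero.mpr h)
  rcases le_or_gt (binEntropy ε * ((a₁ + a₂) / 2 * (1 - (a₁ + a₂) / 2))) (0.08 * (ε * (1 - ε))) with
    h1 | h1
  · exact S.R1 hd h1
  rcases le_or_gt (binEntropy ε * |a₁ - a₂|) (ε * (1 - ε) / 4) with h2 | h2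
  · exact S.R2 hd h1 h2
  rcases le_or_gt |a₁ - a₂| (1 / 4) with h3 | h3
  · exact S.R3a h2 h3
  rcases le_or_gt |a₁ - a₂| (7 / 10) with h4 | h4
  · exact S.R3b h3.le h4
  rcases lt_or_ge |a₁ - a₂| 1 with h5 | h5
  · exact S.R3c h4.le h5
  · exact S.Rtop h5

end regimes

end Vale.Agent.P322
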