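import Mathlib

/-!
Definitions for the Courtade-Kumar problem: the discrete cube, the binary symmetric
channel, mutual information in bits and the binary entropy in bits.
-/

namespace Vale.Agent.P322

/-- The discrete cube `{-1,1}^n`, each sign being encoded by a `Bool`. -/
abbrev Cube (n : ℕ) := Fin n → Bool

/-- The transition probability `P(Y = y | X = x)` of `n` independent binary symmetric
channels with crossover probability `ε`. -/
noncomputable def channel {n : ℕ} (ε : ℝ) (x y : Cube n) : ℝ :=
  ∏ i, if y i = x i then 1 - ε else ε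

/-- The joint law `P(f(X) = b, Y = y)` for `X` uniform on the cube. -/
noncomputable def joint {n : ℕ} (ε : ℝ) (f : Cube n → Bool) (b : Bool) (y : Cube n) : ℝ :=
  ∑ x, if f x = b then (1 / 2 ^ n) * channel ε x y else 0

/-- The mutual information `I(f(X); Y)` in bits, by its defining formula
`∑ P(b, y) log₂ (P(b, y) / (P(b) P(y)))`. -/
noncomputable def mutualInfo {n : ℕ} (ε : ℝ) (f : Cube n → Bool) : ℝ :=
  ∑ b : Bool, ∑ y : Cube n, joint ε f b y *
    Real.logb 2 (joint ε f b y / ((∑ y', joint ε f b y') * (∑ b', joint ε f b' y)))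

/-- The binary entropy in bits. -/
noncomputable def h2 (p : ℝ) : ℝ :=
  -p * Real.logb 2 p - (1 - p) * Real.logb 2 (1 - p)

/-- The average of a real function over the cube. -/
noncomputable def avg {n : ℕ} (F : Cube n → ℝ) : ℝ :=
  (∑ y, F y) / 2 ^ n

/-- The noise operator: `noise ε g y = E[g(X) | Y = y]`. -/
noncomputable def noise {n : ℕ} (ε : ℝ) (g : Cube n → ℝ) (y : Cube n) : ℝ :=
  ∑ x, channel ε x y * g x

end Vale.Agent.P322
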