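import Vale.Agent.P322.Info

/-!
Elementary bounds for the binary entropy, and the passage from the power inequality to
mutual information.
-/

namespace Vale.Agent.P322

open Real

/-- `h(p) ≥ -φ log φ` for `φ = p (1-p)`. -/
lemma binEntropy_ge {p : ℝ} (h0 : 0 ≤ p) (h1 : p ≤ 1) :
    -(p * (1 - p)) * log (p * (1 - p)) ≤ binEntropy p := by
  rcases eq_or_lt_of_le h0 with rfl | h0'
  · simp
  rcases eq_or_lt_of_le h1 with rfl | h1'
  · simp
  have h1p : 0 < 1 - p := by linarith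
  rw [log_mul h0'.ne' h1p.ne']
  unfold binEntropy
  rw [log_inv, log_inv]
  have hl1 : log p ≤ 0 := log_nonpos h0 h1
  have hl2 : log (1 - p) ≤ 0 := log_nonpos h1p.le (by linarith)
  have e : p * -log p + (1 - p) * -log (1 - p) - (-(p * (1 - p)) * (log p + log (1 - p)))
      = p ^ 2 * (-log p) + (1 - p) ^ 2 * (-log (1 - p)) := by ring
  have h3 : 0 ≤ p ^ 2 * (-log p) := mul_nonneg (sq_nonneg _) (by linarith)
  have h4 : 0 ≤ (1 - p) ^ 2 * (-log (1 - p)) := mul_nonneg (sq_nonneg _) (by linarith)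
  linarith

/-- The function whose sign gives Pinsker's inequality in the binary case. -/
lemma pinsker_aux {a : ℝ} (h1 : 1 / 2 ≤ a) (h2 : a < 1) : 0 ≤ log a - log (1 - a) - 4 * a + 2 := by
  have hd : ∀ x ∈ Set.Ico (1 / 2 : ℝ) 1,
      HasDerivAt (fun x => log x - log (1 - x) - 4 * x + 2) (1 / x + 1 / (1 - x) - 4) x := by
    intro x hx
    have hx0 : x ≠ 0 := by linarith [hx.1]
    have hx1 : 1 - x ≠ 0 := by linarith [hx.2]
    have h3 : HasDerivAt (fun x : ℝ => 1 - x) (-1) x := by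
      simpa using (hasDerivAt_id x).const_sub 1
    have h4 := (hasDerivAt_log hx0).sub (h3.log hx1)
    have h5 : HasDerivAt (fun x => log x - log (1 - x) - 4 * x + 2)
        (x⁻¹ - -1 / (1 - x) - 4 * 1) x := (h4.sub ((hasDerivAt_id x).const_mul 4)).add_const 2
    refine h5.congr_deriv ?_
    rw [div_eq_mul_inv (-1 : ℝ), one_div, one_div]
    ring
  have hmono : MonotoneOn (fun x => log x - log (1 - x) - 4 * x + 2) (Set.Ico (1 / 2 : ℝ) 1) := by
    apply monotoneOn_of_deriv_nonneg (convex_Ico _ _)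
    · exact fun x hx => (hd x hx).continuousAt.continuousWithinAt
    · exact fun x hx => (hd x (interior_subset hx)).differentiableAt.differentiableWithinAt
    · intro x hx
      rw [(hd x (interior_subset hx)).deriv]
      rw [interior_Ico] at hx
      have hx0 : 0 < x := by linarith [hx.1]
      have hx1 : 0 < 1 - x := by linarith [hx.2]
      have : 1 / x + 1 / (1 - x) = 1 / (x * (1 - x)) := by
        field_simp
        ring
      rw [this]
      have h6 : x * (1 - x) ≤ 1 / 4 := by nlinarith [sq_nonneg (x - 1 / 2)]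
      have h7 : 4 ≤ 1 / (x * (1 - x)) := by
        rw [le_div_iff₀ (by positivity)]
        linarith
      linarith
  have h5 := hmono (Set.left_mem_Ico.2 (by norm_num)) ⟨h1, h2⟩ h1
  simp only at h5
  have e : (1 : ℝ) - 1 / 2 = 1 / 2 := by norm_num
  rw [e] at h5
  linarith

/-- The binary case of Pinsker's inequality, for the upper half of the interval. -/
lemma pinsker_half {a : ℝ} (h1 : 1 / 2 ≤ a) (h2 : a ≤ 1) :
    2 * (a - 1 / 2) ^ 2 ≤ log 2 - binEntropy a := by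
  have hc : ContinuousOn (fun x => log 2 - binEntropy x - 2 * (x - 1 / 2) ^ 2)
      (Set.Icc (1 / 2 : ℝ) 1) := by
    have : Continuous (fun x => log 2 - binEntropy x - 2 * (x - 1 / 2) ^ 2) := by
      have := binEntropy_continuous
      fun_prop
    exact this.continuousOn
  have hmono : MonotoneOn (fun x => log 2 - binEntropy x - 2 * (x - 1 / 2) ^ 2)
      (Set.Icc (1 / 2 : ℝ) 1) := by
    have hd : ∀ x ∈ Set.Ioo (1 / 2 : ℝ) 1,
        HasDerivAt (fun x => log 2 - binEntropy x - 2 * (x - 1 / 2) ^ 2)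
          (-(log (1 - x) - log x) - 4 * (x - 1 / 2)) x := by
      intro x hx
      have hx0 : x ≠ 0 := by linarith [hx.1]
      have hx1 : x ≠ 1 := by linarith [hx.2]
      have h3 := (hasDerivAt_binEntropy hx0 hx1).const_sub (log 2)
      have h4 : HasDerivAt (fun x : ℝ => 2 * (x - 1 / 2) ^ 2) (4 * (x - 1 / 2)) x := by
        have h9 : HasDerivAt (fun x : ℝ => 2 * (x - 1 / 2) ^ 2)
            (2 * ((2 : ℕ) * (x - 1 / 2) ^ (2 - 1) * 1)) x :=
          (((hasDerivAt_id' x).sub_const (1 / 2 : ℝ)).pow 2).const_mul (2 : ℝ)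
        refine h9.congr_deriv ?_
        norm_num
        ring
      exact h3.sub h4
    apply monotoneOn_of_deriv_nonneg (convex_Icc _ _) hc
    · intro x hx
      rw [interior_Icc] at hx
      exact (hd x hx).differentiableAt.differentiableWithinAt
    · intro x hx
      rw [interior_Icc] at hx
      rw [(hd x hx).deriv]
      have := pinsker_aux hx.1.le hx.2
      linarith
  have h5 := hmono (Set.left_mem_Icc.2 (by norm_num)) ⟨h1, h2⟩ h1
  simp only at h5
  have e : (2 : ℝ)⁻¹ = 1 / 2 := by norm_num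
  rw [← e, binEntropy_two_inv] at h5
  norm_num at h5
  linarith

/-- The binary case of Pinsker's inequality. -/
lemma pinsker {a : ℝ} (h0 : 0 ≤ a) (h1 : a ≤ 1) :
    2 * (a - 1 / 2) ^ 2 ≤ log 2 - binEntropy a := by
  rcases le_total (1 / 2) a with h | h
  · exact pinsker_half h h1
  · have := pinsker_half (a := 1 - a) (by linarith) (by linarith)
    rw [binEntropy_one_sub] at this
    nlinarith

/-- The pointwise bound in three regions. -/
lemma pointwise_entropy {γ φ₀ φ₁ K p : ℝ} (hγ1 : γ < 1) (h00 : 0 < φ₀) (h01 : φ₀ ≤ φ₁)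
    (hK : K = -log φ₁) (hKpos : 0 < K) (hγ0 : 0 < γ)
    (hcond : φ₁ ^ (γ - 1) * K ≤ log 4 * φ₀ ^ (γ - 1)) (hp0 : 0 ≤ p) (hp1 : p ≤ 1) :
    (p * (1 - p)) ^ γ ≤ φ₀ ^ γ + φ₀ ^ (γ - 1) / K * binEntropy p := by
  set φ := p * (1 - p) with hφ
  have hφ0 : 0 ≤ φ := mul_nonneg hp0 (by linarith)
  have hφ1 : φ ≤ 1 / 4 := by
    rw [hφ]
    nlinarith [sq_nonneg (p - 1 / 2)]
  have hH : 0 ≤ binEntropy p := binEntropy_nonneg hp0 hp1
  have hφ₀γ : 0 < φ₀ ^ (γ - 1) := rpow_pos_of_pos h00 _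
  have hb : 0 ≤ φ₀ ^ (γ - 1) / K := by positivity
  have hφ₁pos : 0 < φ₁ := lt_of_lt_of_le h00 h01
  have hφ₁γ : 0 < φ₁ ^ (γ - 1) := rpow_pos_of_pos hφ₁pos _
  have hφ₀γ' : 0 < φ₀ ^ γ := rpow_pos_of_pos h00 _
  have hGe := binEntropy_ge hp0 hp1
  rw [← hφ] at hGe
  by_cases c1 : φ ≤ φ₀
  · have : φ ^ γ ≤ φ₀ ^ γ := rpow_le_rpow hφ0 c1 hγ0.le
    have h3 := mul_nonneg hb hH
    linarith
  rw [not_le] at c1
  have hφpos : 0 < φ := lt_trans h00 c1
  have esplit : φ ^ γ = φ ^ (γ - 1) * φ := by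
    rw [rpow_sub_one hφpos.ne', div_mul_cancel₀ _ hφpos.ne']
  by_cases c2 : φ ≤ φ₁
  · have h3 : φ ^ (γ - 1) ≤ φ₀ ^ (γ - 1) := rpow_le_rpow_of_nonpos h00 c1.le (by linarith)
    have h4 : K * φ ≤ binEntropy p := by
      have h5 : log φ ≤ log φ₁ := log_le_log hφpos c2
      have h6 : K * φ ≤ -φ * log φ := by
        rw [hK]
        nlinarith
      linarith
    have h7 : φ ≤ binEntropy p / K := by
      rw [le_div_iff₀ hKpos]
      linarith
    rw [esplit]
    calc φ ^ (γ - 1) * φ ≤ φ₀ ^ (γ - 1) * (binEntropy p / K) := by gcongr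
      _ = φ₀ ^ (γ - 1) / K * binEntropy p := by ring
      _ ≤ _ := by linarith
  rw [not_le] at c2
  have h3 : φ ^ (γ - 1) ≤ φ₁ ^ (γ - 1) := rpow_le_rpow_of_nonpos hφ₁pos c2.le (by linarith)
  have hl4 : 0 < log 4 := log_pos (by norm_num)
  have h4 : log 4 * φ ≤ binEntropy p := by
    have h5 : log φ ≤ log (1 / 4) := log_le_log hφpos hφ1
    have h6 : log (1 / 4 : ℝ) = -log 4 := by
      rw [one_div, log_inv]
    rw [h6] at h5
    have h7 : log 4 * φ ≤ -φ * log φ := by nlinarith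
    linarith
  have h7 : φ ≤ binEntropy p / log 4 := by
    rw [le_div_iff₀ hl4]
    linarith
  have h8 : φ₁ ^ (γ - 1) / log 4 ≤ φ₀ ^ (γ - 1) / K := by
    rw [div_le_div_iff₀ hl4 hKpos]
    linarith
  rw [esplit]
  calc φ ^ (γ - 1) * φ ≤ φ₁ ^ (γ - 1) * (binEntropy p / log 4) := by gcongr
    _ = φ₁ ^ (γ - 1) / log 4 * binEntropy p := by ring
    _ ≤ φ₀ ^ (γ - 1) / K * binEntropy p := by gcongr
    _ ≤ _ := by linarith

/-- The main quantitative bound on mutual information. -/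
theorem quant_bound {ε γ θ φ₁ K : ℝ} (h0 : 0 < ε) (h1 : ε < 1) (hγ : 1 / 2 ≤ γ) (hγ1 : γ < 1)
    (hθ0 : 0 < θ) (hθ1 : θ ≤ 1) (h01 : θ * (ε * (1 - ε)) ≤ φ₁)
    (hK : K = -log φ₁) (hKpos : 0 < K)
    (hcond : φ₁ ^ (γ - 1) * K ≤ log 4 * (θ * (ε * (1 - ε))) ^ (γ - 1))
    (hKA : K * (ε * (1 - ε)) ≤ 1 / 2) {n : ℕ} (f : Cube n → Bool) :
    K * (ε * (1 - ε)) * (θ ^ (1 - γ) * (γ ^ γ - θ ^ γ)) ≤ log 2 * (1 - mutualInfo ε f) := by
  set A := ε * (1 - ε) with hA
  have hApos : 0 < A := mul_pos h0 (by linarith)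
  have hγ0 : 0 < γ := by linarith
  set φ₀ := θ * A with hφ₀
  have hφ₀pos : 0 < φ₀ := by positivity
  set a := avg (indicator f) with ha
  set p := noise ε (indicator f) with hp
  have hp01 := noise_mem h0.le h1.le (indicator f) (indicator_mem f)
  have ha01 : 0 ≤ a ∧ a ≤ 1 := by
    constructor
    · exact avg_nonneg fun y => (indicator_mem f y).1
    · have := avg_mono (F := indicator f) (G := fun _ => 1) fun y => (indicator_mem f y).2
      rwa [avg_const] at this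
  rw [one_sub_mutualInfo h0.le h1.le]
  rw [← ha, ← hp]
  -- the power inequality
  have hpow := power_ineq h0.le h1.le hγ hγ1 (indicator f) (indicator_mem f)
  rw [← ha, ← hp, ← hA] at hpow
  -- the pointwise bound, averaged
  have hpt : ∀ y, (p y * (1 - p y)) ^ γ ≤ φ₀ ^ γ + φ₀ ^ (γ - 1) / K * binEntropy (p y) :=
    fun y => pointwise_entropy hγ1 hφ₀pos h01 hK hKpos hγ0 hcond (hp01 y).1 (hp01 y).2
  have havgpt := avg_mono hpt
  rw [avg_add, avg_const_mul, avg_const] at havgpt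
  set E := avg (fun y => binEntropy (p y)) with hE
  set e := 4 * a * (1 - a) with he
  -- rewriting the powers of A
  have h2 : (γ * A) ^ γ = γ ^ γ * A ^ γ := mul_rpow hγ0.le hApos.le
  have h3 : φ₀ ^ γ = θ ^ γ * A ^ γ := mul_rpow hθ0.le hApos.le
  have h4 : φ₀ ^ (γ - 1) = θ ^ (γ - 1) * A ^ (γ - 1) := mul_rpow hθ0.le hApos.le
  have hAγ : 0 < A ^ γ := rpow_pos_of_pos hApos _
  have hθγ : 0 < θ ^ (γ - 1) := rpow_pos_of_pos hθ0 _
  have hAγ1 : 0 < A ^ (γ - 1) := rpow_pos_of_pos hApos _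
  have e5 : A ^ γ = A ^ (γ - 1) * A := by
    rw [rpow_sub_one hApos.ne', div_mul_cancel₀ _ hApos.ne']
  have e6 : θ ^ (1 - γ) * θ ^ (γ - 1) = 1 := by
    rw [← rpow_add hθ0]
    simp
  have hbnd : (γ ^ γ * e - θ ^ γ) * A ^ γ ≤ φ₀ ^ (γ - 1) / K * E := by
    have : γ ^ γ * A ^ γ * e ≤ θ ^ γ * A ^ γ + φ₀ ^ (γ - 1) / K * E := by
      rw [h2] at hpow
      rw [h3] at havgpt
      linarith
    linarith
  -- solve for E
  have hmain : K * A * (θ ^ (1 - γ) * (γ ^ γ * e - θ ^ γ)) ≤ E := by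
    rw [h4, e5] at hbnd
    have h6 : (γ ^ γ * e - θ ^ γ) * (A ^ (γ - 1) * A) * (K * θ ^ (1 - γ))
        ≤ θ ^ (γ - 1) * A ^ (γ - 1) / K * E * (K * θ ^ (1 - γ)) := by
      apply mul_le_mul_of_nonneg_right hbnd
      have := rpow_pos_of_pos hθ0 (1 - γ)
      positivity
    have h7 : θ ^ (γ - 1) * A ^ (γ - 1) / K * E * (K * θ ^ (1 - γ))
        = A ^ (γ - 1) * E * (θ ^ (1 - γ) * θ ^ (γ - 1)) := by
      field_simp
    rw [h7, e6, mul_one] at h6
    have h8 : (γ ^ γ * e - θ ^ γ) * (A ^ (γ - 1) * A) * (K * θ ^ (1 - γ))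
        = A ^ (γ - 1) * (K * A * (θ ^ (1 - γ) * (γ ^ γ * e - θ ^ γ))) := by ring
    rw [h8] at h6
    exact le_of_mul_le_mul_left h6 hAγ1
  -- Pinsker
  have hP := pinsker ha01.1 ha01.2
  have hem : 1 - e = 4 * (a - 1 / 2) ^ 2 := by
    rw [he]
    ring
  have he1 : 0 ≤ 1 - e := by
    rw [hem]
    positivity
  set c' := θ ^ (1 - γ) with hc'
  have hc'0 : 0 ≤ c' := (rpow_pos_of_pos hθ0 _).le
  have hc'1 : c' ≤ 1 := rpow_le_one hθ0.le hθ1 (by linarith)
  have hγγ : γ ^ γ ≤ 1 := rpow_le_one hγ0.le hγ1.le hγ0.le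
  have hγγ0 : 0 ≤ γ ^ γ := (rpow_pos_of_pos hγ0 _).le
  set Y := K * A * c' with hY
  have hY0 : 0 ≤ Y := by positivity
  have hY1 : Y ≤ 1 / 2 := by
    have : K * A * c' ≤ K * A * 1 := by gcongr
    rw [hY]
    linarith
  have hYγ : Y * γ ^ γ ≤ 1 / 2 := by
    have : Y * γ ^ γ ≤ Y * 1 := by gcongr
    linarith
  have hfinal : K * A * (c' * (γ ^ γ - θ ^ γ)) = Y * (γ ^ γ - θ ^ γ) := by
    rw [hY]
    ring
  have hmain' : Y * (γ ^ γ * e - θ ^ γ) ≤ E := by
    rw [hY]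
    linarith [hmain, (by ring : K * A * (c' * (γ ^ γ * e - θ ^ γ))
      = K * A * c' * (γ ^ γ * e - θ ^ γ))]
  rw [hfinal]
  have h9 : 0 ≤ (1 - e) * (1 / 2 - Y * γ ^ γ) := mul_nonneg he1 (by linarith)
  nlinarith

end Vale.Agent.P322
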