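import Vale.Agent.P322.Closure

/-!
The induction on the dimension and the exact low-noise theorem.
-/

namespace Vale.Agent.P322

open Real

lemma avg_abs_ge {n : ℕ} (u w : Cube n → ℝ) : |avg u - avg w| ≤ avg (fun y => |u y - w y|) := by
  rw [abs_le]
  constructor
  · have h : avg w ≤ avg (fun y => u y + |u y - w y|) := by
      apply avg_mono
      intro y
      have := neg_abs_le (u y - w y)
      linarith
    rw [avg_add] at h
    linarith
  · have h : avg u ≤ avg (fun y => w y + |u y - w y|) := by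
      apply avg_mono
      intro y
      have := le_abs_self (u y - w y)
      linarith
    rw [avg_add] at h
    linarith

lemma avg_sq_ge {n : ℕ} (c : Cube n → ℝ) : (avg c) ^ 2 ≤ avg (fun y => c y ^ 2) := by
  have h : 0 ≤ avg (fun y => (c y - avg c) ^ 2) := avg_nonneg (fun y => sq_nonneg _)
  have e : (fun y => (c y - avg c) ^ 2) =
      fun y => c y ^ 2 + ((-2 * avg c) * c y + (avg c) ^ 2) := by
    funext y
    ring
  rw [e, avg_add, avg_add, avg_const_mul, avg_const] at h
  nlinarith

/-- `φ ≤ h / (2 log 2)`. -/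
lemma phi_le_entropy {x : ℝ} (h0 : 0 ≤ x) (h1 : x ≤ 1) :
    2 * log 2 * (x * (1 - x)) ≤ binEntropy x := by
  have hl : 0 < log 2 := log_pos (by norm_num)
  rcases le_total x (1 / 2) with h | h
  · have := entropy_ge_chord h0 h
    have h2 : 2 * log 2 * (x * (1 - x)) ≤ 2 * log 2 * x := by
      apply mul_le_mul_of_nonneg_left _ (by positivity)
      nlinarith
    linarith
  · have := entropy_ge_chord (show 0 ≤ 1 - x by linarith) (by linarith)
    rw [binEntropy_one_sub] at this
    have h2 : 2 * log 2 * (x * (1 - x)) ≤ 2 * log 2 * (1 - x) := by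
      apply mul_le_mul_of_nonneg_left _ (by positivity)
      nlinarith
    linarith

/-- The pointwise bound for `φ` at the midpoint. -/
lemma phi_mid_le {u w : ℝ} (hu : u ∈ Set.Icc (0 : ℝ) 1) (hw : w ∈ Set.Icc (0 : ℝ) 1) :
    (u + w) / 2 * (1 - (u + w) / 2)
      ≤ (binEntropy u + binEntropy w) / (4 * log 2) + |u - w| / 4 := by
  have hl : 0 < log 2 := log_pos (by norm_num)
  have h1 := phi_le_entropy hu.1 hu.2
  have h2 := phi_le_entropy hw.1 hw.2
  have hab : |u - w| ≤ 1 := by
    rw [abs_le]
    constructor <;> linarith [hu.1, hu.2, hw.1, hw.2]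
  have h3 : (u - w) ^ 2 ≤ |u - w| := by
    rw [← sq_abs]
    nlinarith [abs_nonneg (u - w)]
  have e : (u + w) / 2 * (1 - (u + w) / 2)
      = (u * (1 - u) + w * (1 - w)) / 2 + (u - w) ^ 2 / 4 := by ring
  rw [e]
  have h4 : (u * (1 - u) + w * (1 - w)) / 2 ≤ (binEntropy u + binEntropy w) / (4 * log 2) := by
    rw [le_div_iff₀ (by positivity)]
    nlinarith
  linarith

/-- The base case of the induction. -/
lemma base_case {ε ℓ u : ℝ} (hs : Small ε ℓ) (hu : u ∈ Set.Icc (0 : ℝ) 1) :
    binEntropy ε * LL ε u ≤ binEntropy u := by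
  unfold LL
  have h0 := hs.pos
  have hε := hs.eps
  have hH := hs.H_pos
  have hHu := hs.H_upper
  have hlin := hs.lin
  have hk := hs.kap_mul
  have hhu := binEntropy_nonneg hu.1 hu.2
  have hφ := phi_le_entropy hu.1 hu.2
  have hξ := hs.xi_nonneg
  have hl := log_two_gt_d9
  have hH1 : binEntropy ε ≤ 1 / 1000000 := by linarith
  have h1 : 4 * u * (1 - u) * 0.6931 ≤ 2 * binEntropy u := by
    have h2 : 0 ≤ u * (1 - u) := mul_nonneg hu.1 (by linarith [hu.2])
    nlinarith
  have hφ4 : 0 ≤ 4 * u * (1 - u) := mul_nonneg (by linarith [hu.1]) (by linarith [hu.2])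
  have h3 : binEntropy ε * ((1 - kap ε * log 2) * (4 * u * (1 - u)))
      ≤ binEntropy ε * (4 * u * (1 - u)) := by
    apply mul_le_mul_of_nonneg_left _ hH.le
    nlinarith
  have h4 : binEntropy ε * (4 * u * (1 - u)) ≤ 1 / 1000000 * (4 * u * (1 - u)) :=
    mul_le_mul_of_nonneg_right hH1 hφ4
  have h5 : binEntropy ε * (kap ε * binEntropy u) = 2.4 * (ε * (1 - ε)) * binEntropy u := by
    rw [← hk]
    ring
  have h6 : 2.4 * (ε * (1 - ε)) * binEntropy u ≤ 1 / 1000 * binEntropy u := by
    apply mul_le_mul_of_nonneg_right _ hhu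
    nlinarith
  rw [mul_add, h5]
  nlinarith

/-- The main functional inequality. -/
theorem entropy_envelope {ε ℓ : ℝ} (hs : Small ε ℓ) :
    ∀ {n : ℕ} (g : Cube n → ℝ), (∀ x, 0 ≤ g x ∧ g x ≤ 1) →
      binEntropy ε * LL ε (avg g) ≤ avg (fun y => binEntropy (noise ε g y)) := by
  have h0 := hs.pos
  have hε := hs.eps
  have hε1 : ε ≤ 1 := by linarith
  have hε2 : ε ≤ 1 / 2 := by linarith
  intro n
  induction n with
  | zero =>
    intro g hg
    rw [avg_zero_dim _ default, avg_zero_dim _ default, noise_zero_dim]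
    exact base_case hs ⟨(hg _).1, (hg _).2⟩
  | succ n ih =>
    intro g hg
    set gp : Cube n → ℝ := fun x => g (Fin.cons true x) with hgp
    set gm : Cube n → ℝ := fun x => g (Fin.cons false x) with hgm
    have hgp01 : ∀ x, 0 ≤ gp x ∧ gp x ≤ 1 := fun x => hg _
    have hgm01 : ∀ x, 0 ≤ gm x ∧ gm x ≤ 1 := fun x => hg _
    set u := noise ε gp with hu
    set w := noise ε gm with hw
    have hu01 : ∀ y, u y ∈ Set.Icc (0 : ℝ) 1 := fun y =>
      ⟨(noise_mem h0.le hε1 gp hgp01 y).1, (noise_mem h0.le hε1 gp hgp01 y).2⟩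
    have hw01 : ∀ y, w y ∈ Set.Icc (0 : ℝ) 1 := fun y =>
      ⟨(noise_mem h0.le hε1 gm hgm01 y).1, (noise_mem h0.le hε1 gm hgm01 y).2⟩
    have hau : avg u = avg gp := avg_noise gp
    have haw : avg w = avg gm := avg_noise gm
    have hag : avg g = (avg gp + avg gm) / 2 := avg_succ g
    have ha1 : avg gp ∈ Set.Icc (0 : ℝ) 1 := by
      rw [← hau]
      have h1 : avg (fun _ : Cube n => (0 : ℝ)) ≤ avg u := avg_mono (fun y => (hu01 y).1)
      have h2 : avg u ≤ avg (fun _ : Cube n => (1 : ℝ)) := avg_mono (fun y => (hu01 y).2)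
      rw [avg_const] at h1 h2
      exact ⟨h1, h2⟩
    have ha2 : avg gm ∈ Set.Icc (0 : ℝ) 1 := by
      rw [← haw]
      have h1 : avg (fun _ : Cube n => (0 : ℝ)) ≤ avg w := avg_mono (fun y => (hw01 y).1)
      have h2 : avg w ≤ avg (fun _ : Cube n => (1 : ℝ)) := avg_mono (fun y => (hw01 y).2)
      rw [avg_const] at h1 h2
      exact ⟨h1, h2⟩
    -- the left side in terms of `S`
    have hES : avg (fun y => binEntropy (noise ε g y)) =
        avg (fun y => SS ε (u y) (w y)) / 2 := by
      rw [avg_succ]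
      simp only [noise_cons_true, noise_cons_false]
      unfold SS
      rw [avg_add]
    rw [hES, hag]
    -- the data of the step
    have S : Step ε ℓ (avg gp) (avg gm) (avg (fun y => binEntropy (u y)))
        (avg (fun y => binEntropy (w y))) (avg (fun y => |u y - w y|))
        (avg (fun y => (u y + w y) / 2 * (1 - (u y + w y) / 2)))
        (avg (fun y => SS ε (u y) (w y))) := by
      have hU := ih gp hgp01
      have hW := ih gm hgm01
      refine ⟨hs, ha1, ha2, hU, hW, ?_, ?_, ?_, ?_, ?_, ?_, ?_, ?_⟩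
      · rw [← hau, ← haw]
        exact avg_abs_ge u w
      · intro y hy
        have h1 : avg (fun z => binEntropy (u z) + (binEntropy (w z)
            + ((ε * (1 - ε) * (2 * y)) * |u z - w z|
            + (-(ε * (1 - ε) * y ^ 2)) * ((u z + w z) / 2 * (1 - (u z + w z) / 2)))))
            ≤ avg (fun z => SS ε (u z) (w z)) := by
          apply avg_mono
          intro z
          have := gap_ge h0.le hε2 (hu01 z) (hw01 z) y
          nlinarith
        rw [avg_add, avg_add, avg_add, avg_const_mul, avg_const_mul] at h1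
        nlinarith
      · -- Jensen
        have e1 : avg (fun y => (u y + w y) / 2) = (avg gp + avg gm) / 2 := by
          have e2 : (fun y => (u y + w y) / 2) = fun y => (1 / 2) * u y + (1 / 2) * w y := by
            funext y
            ring
          rw [e2, avg_add, avg_const_mul, avg_const_mul, hau, haw]
          ring
        have h1 := avg_sq_ge (fun y => (u y + w y) / 2)
        rw [e1] at h1
        have e3 : (fun y => (u y + w y) / 2 * (1 - (u y + w y) / 2))
            = fun y => (u y + w y) / 2 + (-1) * ((u y + w y) / 2) ^ 2 := by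
          funext y
          ring
        rw [e3, avg_add, avg_const_mul, e1]
        nlinarith
      · have h1 : avg (fun y => (u y + w y) / 2 * (1 - (u y + w y) / 2))
            ≤ avg (fun y => (1 / (4 * log 2)) * (binEntropy (u y) + binEntropy (w y))
              + (1 / 4) * |u y - w y|) := by
          apply avg_mono
          intro y
          have := phi_mid_le (hu01 y) (hw01 y)
          calc _ ≤ _ := this
            _ = _ := by ring
        rw [avg_add, avg_const_mul, avg_const_mul, avg_add] at h1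
        calc _ ≤ _ := h1
          _ = _ := by ring
      · rw [← avg_add]
        exact avg_mono (fun y => SS_ge h0.le hε1 (hu01 y) (hw01 y))
      · rw [← avg_add, ← avg_const_mul, ← avg_const_mul, ← avg_add]
        apply avg_mono
        intro y
        exact plane_mid hs (hu01 y) (hw01 y)
      · intro x hx0 hx1
        rw [← avg_add, ← avg_const_mul, ← avg_const_mul, ← avg_add]
        apply avg_mono
        intro y
        exact plane_px hs hx0 hx1 (hu01 y) (hw01 y)
      · rw [← avg_const_mul]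
        apply avg_mono
        intro y
        exact SS_ge_abs h0.le hε1 (hu01 y) (hw01 y)
    exact S.closure

/-- The smallness conditions hold below `2^(-60)`. -/
lemma small_of_le {ε : ℝ} (h0 : 0 < ε) (h1 : ε ≤ 2⁻¹ ^ 60) : Small ε (-log ε) := by
  have hl := log_two_gt_d9
  have hbig : 41.5 ≤ -log ε := by
    have h2 : log ε ≤ log (2⁻¹ ^ 60) := log_le_log h0 h1
    rw [log_pow, log_inv] at h2
    push_cast at h2
    linarith
  refine ⟨h0, rfl, hbig, ?_⟩
  set ℓ := -log ε with hℓ
  have hexp : ε * exp ℓ = 1 := by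
    rw [hℓ, exp_neg, exp_log h0]
    field_simp
  have hp : ℓ ^ 8 / (Nat.factorial 8) ≤ exp ℓ := pow_div_factorial_le_exp ℓ (by linarith) 8
  have h3 : ε * (ℓ ^ 8 / (Nat.factorial 8)) ≤ 1 := by
    calc _ ≤ ε * exp ℓ := mul_le_mul_of_nonneg_left hp h0.le
      _ = 1 := hexp
  norm_num [Nat.factorial] at h3
  have h4 : (ℓ + 1) ^ 3 ≤ 1.1 * ℓ ^ 3 := by
    have h5 : ℓ + 1 ≤ 1.03 * ℓ := by linarith
    have h6 : (ℓ + 1) ^ 3 ≤ (1.03 * ℓ) ^ 3 := pow_le_pow_left₀ (by linarith) h5 3
    have h7 : 0 < ℓ ^ 3 := by positivity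
    nlinarith
  have h8 : (41.5 : ℝ) ^ 5 ≤ ℓ ^ 5 := pow_le_pow_left₀ (by norm_num) hbig 5
  have h9 : ε * ℓ ^ 3 * 100000000 ≤ ε * ℓ ^ 3 * ℓ ^ 5 := by
    apply mul_le_mul_of_nonneg_left _ (by positivity)
    norm_num at h8 ⊢
    linarith
  have e : ε * ℓ ^ 3 * ℓ ^ 5 = ε * ℓ ^ 8 := by ring
  have h10 : ε * ℓ ^ 3 ≤ 40320 / 100000000 := by
    rw [le_div_iff₀ (by norm_num)]
    nlinarith
  have h11 : ε * (ℓ + 1) ^ 3 ≤ ε * (1.1 * ℓ ^ 3) := mul_le_mul_of_nonneg_left h4 h0.le
  norm_num at h10 ⊢
  nlinarith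

/-- The final combination with Pinsker's inequality. -/
theorem exact_low_noise {ε : ℝ} (h0 : 0 < ε) (h1 : ε ≤ 2⁻¹ ^ 60) {n : ℕ} (f : Cube n → Bool) :
    mutualInfo ε f ≤ 1 - h2 ε := by
  have hs := small_of_le h0 h1
  have hε := hs.eps
  have hm := one_sub_mutualInfo h0.le (by linarith) f
  have he := entropy_envelope hs (indicator f) (indicator_mem f)
  set a := avg (indicator f) with ha
  have hl : 0 < log 2 := log_pos (by norm_num)
  have hl2 := log_two_gt_d9
  have hH := hs.H_pos
  have hHu := hs.H_upper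
  have hlin := hs.lin
  have ha0 : 0 ≤ a := by
    have h3 : avg (fun _ : Cube n => (0 : ℝ)) ≤ avg (indicator f) :=
      avg_mono (fun y => (indicator_mem f y).1)
    rwa [avg_const] at h3
  have ha1 : a ≤ 1 := by
    have h3 : avg (indicator f) ≤ avg (fun _ : Cube n => (1 : ℝ)) :=
      avg_mono (fun y => (indicator_mem f y).2)
    rwa [avg_const] at h3
  have hp := pinsker ha0 ha1
  have hk := hs.kap_mul
  have hξ := hs.xi_nonneg
  have hξ1 := hs.xi_le
  have hLa : log 2 - binEntropy a + binEntropy ε * LL ε a ≥ binEntropy ε := by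
    unfold LL
    have e : binEntropy ε * (kap ε * binEntropy a) = 2.4 * (ε * (1 - ε)) * binEntropy a := by
      rw [← hk]
      ring
    have e2 : binEntropy ε = binEntropy ε * (kap ε * log 2) + binEntropy ε * (1 - kap ε * log 2) := by
      ring
    have e3 : binEntropy ε * (kap ε * log 2) = 2.4 * (ε * (1 - ε)) * log 2 := by
      rw [← hk]
      ring
    have hA : 0 ≤ 2.4 * (ε * (1 - ε)) := by
      have := hs.pos
      have : 0 < 1 - ε := by linarith
      positivity
    have hA1 : 2.4 * (ε * (1 - ε)) ≤ 1 / 2 := by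
      have := hs.pos
      nlinarith
    have hq : 0 ≤ log 2 - binEntropy a := by linarith [binEntropy_le_log_two (p := a)]
    have h3 : binEntropy ε * (1 - kap ε * log 2) * (1 - 4 * a * (1 - a))
        ≤ 1 / 1000000 * (1 - 4 * a * (1 - a)) := by
      apply mul_le_mul_of_nonneg_right _ (by nlinarith [sq_nonneg (2 * a - 1)])
      have : binEntropy ε * (kap ε * log 2) ≥ 0 := by positivity
      nlinarith
    have h4 : 1 - 4 * a * (1 - a) = 4 * (a - 1 / 2) ^ 2 := by ring
    have h5 := mul_le_mul_of_nonneg_left hA1 hq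
    nlinarith
  have hfin : log 2 * (h2 ε) ≤ log 2 * (1 - mutualInfo ε f) := by
    rw [hm, h2_eq]
    have e : log 2 * (binEntropy ε / log 2) = binEntropy ε := by
      field_simp
    rw [e]
    linarith
  have := le_of_mul_le_mul_left hfin hl
  linarith

/-- The noiseless case. -/
theorem exact_zero_noise {n : ℕ} (f : Cube n → Bool) : mutualInfo 0 f ≤ 1 - h2 0 := by
  have hm := one_sub_mutualInfo (ε := 0) (le_refl _) (by norm_num) f
  have hl : 0 < log 2 := log_pos (by norm_num)
  have h3 : 0 ≤ avg (fun y => binEntropy (noise 0 (indicator f) y)) := by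
    apply avg_nonneg
    intro y
    have := noise_mem (ε := 0) (le_refl _) (by norm_num) (indicator f) (indicator_mem f) y
    exact binEntropy_nonneg this.1 this.2
  have h4 := binEntropy_le_log_two (p := avg (indicator f))
  have h5 : 0 ≤ log 2 * (1 - mutualInfo 0 f) := by
    rw [hm]
    linarith
  have h6 : 0 ≤ 1 - mutualInfo 0 f := nonneg_of_mul_nonneg_right h5 hl
  have h7 : h2 0 = 0 := by
    unfold h2
    simp
  rw [h7]
  linarith

/-- The Courtade-Kumar inequality for all noise levels up to `2^(-60)`. -/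
theorem exact_low_noise_all {ε : ℝ} (h0 : 0 ≤ ε) (h1 : ε ≤ 1 / 2 ^ 60) {n : ℕ}
    (f : Cube n → Bool) : mutualInfo ε f ≤ 1 - h2 ε := by
  rcases eq_or_lt_of_le h0 with rfl | h0'
  · exact exact_zero_noise f
  · apply exact_low_noise h0'
    rw [inv_pow, ← one_div]
    exact h1

end Vale.Agent.P322
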