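import Vale.Agent.P322.Midpoint

/-!
The entropy defect `GG a b = η(a) + η(b) - η(a+b)` of two atoms, its tangent bounds and
monotonicity, the chain identity for `h(αu+βw)`, and the criterion producing planes below
the function `S(u,w) = h(αu+βw) + h(βu+αw)`.
-/

namespace Vale.Agent.P322

open Real

/-- The entropy defect of two atoms. -/
noncomputable def GG (a b : ℝ) : ℝ := negMulLog a + negMulLog b - negMulLog (a + b)

lemma GG_comm (a b : ℝ) : GG a b = GG b a := by
  unfold GG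
  rw [add_comm b a, add_comm (negMulLog a)]

lemma GG_zero_left (b : ℝ) : GG 0 b = 0 := by simp [GG]

lemma GG_zero_right (a : ℝ) : GG a 0 = 0 := by simp [GG]

lemma GG_expand {a b : ℝ} (ha : 0 < a) (hb : 0 < b) :
    GG a b = a * (log (a + b) - log a) + b * (log (a + b) - log b) := by
  unfold GG negMulLog
  ring

lemma GG_eq {a b : ℝ} (ha : 0 < a) (hb : 0 < b) :
    GG a b = a * log (1 + b / a) + b * log (1 + a / b) := by
  have e1 : 1 + b / a = (a + b) / a := by field_simp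
  have e2 : 1 + a / b = (a + b) / b := by field_simp; ring
  have hab : a + b ≠ 0 := by positivity
  rw [GG_expand ha hb, e1, e2, log_div hab ha.ne', log_div hab hb.ne']

/-- The tangent bound. -/
lemma GG_tangent {a b r : ℝ} (ha : 0 ≤ a) (hb : 0 ≤ b) (hr : 0 < r) :
    GG a b ≤ a * log (1 + r) + b * log (1 + 1 / r) := by
  have hr1 : 0 < 1 + r := by linarith
  have hr2 : 0 < 1 + 1 / r := by positivity
  have l1 : 0 ≤ log (1 + r) := log_nonneg (by linarith)
  have l2 : 0 ≤ log (1 + 1 / r) := log_nonneg (by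
    have : 0 < 1 / r := by positivity
    linarith)
  rcases eq_or_lt_of_le ha with rfl | ha'
  · rw [GG_zero_left]
    have := mul_nonneg hb l2
    linarith
  rcases eq_or_lt_of_le hb with rfl | hb'
  · rw [GG_zero_right]
    have := mul_nonneg ha l1
    linarith
  rw [GG_expand ha' hb']
  set p := a + b with hp
  have hp0 : 0 < p := by positivity
  have h1 : log (p / (a * (1 + r))) ≤ p / (a * (1 + r)) - 1 :=
    log_le_sub_one_of_pos (by positivity)
  have h2 : log (p / (b * (1 + 1 / r))) ≤ p / (b * (1 + 1 / r)) - 1 :=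
    log_le_sub_one_of_pos (by positivity)
  rw [log_div hp0.ne' (by positivity), log_mul ha'.ne' hr1.ne'] at h1
  rw [log_div hp0.ne' (by positivity), log_mul hb'.ne' hr2.ne'] at h2
  have h3 := mul_le_mul_of_nonneg_left h1 ha
  have h4 := mul_le_mul_of_nonneg_left h2 hb
  have e1 : a * (p / (a * (1 + r)) - 1) = p / (1 + r) - a := by
    field_simp
  have e2 : b * (p / (b * (1 + 1 / r)) - 1) = p * r / (1 + r) - b := by
    field_simp
    ring
  rw [e1] at h3
  rw [e2] at h4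
  have e3 : p / (1 + r) + p * r / (1 + r) = p := by
    field_simp
  nlinarith

/-- `GG` increases in its second argument. -/
lemma GG_mono {a b b' : ℝ} (ha : 0 ≤ a) (hb : 0 ≤ b) (hbb : b ≤ b') : GG a b ≤ GG a b' := by
  rcases eq_or_lt_of_le ha with rfl | ha'
  · rw [GG_zero_left, GG_zero_left]
  rcases eq_or_lt_of_le (hb.trans hbb) with hb0 | hb'
  · have : b = 0 := by linarith
    rw [this, ← hb0]
  have hr : 0 < b' / a := by positivity
  have h := GG_tangent ha hb hr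
  rw [GG_eq ha' hb']
  have e : 1 / (b' / a) = a / b' := by field_simp
  rw [e] at h
  have l2 : 0 ≤ log (1 + a / b') := log_nonneg (by
    have : 0 < a / b' := by positivity
    linarith)
  nlinarith

lemma GG_nonneg {a b : ℝ} (ha : 0 ≤ a) (hb : 0 ≤ b) : 0 ≤ GG a b := by
  have := GG_mono ha (le_refl 0) hb
  rwa [GG_zero_right] at this

/-- The chain identity. -/
lemma entropy_chain {α β : ℝ} (u w : ℝ) (hαβ : α + β = 1) :
    binEntropy (α * u + β * w) = α * binEntropy u + β * binEntropy w + binEntropy β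
      - GG (α * u) (β * w) - GG (α * (1 - u)) (β * (1 - w)) := by
  have e : 1 - (α * u + β * w) = α * (1 - u) + β * (1 - w) := by
    have : α = 1 - β := by linarith
    rw [this]; ring
  have e' : 1 - β = α := by linarith
  rw [binEntropy_eq_negMulLog_add_negMulLog_one_sub, e, binEntropy_eq_negMulLog_add_negMulLog_one_sub u,
    binEntropy_eq_negMulLog_add_negMulLog_one_sub w, binEntropy_eq_negMulLog_add_negMulLog_one_sub β, e']
  unfold GG
  rw [negMulLog_mul α u, negMulLog_mul β w, negMulLog_mul α (1 - u), negMulLog_mul β (1 - w)]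
  ring

/-- The contribution of one endpoint to the defect of `S`. -/
noncomputable def F1 (ε e : ℝ) : ℝ := GG ((1 - ε) * e) ε + GG (ε * e) (1 - ε)

lemma F1_zero (ε : ℝ) : F1 ε 0 = 0 := by
  unfold F1
  simp [GG_zero_left]

/-- The decomposition of `S` and the bound of its defect. -/
lemma SS_ge_sub {ε u w : ℝ} (h0 : 0 ≤ ε) (h1 : ε ≤ 1) (hu : u ∈ Set.Icc (0 : ℝ) 1)
    (hw : w ∈ Set.Icc (0 : ℝ) 1) :
    binEntropy u + binEntropy w + 2 * binEntropy ε - (F1 ε (1 - u) + F1 ε w) ≤ SS ε u w := by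
  obtain ⟨hu0, hu1⟩ := hu
  obtain ⟨hw0, hw1⟩ := hw
  have hα : 0 ≤ 1 - ε := by linarith
  have c1 := entropy_chain (α := 1 - ε) (β := ε) u w (by ring)
  have c2 := entropy_chain (α := ε) (β := 1 - ε) u w (by ring)
  rw [binEntropy_one_sub] at c2
  have g1 : GG ((1 - ε) * (1 - u)) (ε * (1 - w)) ≤ GG ((1 - ε) * (1 - u)) ε :=
    GG_mono (mul_nonneg hα (by linarith)) (mul_nonneg h0 (by linarith)) (by nlinarith)
  have g2 : GG (ε * (1 - u)) ((1 - ε) * (1 - w)) ≤ GG (ε * (1 - u)) (1 - ε) :=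
    GG_mono (mul_nonneg h0 (by linarith)) (mul_nonneg hα (by linarith)) (by nlinarith)
  have g3 : GG ((1 - ε) * u) (ε * w) ≤ GG (ε * w) (1 - ε) := by
    rw [GG_comm]
    exact GG_mono (mul_nonneg h0 hw0) (mul_nonneg hα hu0) (by nlinarith)
  have g4 : GG (ε * u) ((1 - ε) * w) ≤ GG ((1 - ε) * w) ε := by
    rw [GG_comm]
    exact GG_mono (mul_nonneg hα hw0) (mul_nonneg h0 hu0) (by nlinarith)
  unfold SS F1
  rw [c1, c2]
  linarith

/-- The chord bound on `[0,1/2]`. -/
lemma entropy_ge_chord {u : ℝ} (h0 : 0 ≤ u) (h1 : u ≤ 1 / 2) : 2 * log 2 * u ≤ binEntropy u := by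
  have hc := strictConcave_binEntropy.concaveOn
  have h3 := hc.2 (show (0 : ℝ) ∈ Set.Icc (0 : ℝ) 1 by simp)
    (show (2⁻¹ : ℝ) ∈ Set.Icc (0 : ℝ) 1 by norm_num)
    (show 0 ≤ 1 - 2 * u by linarith) (show 0 ≤ 2 * u by linarith) (by ring)
  simp only [smul_eq_mul, binEntropy_zero, binEntropy_two_inv] at h3
  have e : (1 - 2 * u) * 0 + 2 * u * 2⁻¹ = u := by ring
  rw [e] at h3
  linarith

/-- The plane criterion (one half). -/
lemma plane_of_sep_aux {ε μ δ : ℝ} (h0 : 0 ≤ ε) (h1 : ε ≤ 1)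
    (hμ : binEntropy ε / log 2 ≤ μ) (hδ0 : 0 ≤ δ)
    (hsep : ∀ e ∈ Set.Icc (0 : ℝ) (1 / 2),
      F1 ε e ≤ μ * binEntropy e + 2 * binEntropy ε * e + binEntropy ε * δ * (1 / 2 - e))
    {u w : ℝ} (hu : u ∈ Set.Icc (0 : ℝ) 1) (hw : w ∈ Set.Icc (0 : ℝ) 1) (huw : w ≤ u) :
    (1 - μ) * (binEntropy u + binEntropy w) + binEntropy ε * (2 - δ) * |u - w| ≤ SS ε u w := by
  have hH : 0 ≤ binEntropy ε := binEntropy_nonneg h0 h1
  have hl : 0 < log 2 := log_pos (by norm_num)
  have hge := SS_ge h0 h1 hu hw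
  have hab : |u - w| = u - w := abs_of_nonneg (by linarith)
  rw [hab]
  have hμ0 : 0 ≤ μ := le_trans (div_nonneg hH hl.le) hμ
  have hμ' : binEntropy ε ≤ μ * log 2 := by
    rwa [div_le_iff₀ hl] at hμ
  have hhu := binEntropy_nonneg hu.1 hu.2
  have hhw := binEntropy_nonneg hw.1 hw.2
  have hδt : (2 - δ) * (u - w) ≤ 2 * (u - w) :=
    mul_le_mul_of_nonneg_right (by linarith) (by linarith)
  have hHδt : binEntropy ε * ((2 - δ) * (u - w)) ≤ binEntropy ε * (2 * (u - w)) :=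
    mul_le_mul_of_nonneg_left hδt hH
  by_cases hu2 : u ≤ 1 / 2
  · have hc := entropy_ge_chord hu.1 hu2
    have h3 : μ * (2 * log 2 * u) ≤ μ * binEntropy u := mul_le_mul_of_nonneg_left hc hμ0
    have h4 : binEntropy ε * (2 * u) ≤ μ * log 2 * (2 * u) :=
      mul_le_mul_of_nonneg_right hμ' (by linarith [hu.1])
    have h5 : binEntropy ε * (2 * (u - w)) ≤ binEntropy ε * (2 * u) :=
      mul_le_mul_of_nonneg_left (by linarith [hw.1]) hH
    have h6 : 0 ≤ μ * binEntropy w := mul_nonneg hμ0 hhw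
    nlinarith
  by_cases hw2 : 1 / 2 ≤ w
  · have hw' : 0 ≤ 1 - w := by linarith [hw.2]
    have hc := entropy_ge_chord hw' (by linarith)
    rw [binEntropy_one_sub] at hc
    have h3 : μ * (2 * log 2 * (1 - w)) ≤ μ * binEntropy w := mul_le_mul_of_nonneg_left hc hμ0
    have h4 : binEntropy ε * (2 * (1 - w)) ≤ μ * log 2 * (2 * (1 - w)) :=
      mul_le_mul_of_nonneg_right hμ' (by linarith)
    have h5 : binEntropy ε * (2 * (u - w)) ≤ binEntropy ε * (2 * (1 - w)) :=
      mul_le_mul_of_nonneg_left (by linarith [hu.2]) hH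
    have h6 : 0 ≤ μ * binEntropy u := mul_nonneg hμ0 hhu
    nlinarith
  · rw [not_le] at hu2 hw2
    have s1 := hsep (1 - u) ⟨by linarith [hu.2], by linarith⟩
    have s2 := hsep w ⟨hw.1, hw2.le⟩
    rw [binEntropy_one_sub] at s1
    have := SS_ge_sub h0 h1 hu hw
    nlinarith

/-- The plane criterion. -/
lemma plane_of_sep {ε μ δ : ℝ} (h0 : 0 ≤ ε) (h1 : ε ≤ 1)
    (hμ : binEntropy ε / log 2 ≤ μ) (hδ0 : 0 ≤ δ)
    (hsep : ∀ e ∈ Set.Icc (0 : ℝ) (1 / 2),
      F1 ε e ≤ μ * binEntropy e + 2 * binEntropy ε * e + binEntropy ε * δ * (1 / 2 - e))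
    {u w : ℝ} (hu : u ∈ Set.Icc (0 : ℝ) 1) (hw : w ∈ Set.Icc (0 : ℝ) 1) :
    (1 - μ) * (binEntropy u + binEntropy w) + binEntropy ε * (2 - δ) * |u - w| ≤ SS ε u w := by
  rcases le_total w u with huw | huw
  · exact plane_of_sep_aux h0 h1 hμ hδ0 hsep hu hw huw
  · have := plane_of_sep_aux h0 h1 hμ hδ0 hsep hw hu huw
    rw [add_comm (binEntropy w), abs_sub_comm, SS_comm] at this
    exact this

/-- One half of the top plane: three-point concavity. -/
lemma entropy_ge_scaled {θ y w : ℝ} (hθ0 : 0 ≤ θ) (hy : y ∈ Set.Icc (0 : ℝ) 1) (hw0 : 0 ≤ w)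
    (hw : w ≤ 1 - θ) : θ * binEntropy y ≤ binEntropy (θ * y + w) := by
  have hc := strictConcave_binEntropy.concaveOn
  rcases eq_or_lt_of_le (show 0 ≤ 1 - θ by linarith) with h1 | h1
  · have hw' : w = 0 := by linarith
    have hθ : θ = 1 := by linarith
    rw [hw', hθ]
    simp
  have hz : w / (1 - θ) ∈ Set.Icc (0 : ℝ) 1 :=
    ⟨div_nonneg hw0 h1.le, (div_le_one h1).mpr hw⟩
  have h3 := hc.2 hy hz hθ0 h1.le (by ring)
  simp only [smul_eq_mul] at h3
  have e : θ * y + (1 - θ) * (w / (1 - θ)) = θ * y + w := by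
    field_simp
  rw [e] at h3
  have := mul_nonneg h1.le (binEntropy_nonneg hz.1 hz.2)
  linarith

/-- The top plane `S(u,w) ≥ 2 h(ε) |u - w|`. -/
lemma SS_ge_abs {ε u w : ℝ} (h0 : 0 ≤ ε) (h1 : ε ≤ 1) (hu : u ∈ Set.Icc (0 : ℝ) 1)
    (hw : w ∈ Set.Icc (0 : ℝ) 1) : 2 * binEntropy ε * |u - w| ≤ SS ε u w := by
  wlog huw : w ≤ u generalizing u w
  · have := this hw hu (le_of_not_ge huw)
    rwa [abs_sub_comm, SS_comm] at this
  have hab : |u - w| = u - w := abs_of_nonneg (by linarith)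
  rw [hab]
  have hε : ε ∈ Set.Icc (0 : ℝ) 1 := ⟨h0, h1⟩
  have hα : 1 - ε ∈ Set.Icc (0 : ℝ) 1 := ⟨by linarith, by linarith⟩
  have h3 := entropy_ge_scaled (θ := u - w) (by linarith) hα hw.1 (by linarith [hu.2])
  have h4 := entropy_ge_scaled (θ := u - w) (by linarith) hε hw.1 (by linarith [hu.2])
  rw [binEntropy_one_sub] at h3
  have e3 : (u - w) * (1 - ε) + w = (1 - ε) * u + ε * w := by ring
  have e4 : (u - w) * ε + w = ε * u + (1 - ε) * w := by ring
  rw [e3] at h3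
  rw [e4] at h4
  unfold SS
  linarith

/-- A concave function above a linear one at two points stays above between them. -/
lemma linear_le_entropy {μ p q a₀ a₁ : ℝ} (hμ : 0 ≤ μ) (hp : 0 ≤ p) (hpq : p < q) (hq : q ≤ 1)
    (h1 : a₀ + a₁ * p ≤ μ * binEntropy p) (h2 : a₀ + a₁ * q ≤ μ * binEntropy q)
    {e : ℝ} (he : e ∈ Set.Icc p q) : a₀ + a₁ * e ≤ μ * binEntropy e := by
  have hc := strictConcave_binEntropy.concaveOn
  have hd : 0 < q - p := by linarith
  have hs : 0 ≤ (q - e) / (q - p) := div_nonneg (by linarith [he.2]) hd.le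
  have hs' : 0 ≤ (e - p) / (q - p) := div_nonneg (by linarith [he.1]) hd.le
  have hss : (q - e) / (q - p) + (e - p) / (q - p) = 1 := by
    field_simp
    ring
  have h3 := hc.2 (show p ∈ Set.Icc (0 : ℝ) 1 from ⟨hp, by linarith⟩)
    (show q ∈ Set.Icc (0 : ℝ) 1 from ⟨by linarith, hq⟩) hs hs' hss
  simp only [smul_eq_mul] at h3
  have e3 : (q - e) / (q - p) * p + (e - p) / (q - p) * q = e := by
    field_simp
    ring
  rw [e3] at h3
  have h4 := mul_le_mul_of_nonneg_left h3 hμ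
  have h5 := mul_le_mul_of_nonneg_left h1 hs
  have h6 := mul_le_mul_of_nonneg_left h2 hs'
  have e4 : (q - e) / (q - p) * (a₀ + a₁ * p) + (e - p) / (q - p) * (a₀ + a₁ * q) = a₀ + a₁ * e := by
    field_simp
    ring
  nlinarith

end Vale.Agent.P322
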