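import Vale.Agent.P322.HForm

/-!
Three small lemmas for the soundness of the C-cells of the high-noise regime:
an interval bound on the multiplier `muT`, the non-negativity of `UT`, and the tangent-line
inequality for the binary entropy.
-/

namespace Vale.Agent.P322

open Real

/-- `Q + k δ²/4` is monotone on the cell: the minimum is at `(p₁, q₂, ρ₂)`. -/
lemma cell_noised_lower {k k₂ p q p₁ q₂ : ℝ} (hk : k₂ ≤ k) (hk₂0 : 0 ≤ k₂) (hk₂1 : k₂ ≤ 1)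
    (hp₁0 : 0 ≤ p₁) (hp1 : p₁ ≤ p) (hq2 : q ≤ q₂) (hq0 : 0 ≤ q) (hs₁ : p₁ + q₂ ≤ 1) (hs : p + q ≤ 1) :
    p₁ * (1 - q₂) + k₂ * (1 - p₁ - q₂) ^ 2 / 4 ≤ p * (1 - q) + k * (1 - p - q) ^ 2 / 4 := by
  have h1 : p * (1 - q) + k₂ * (1 - p - q) ^ 2 / 4 ≤ p * (1 - q) + k * (1 - p - q) ^ 2 / 4 := by
    have := mul_le_mul_of_nonneg_right hk (sq_nonneg (1 - p - q))
    linarith
  have h2 : p₁ * (1 - q) + k₂ * (1 - p₁ - q) ^ 2 / 4 ≤ p * (1 - q) + k₂ * (1 - p - q) ^ 2 / 4 := by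
    have e : p * (1 - q) + k₂ * (1 - p - q) ^ 2 / 4 - (p₁ * (1 - q) + k₂ * (1 - p₁ - q) ^ 2 / 4)
        = (p - p₁) * ((1 - q) - k₂ * (2 - p - p₁ - 2 * q) / 4) := by ring
    have hb : 0 ≤ (1 - q) - k₂ * (2 - p - p₁ - 2 * q) / 4 := by
      have hq1 : 0 ≤ 1 - q := by linarith
      have hA : k₂ * (2 - p - p₁ - 2 * q) ≤ k₂ * (2 * (1 - q)) :=
        mul_le_mul_of_nonneg_left (by linarith) hk₂0
      have hB : k₂ * (2 * (1 - q)) ≤ 1 * (2 * (1 - q)) :=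
        mul_le_mul_of_nonneg_right hk₂1 (by linarith)
      linarith
    have := mul_nonneg (sub_nonneg.mpr hp1) hb
    linarith
  have h3 : p₁ * (1 - q₂) + k₂ * (1 - p₁ - q₂) ^ 2 / 4 ≤ p₁ * (1 - q) + k₂ * (1 - p₁ - q) ^ 2 / 4 := by
    have e : p₁ * (1 - q) + k₂ * (1 - p₁ - q) ^ 2 / 4 - (p₁ * (1 - q₂) + k₂ * (1 - p₁ - q₂) ^ 2 / 4)
        = (q₂ - q) * (p₁ + k₂ * (2 - 2 * p₁ - q - q₂) / 4) := by ring
    have hb : 0 ≤ p₁ + k₂ * (2 - 2 * p₁ - q - q₂) / 4 := by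
      have : 0 ≤ k₂ * (2 - 2 * p₁ - q - q₂) := mul_nonneg hk₂0 (by linarith)
      linarith
    have := mul_nonneg (sub_nonneg.mpr hq2) hb
    linarith
  linarith

/-- The interval bound for the multiplier `muT` on a cell. -/
theorem muT_cell {ρ ρ₂ p q p₁ p₂ q₁ q₂ : ℝ} (h0 : 0 < ρ) (hρ : ρ ≤ ρ₂) (h1 : ρ₂ < 1)
    (hp₁0 : 0 < p₁) (hp1 : p₁ ≤ p) (hp2 : p ≤ p₂) (hq₁0 : 0 ≤ q₁) (hq1 : q₁ ≤ q) (hq2 : q ≤ q₂)
    (hq0 : 0 < q) (hs : p₂ + q₂ ≤ 1) (hδ : p + q < 1) (hX : p₂ * (1 - q₁) < 1) :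
    muT ρ (1 - p) q
      ≤ log (1 / (p₁ * (1 - q₂) + (1 - ρ₂ ^ 2) * (1 - p₁ - q₂) ^ 2 / 4))
        / log (1 / (p₂ * (1 - q₁))) := by
  have hp0 : 0 < p := by linarith
  have hρ1 : ρ < 1 := by linarith
  have hk₂0 : 0 ≤ 1 - ρ₂ ^ 2 := by nlinarith
  have hk₂1 : 1 - ρ₂ ^ 2 ≤ 1 := by nlinarith [sq_nonneg ρ₂]
  have hk : 1 - ρ₂ ^ 2 ≤ 1 - ρ ^ 2 := by nlinarith
  have hq₂1 : 0 < 1 - q₂ := by linarith
  have hq1' : 0 < 1 - q := by linarith
  set Q := p * (1 - q) with hQdef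
  set Q' := p * (1 - q) + (1 - ρ ^ 2) * (1 - p - q) ^ 2 / 4 with hQ'def
  set N := p₁ * (1 - q₂) + (1 - ρ₂ ^ 2) * (1 - p₁ - q₂) ^ 2 / 4 with hNdef
  have hNle : N ≤ Q' :=
    cell_noised_lower hk hk₂0 hk₂1 hp₁0.le hp1 hq2 hq0.le (by linarith) (by linarith)
  have hN0 : 0 < N := by
    have h3 : 0 < p₁ * (1 - q₂) := mul_pos hp₁0 hq₂1
    have h4 : 0 ≤ (1 - ρ₂ ^ 2) * (1 - p₁ - q₂) ^ 2 / 4 := by positivity
    rw [hNdef]
    linarith
  have hQ0 : 0 < Q := mul_pos hp0 hq1'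
  have hQ'0 : 0 < Q' := lt_of_lt_of_le hN0 hNle
  have hX0 : 0 < p₂ * (1 - q₁) := by
    apply mul_pos (by linarith)
    linarith
  have hQX : Q ≤ p₂ * (1 - q₁) := by
    rw [hQdef]
    apply mul_le_mul hp2 (by linarith) hq1'.le (by linarith)
  have hQ1 : Q < 1 := lt_of_le_of_lt hQX hX
  -- `muT` as a quotient of `log (1/·)`.
  have ea : 1 - p - q = (1 - p) - q := by ring
  have hmu : muT ρ (1 - p) q = log (1 / Q') / log (1 / Q) := by
    unfold muT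
    rw [noised_prod]
    have e1 : (1 - (1 - p)) * (1 - q) + kN ρ * (1 - p - q) ^ 2 / 4 = Q' := by
      rw [hQ'def]; unfold kN; ring
    have e2 : (1 - (1 - p)) * (1 - q) = Q := by
      rw [hQdef]; ring
    rw [e1, e2, one_div, one_div, log_inv, log_inv, neg_div_neg_eq]
  rw [hmu]
  have hQ'1 : Q' < 1 := by
    have hlt := noised_lt_one (ρ := ρ) (a₀ := 1 - p) (a₁ := q) h0 hρ1 (by linarith) hq0 (by linarith)
    have e1 : (1 - (1 - p)) * (1 - q) + kN ρ * (1 - p - q) ^ 2 / 4 = Q' := by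
      rw [hQ'def]; unfold kN; ring
    rw [e1] at hlt
    exact hlt
  have hL0 : 0 < log (1 / (p₂ * (1 - q₁))) := by
    apply log_pos
    rw [lt_div_iff₀ hX0]
    linarith
  have hLL : log (1 / (p₂ * (1 - q₁))) ≤ log (1 / Q) :=
    log_le_log (by positivity) (one_div_le_one_div_of_le hQ0 hQX)
  have hnum0 : 0 ≤ log (1 / Q') := by
    apply log_nonneg
    rw [le_div_iff₀ hQ'0]
    linarith
  have hnum : log (1 / Q') ≤ log (1 / N) :=
    log_le_log (by positivity) (one_div_le_one_div_of_le hN0 hNle)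
  calc log (1 / Q') / log (1 / Q) ≤ log (1 / N) / log (1 / Q) :=
        div_le_div_of_nonneg_right hnum (by linarith)
    _ ≤ log (1 / N) / log (1 / (p₂ * (1 - q₁))) :=
        div_le_div_of_nonneg_left (by linarith) hL0 hLL

/-- `U ≥ 0`. -/
lemma cc_UT_nonneg {ρ a₀ a₁ : ℝ} (h0 : 0 < ρ) (h1 : ρ < 1) (ha0 : 0 ≤ a₀) (ha0' : a₀ ≤ 1)
    (ha1 : 0 ≤ a₁) (ha1' : a₁ ≤ 1) : 0 ≤ UT ρ a₀ a₁ := by
  have hn := thT_nonneg h0 h1
  have hl := thT_le h0 h1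
  have h2 : (0 : ℝ) < log 2 := log_pos (by norm_num)
  have key : ∀ {a : ℝ}, 0 ≤ a → a ≤ 1 → thT ρ * wQ a ≤ binEntropy a := by
    intro a h h'
    have h4 := entropy_ge_four h h'
    have hw : 0 ≤ wQ a := by
      unfold wQ
      have := mul_nonneg h (by linarith : 0 ≤ 1 - a)
      nlinarith
    have hle : thT ρ ≤ log 2 := by linarith
    have h5 : thT ρ * wQ a ≤ log 2 * wQ a := mul_le_mul_of_nonneg_right hle hw
    have h6 : log 2 * wQ a ≤ binEntropy a := by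
      unfold wQ
      nlinarith
    linarith
  have k0 := key ha0 ha0'
  have k1 := key ha1 ha1'
  unfold UT
  nlinarith

/-- The tangent-line inequality for the binary entropy (Gibbs). -/
lemma entropy_tangent {x c : ℝ} (h0 : 0 ≤ x) (h1 : x ≤ 1) (hc0 : 0 < c) (hc1 : c < 1) :
    binEntropy x ≤ binEntropy c + (log (1 - c) - log c) * (x - c) := by
  have gibbs : ∀ {u v : ℝ}, 0 ≤ u → 0 < v → u * (log v - log u) ≤ v - u := by
    intro u v hu hv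
    rcases hu.eq_or_lt with rfl | hu'
    · simpa using hv.le
    · have h3 := log_le_sub_one_of_pos (div_pos hv hu')
      rw [log_div hv.ne' hu'.ne'] at h3
      have h4 := mul_le_mul_of_nonneg_left h3 hu
      have e : u * (v / u - 1) = v - u := by
        field_simp
      linarith
  have g1 := gibbs h0 hc0
  have g2 := gibbs (u := 1 - x) (v := 1 - c) (by linarith) (by linarith)
  simp only [binEntropy_eq]
  nlinarith

end Vale.Agent.P322
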