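import Vale.Agent.P322.HDefs
import Vale.Agent.P322.W.Plane2

/-!
The induction on the dimension for a general envelope and general planes below `Ψ`.
-/

namespace Vale.Agent.P322

open Real

lemma SS_eq_Psi (ρ u v : ℝ) : SS ((1 - ρ) / 2) u v = 2 * Psi ρ u v := by
  unfold SS Psi
  rw [show (1 - (1 - ρ) / 2) * u + (1 - ρ) / 2 * v = (u + v) / 2 + ρ * (u - v) / 2 by ring,
    show (1 - ρ) / 2 * u + (1 - (1 - ρ) / 2) * v = (u + v) / 2 - ρ * (u - v) / 2 by ring]
  ring

lemma Psi_reflect (ρ u v : ℝ) : Psi ρ (1 - v) (1 - u) = Psi ρ u v := by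
  unfold Psi
  rw [show (1 - v + (1 - u)) / 2 + ρ * (1 - v - (1 - u)) / 2
      = 1 - ((u + v) / 2 - ρ * (u - v) / 2) by ring,
    show (1 - v + (1 - u)) / 2 - ρ * (1 - v - (1 - u)) / 2
      = 1 - ((u + v) / 2 + ρ * (u - v) / 2) by ring, binEntropy_one_sub, binEntropy_one_sub]
  ring

lemma mix_strict {ε A B : ℝ} (h0 : 0 ≤ ε) (h1 : ε ≤ 1) (hA : 0 < A) (hB : 0 < B) :
    0 < (1 - ε) * A + ε * B := by
  rcases le_or_gt ε (1 / 2) with h | h
  · have : 0 < (1 - ε) * A := mul_pos (by linarith) hA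
    have : 0 ≤ ε * B := mul_nonneg h0 hB.le
    linarith
  · have : 0 < ε * B := mul_pos (by linarith) hB
    have : 0 ≤ (1 - ε) * A := mul_nonneg (by linarith) hA.le
    linarith

/-- The noise operator preserves `(0,1)`-valued functions. -/
lemma noise_strict {ε : ℝ} (h0 : 0 ≤ ε) (h1 : ε ≤ 1) :
    ∀ {n : ℕ} (g : Cube n → ℝ), (∀ x, 0 < g x ∧ g x < 1) →
      ∀ y, 0 < noise ε g y ∧ noise ε g y < 1 := by
  intro n
  induction n with
  | zero =>
    intro g hg y
    rw [noise_zero_dim]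
    exact hg y
  | succ n ih =>
    intro g hg y
    have hp := ih (fun x => g (Fin.cons true x)) (fun x => hg _)
    have hm := ih (fun x => g (Fin.cons false x)) (fun x => hg _)
    obtain ⟨b, y', rfl⟩ : ∃ b y', y = Fin.cons b y' :=
      ⟨y 0, Fin.tail y, (Fin.cons_self_tail y).symm⟩
    have h2 := hp y'
    have h3 := hm y'
    cases b
    · rw [noise_cons_false]
      constructor
      · have := mix_strict h0 h1 h3.1 h2.1
        linarith
      · have := mix_strict h0 h1 (sub_pos.2 h3.2) (sub_pos.2 h2.2)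
        linarith
    · rw [noise_cons_true]
      constructor
      · have := mix_strict h0 h1 h2.1 h3.1
        linarith
      · have := mix_strict h0 h1 (sub_pos.2 h2.2) (sub_pos.2 h3.2)
        linarith

/-- The mean of a `(0,1)`-valued function. -/
lemma avg_strict : ∀ {n : ℕ} (g : Cube n → ℝ), (∀ x, 0 < g x ∧ g x < 1) →
    0 < avg g ∧ avg g < 1 := by
  intro n
  induction n with
  | zero =>
    intro g hg
    rw [avg_zero_dim _ default]
    exact hg _
  | succ n ih =>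
    intro g hg
    rw [avg_succ]
    have hp := ih (fun x => g (Fin.cons true x)) (fun x => hg _)
    have hm := ih (fun x => g (Fin.cons false x)) (fun x => hg _)
    constructor <;> linarith [hp.1, hp.2, hm.1, hm.2]

/-- The plane inequality, averaged. -/
lemma avg_plane {n : ℕ} (c κ ν μ : ℝ) (u w A B : Cube n → ℝ) :
    avg (fun y => c + κ * ((u y + w y) / 2) + ν * (u y - w y) + μ * ((A y + B y) / 2))
      = c + κ * ((avg u + avg w) / 2) + ν * (avg u - avg w) + μ * ((avg A + avg B) / 2) := by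
  have e : (fun y => c + κ * ((u y + w y) / 2) + ν * (u y - w y) + μ * ((A y + B y) / 2))
      = fun y => c + (κ / 2) * u y + (κ / 2) * w y + ν * u y + (-ν) * w y + (μ / 2) * A y
          + (μ / 2) * B y := by
    funext y
    ring
  rw [e, avg_add, avg_add, avg_add, avg_add, avg_add, avg_add, avg_const, avg_const_mul,
    avg_const_mul, avg_const_mul, avg_const_mul, avg_const_mul, avg_const_mul]
  ring

/-- The induction on the dimension. -/
theorem envelope_of_planeClose {ρ : ℝ} {E : ℝ → ℝ} (h0 : 0 < ρ) (h1 : ρ ≤ 1)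
    (hbase : ∀ a, 0 < a → a < 1 → E a ≤ binEntropy a)
    (hcl : ∀ a₀ a₁, 0 < a₀ → a₀ < 1 → 0 < a₁ → a₁ < 1 → PlaneClose ρ E a₀ a₁) {n : ℕ}
    (g : Cube n → ℝ) (hg : ∀ x, 0 < g x ∧ g x < 1) :
    E (avg g) ≤ avg (fun y => binEntropy (noise ((1 - ρ) / 2) g y)) := by
  have hε0 : 0 ≤ (1 - ρ) / 2 := by linarith
  have hε1 : (1 - ρ) / 2 ≤ 1 := by linarith
  induction n with
  | zero =>
    rw [avg_zero_dim _ default, avg_zero_dim _ default, noise_zero_dim]
    exact hbase _ (hg _).1 (hg _).2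
  | succ n ih =>
    set ε := (1 - ρ) / 2 with hε
    set gp : Cube n → ℝ := fun x => g (Fin.cons true x) with hgp
    set gm : Cube n → ℝ := fun x => g (Fin.cons false x) with hgm
    have hgp01 : ∀ x, 0 < gp x ∧ gp x < 1 := fun x => hg _
    have hgm01 : ∀ x, 0 < gm x ∧ gm x < 1 := fun x => hg _
    set u := noise ε gp with hu
    set w := noise ε gm with hw
    have hu01 : ∀ y, 0 < u y ∧ u y < 1 := noise_strict hε0 hε1 gp hgp01
    have hw01 : ∀ y, 0 < w y ∧ w y < 1 := noise_strict hε0 hε1 gm hgm01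
    have hau : avg u = avg gp := avg_noise gp
    have haw : avg w = avg gm := avg_noise gm
    have hag : avg g = (avg gp + avg gm) / 2 := avg_succ g
    have ha1 := avg_strict gp hgp01
    have ha2 := avg_strict gm hgm01
    have hES : avg (fun y => binEntropy (noise ε g y)) = avg (fun y => Psi ρ (u y) (w y)) := by
      rw [avg_succ]
      simp only [noise_cons_true, noise_cons_false]
      have e : ∀ y, binEntropy ((1 - ε) * noise ε (fun x => g (Fin.cons true x)) y
            + ε * noise ε (fun x => g (Fin.cons false x)) y)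
          + binEntropy (ε * noise ε (fun x => g (Fin.cons true x)) y
            + (1 - ε) * noise ε (fun x => g (Fin.cons false x)) y)
          = 2 * Psi ρ (u y) (w y) := fun y => SS_eq_Psi ρ (u y) (w y)
      rw [← avg_add]
      simp only [e]
      rw [avg_const_mul]
      ring
    rw [hES, hag]
    have hU := ih gp hgp01
    have hW := ih gm hgm01
    obtain ⟨c, κ, ν, μ, hμ, hP, hC⟩ := hcl (avg gp) (avg gm) ha1.1 ha1.2 ha2.1 ha2.2
    have hA := avg_mono (F := fun y => c + κ * ((u y + w y) / 2) + ν * (u y - w y)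
        + μ * ((binEntropy (u y) + binEntropy (w y)) / 2))
        (G := fun y => Psi ρ (u y) (w y))
        (fun y => hP (u y) (w y) (hu01 y).1 (hu01 y).2 (hw01 y).1 (hw01 y).2)
    rw [avg_plane, hau, haw] at hA
    have t : μ * ((E (avg gp) + E (avg gm)) / 2)
        ≤ μ * ((avg (fun y => binEntropy (u y)) + avg (fun y => binEntropy (w y))) / 2) :=
      mul_le_mul_of_nonneg_left (by linarith) hμ
    linarith

/-- Swapping the two means. -/
lemma PlaneClose.swap {ρ a₀ a₁ : ℝ} {E : ℝ → ℝ} (h : PlaneClose ρ E a₀ a₁) :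
    PlaneClose ρ E a₁ a₀ := by
  obtain ⟨c, κ, ν, μ, hμ, hP, hC⟩ := h
  refine ⟨c, κ, -ν, μ, hμ, ?_, ?_⟩
  · intro u v hu hu' hv hv'
    have := hP v u hv hv' hu hu'
    rw [Psi_comm]
    rw [show (u + v) / 2 = (v + u) / 2 by ring, show -ν * (u - v) = ν * (v - u) by ring,
      show binEntropy u + binEntropy v = binEntropy v + binEntropy u by ring]
    exact this
  · rw [show (a₁ + a₀) / 2 = (a₀ + a₁) / 2 by ring, show -ν * (a₁ - a₀) = ν * (a₀ - a₁) by ring,
      show E a₁ + E a₀ = E a₀ + E a₁ by ring]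
    exact hC

/-- The reflection of the two means. -/
lemma PlaneClose.reflect {ρ a₀ a₁ : ℝ} {E : ℝ → ℝ} (hE : ∀ a, E (1 - a) = E a)
    (h : PlaneClose ρ E a₀ a₁) : PlaneClose ρ E (1 - a₁) (1 - a₀) := by
  obtain ⟨c, κ, ν, μ, hμ, hP, hC⟩ := h
  refine ⟨c + κ, -κ, ν, μ, hμ, ?_, ?_⟩
  · intro u v hu hu' hv hv'
    have := hP (1 - v) (1 - u) (by linarith) (by linarith) (by linarith) (by linarith)
    rw [Psi_reflect, binEntropy_one_sub, binEntropy_one_sub] at this
    rw [show binEntropy u + binEntropy v = binEntropy v + binEntropy u by ring]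
    have e1 : κ * ((1 - v + (1 - u)) / 2) = κ - κ * ((u + v) / 2) := by ring
    have e2 : ν * (1 - v - (1 - u)) = ν * (u - v) := by ring
    rw [e1, e2] at this
    linarith
  · rw [hE, hE, show (1 - a₁ + (1 - a₀)) / 2 = 1 - (a₀ + a₁) / 2 by ring, hE]
    have e1 : (c + κ) + -κ * (1 - (a₀ + a₁) / 2) = c + κ * ((a₀ + a₁) / 2) := by ring
    have e2 : 1 - a₁ - (1 - a₀) = a₀ - a₁ := by ring
    rw [e1, e2, add_comm (E a₁)]
    exact hC

/-- The diagonal. -/
lemma planeClose_diag {ρ a : ℝ} {E : ℝ → ℝ} (h0 : 0 < ρ) (h1 : ρ ≤ 1) : PlaneClose ρ E a a := by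
  refine ⟨0, 0, 0, 1, zero_le_one, ?_, ?_⟩
  · intro u v hu hu' hv hv'
    have := SS_ge (ε := (1 - ρ) / 2) (by linarith) (by linarith) ⟨hu.le, hu'.le⟩ ⟨hv.le, hv'.le⟩
    rw [SS_eq_Psi] at this
    linarith
  · rw [show (a + a) / 2 = a by ring]
    linarith

/-- From the half square to all the pairs of means. -/
theorem planeClose_all {ρ : ℝ} {E : ℝ → ℝ} (h0 : 0 < ρ) (h1 : ρ ≤ 1) (hE : ∀ a, E (1 - a) = E a)
    (hcl : ∀ a₀ a₁, 0 < a₁ → a₁ < a₀ → a₀ < 1 → a₀ + a₁ ≤ 1 → PlaneClose ρ E a₀ a₁)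
    (a₀ a₁ : ℝ) (h00 : 0 < a₀) (h01 : a₀ < 1) (h10 : 0 < a₁) (h11 : a₁ < 1) :
    PlaneClose ρ E a₀ a₁ := by
  have main : ∀ x y : ℝ, 0 < x → x < 1 → 0 < y → y < 1 → y < x → PlaneClose ρ E x y := by
    intro x y hx hx' hy hy' hxy
    rcases le_or_gt (x + y) 1 with h | h
    · exact hcl x y hy hxy hx' h
    · have := hcl (1 - y) (1 - x) (by linarith) (by linarith) (by linarith) (by linarith)
      have h2 := this.reflect hE
      rwa [sub_sub_cancel, sub_sub_cancel] at h2
  rcases lt_trichotomy a₀ a₁ with h | h | h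
  · exact (main a₁ a₀ h10 h11 h00 h01 h).swap
  · subst h
    exact planeClose_diag h0 h1
  · exact main a₀ a₁ h00 h01 h10 h11 h

/-! ### The plane at the point itself -/

lemma muT_eq_pMu {ρ m q : ℝ} (hq : 0 < q) (h1 : q / 2 < m) (h2 : q / 2 < 1 - m) (hρ0 : 0 ≤ ρ)
    (hρ1 : ρ ≤ 1) :
    pMu ρ (2 * m / q) (2 * (1 - m) / q) = muT ρ (m + q / 2) (m - q / 2) := by
  have hq' : q ≠ 0 := hq.ne'
  unfold pMu NN DD muT
  have e0 : 2 * m / q + 2 * (1 - m) / q = 2 / q := by
    field_simp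
    ring
  rw [e0]
  have e1 : (2 * (1 - m) / q) ^ 2 - ρ ^ 2
      = 4 * (1 - (m + q / 2 + (m - q / 2)) / 2 - ρ * (m + q / 2 - (m - q / 2)) / 2
        ) * (1 - (m + q / 2 + (m - q / 2)) / 2 + ρ * (m + q / 2 - (m - q / 2)) / 2) / q ^ 2 := by
    field_simp
    ring
  have e2 : (2 * (1 - m) / q) ^ 2 - 1 = 4 * ((1 - (m + q / 2)) * (1 - (m - q / 2))) / q ^ 2 := by
    field_simp
    ring
  set x := 1 - (m + q / 2 + (m - q / 2)) / 2 - ρ * (m + q / 2 - (m - q / 2)) / 2 with hx
  set y := 1 - (m + q / 2 + (m - q / 2)) / 2 + ρ * (m + q / 2 - (m - q / 2)) / 2 with hy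
  have hρq : ρ * q ≤ q := by nlinarith
  have hρq0 : 0 ≤ ρ * q := by positivity
  have ex : x = 1 - m - ρ * q / 2 := by rw [hx]; ring
  have ey : y = 1 - m + ρ * q / 2 := by rw [hy]; ring
  have hx0 : 0 < x := by rw [ex]; linarith
  have hy0 : 0 < y := by rw [ey]; linarith
  have hQ0 : 0 < (1 - (m + q / 2)) * (1 - (m - q / 2)) := mul_pos (by linarith) (by linarith)
  rw [e1, e2]
  have hs : log ((2 / q) ^ 2) = 2 * log (2 / q) := by
    rw [Real.log_pow]
    norm_num
  have hq2 : (0 : ℝ) < q ^ 2 := by positivity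
  have e3 : 4 * x * y / q ^ 2 = (2 / q) ^ 2 * (x * y) := by
    field_simp
    norm_num
  have e4 : 4 * ((1 - (m + q / 2)) * (1 - (m - q / 2))) / q ^ 2
      = (2 / q) ^ 2 * ((1 - (m + q / 2)) * (1 - (m - q / 2))) := by
    field_simp
    norm_num
  have h2q : (2 / q) ^ 2 ≠ 0 := by positivity
  rw [e3, e4, Real.log_mul h2q (mul_pos hx0 hy0).ne', Real.log_mul h2q hQ0.ne', hs]
  have e5 : 2 * log (2 / q) - (2 * log (2 / q) + log (x * y)) = -log (x * y) := by ring
  have e6 : 2 * log (2 / q) - (2 * log (2 / q) + log ((1 - (m + q / 2)) * (1 - (m - q / 2))))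
      = -log ((1 - (m + q / 2)) * (1 - (m - q / 2))) := by ring
  rw [e5, e6, neg_div_neg_eq]
  congr 2
  rw [hx, hy]
  ring

/-- `0 ≤ TT` gives the plane at the point itself. -/
theorem planeClose_of_TT {ρ a₀ a₁ : ℝ} (h0 : 0 < ρ) (h1 : ρ ≤ 1) (h : a₁ < a₀) (ha0 : a₀ < 1)
    (ha1 : 0 < a₁) (hs : a₀ + a₁ ≤ 1) (hT : 0 ≤ TT ρ a₀ a₁) : PlaneClose ρ (WW ρ) a₀ a₁ := by
  set m := (a₀ + a₁) / 2 with hm
  set q := a₀ - a₁ with hq
  have hq0 : 0 < q := by rw [hq]; linarith
  have e0 : a₀ = m + q / 2 := by rw [hm, hq]; ring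
  have e1 : a₁ = m - q / 2 := by rw [hm, hq]; ring
  have h1' : q / 2 < m := by rw [hm, hq]; linarith
  have h2' : q / 2 < 1 - m := by rw [hm, hq]; linarith
  have P : PData ρ (2 * m / q) (2 * (1 - m) / q) := by
    refine ⟨h0, h1, ?_, ?_⟩
    · rw [one_lt_div hq0]
      linarith
    · apply div_le_div_of_nonneg_right _ hq0.le
      rw [hm]
      linarith
  have hmu := muT_eq_pMu hq0 h1' h2' h0.le h1
  have heq := plane_eq P hq0 h1' h2'
  refine ⟨0, pKap ρ (2 * m / q) (2 * (1 - m) / q), pNu ρ (2 * m / q) (2 * (1 - m) / q),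
    pMu ρ (2 * m / q) (2 * (1 - m) / q), P.mu_nonneg, ?_, ?_⟩
  · intro u v hu hu' hv hv'
    have := P.plane hu hu' hv hv'
    have e : pMu ρ (2 * m / q) (2 * (1 - m) / q) * (binEntropy u + binEntropy v) / 2
        = pMu ρ (2 * m / q) (2 * (1 - m) / q) * ((binEntropy u + binEntropy v) / 2) := by ring
    rw [e] at this
    linarith
  · rw [← e0, ← e1] at hmu heq
    have ePsi : Psi ρ a₀ a₁
        = (binEntropy (m + ρ * q / 2) + binEntropy (m - ρ * q / 2)) / 2 := rfl
    unfold TT at hT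
    rw [← hmu, ePsi, ← hm] at hT
    rw [← heq] at hT
    rw [← hm, ← hq]
    have e : pMu ρ (2 * m / q) (2 * (1 - m) / q) * (binEntropy a₀ + binEntropy a₁) / 2
        = pMu ρ (2 * m / q) (2 * (1 - m) / q) * ((binEntropy a₀ + binEntropy a₁) / 2) := by ring
    rw [e] at hT
    nlinarith

/-! ### The envelope and the limit to the boundary -/

lemma WW_one_sub (ρ a : ℝ) : WW ρ (1 - a) = WW ρ a := by
  unfold WW wQ
  rw [binEntropy_one_sub]
  ring

lemma noise_mix {ε η : ℝ} {n : ℕ} (g : Cube n → ℝ) (y : Cube n) :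
    noise ε (fun x => (1 - η) * g x + η / 2) y = (1 - η) * noise ε g y + η / 2 := by
  have h := noise_const (ε := ε) (η / 2) y
  unfold noise at *
  have e : ∑ x, channel ε x y * ((1 - η) * g x + η / 2)
      = (1 - η) * ∑ x, channel ε x y * g x + ∑ x, channel ε x y * (η / 2) := by
    rw [Finset.mul_sum, ← Finset.sum_add_distrib]
    exact Finset.sum_congr rfl fun x _ => by ring
  rw [e, h]

lemma avg_mix {η : ℝ} {n : ℕ} (g : Cube n → ℝ) :
    avg (fun x => (1 - η) * g x + η / 2) = (1 - η) * avg g + η / 2 := by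
  rw [avg_add, avg_const_mul, avg_const]

/-- The limit from `(0,1)`-valued to `[0,1]`-valued functions. -/
theorem envelope_closed {ε : ℝ} {E : ℝ → ℝ} (hE : Continuous E) (h0 : 0 ≤ ε) (h1 : ε ≤ 1) {n : ℕ}
    (hH : ∀ g : Cube n → ℝ, (∀ x, 0 < g x ∧ g x < 1) →
      E (avg g) ≤ avg (fun y => binEntropy (noise ε g y)))
    (g : Cube n → ℝ) (hg : ∀ x, 0 ≤ g x ∧ g x ≤ 1) :
    E (avg g) ≤ avg (fun y => binEntropy (noise ε g y)) := by
  have hne : (nhdsWithin (0 : ℝ) (Set.Ioi 0)).NeBot := inferInstance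
  have hL : Filter.Tendsto (fun η : ℝ => E ((1 - η) * avg g + η / 2))
      (nhdsWithin (0 : ℝ) (Set.Ioi 0)) (nhds (E (avg g))) := by
    have hc : Continuous (fun η : ℝ => E ((1 - η) * avg g + η / 2)) := by fun_prop
    have := hc.tendsto 0
    simp only [sub_zero, one_mul, zero_div, add_zero] at this
    exact this.mono_left nhdsWithin_le_nhds
  have hR : Filter.Tendsto (fun η : ℝ => avg (fun y => binEntropy ((1 - η) * noise ε g y + η / 2)))
      (nhdsWithin (0 : ℝ) (Set.Ioi 0)) (nhds (avg (fun y => binEntropy (noise ε g y)))) := by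
    have hc : Continuous (fun η : ℝ => avg (fun y => binEntropy ((1 - η) * noise ε g y + η / 2))) := by
      unfold avg
      apply Continuous.div_const
      apply continuous_finsetSum
      intro y _
      have := binEntropy_continuous
      fun_prop
    have := hc.tendsto 0
    simp only [sub_zero, one_mul, zero_div, add_zero] at this
    exact this.mono_left nhdsWithin_le_nhds
  refine le_of_tendsto_of_tendsto hL hR ?_
  have hmem : Set.Ioo (0 : ℝ) 1 ∈ nhdsWithin (0 : ℝ) (Set.Ioi 0) := Ioo_mem_nhdsGT (by norm_num)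
  filter_upwards [hmem] with η hη
  have hg' : ∀ x, 0 < (1 - η) * g x + η / 2 ∧ (1 - η) * g x + η / 2 < 1 := by
    intro x
    have h3 : 0 ≤ 1 - η := by linarith [hη.2]
    have h4 := mul_nonneg h3 (hg x).1
    have h5 : (1 - η) * g x ≤ (1 - η) * 1 := mul_le_mul_of_nonneg_left (hg x).2 h3
    constructor <;> linarith [hη.1, hη.2]
  have := hH _ hg'
  rw [avg_mix] at this
  simp only [noise_mix] at this
  exact this

/-- The full inequality from the closure by planes. -/
theorem ck_of_planeClose {ρ : ℝ} (h0 : 0 < ρ) (h1 : ρ < 1) (hsize : 2 * ThN ρ ≤ ρ ^ 2)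
    (hcl : ∀ a₀ a₁, 0 < a₁ → a₁ < a₀ → a₀ < 1 → a₀ + a₁ ≤ 1 → PlaneClose ρ (WW ρ) a₀ a₁)
    {n : ℕ} (f : Cube n → Bool) :
    mutualInfo ((1 - ρ) / 2) f ≤ 1 - h2 ((1 - ρ) / 2) := by
  set ε := (1 - ρ) / 2 with hε
  have hε0 : 0 < ε := by rw [hε]; linarith
  have hε2 : ε ≤ 1 / 2 := by rw [hε]; linarith
  have hl : 0 < log 2 := log_pos (by norm_num)
  have hk : kN ρ = 4 * (ε * (1 - ε)) := by
    unfold kN
    rw [hε]
    ring
  have hHpos : 0 < binEntropy ε := binEntropy_pos hε0 (by linarith)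
  have hTh : 0 ≤ ThN ρ := by
    have := entropy_ge_four hε0.le (by linarith : ε ≤ 1)
    unfold ThN hN
    rw [hk, ← hε]
    nlinarith
  set κ := kN ρ / binEntropy ε with hκ
  have hLK : ∀ a, binEntropy ε * LK κ a = WW ρ a := by
    intro a
    unfold LK WW ThN hN wQ
    rw [← hε, hκ]
    field_simp
  have hk0 : 0 ≤ kN ρ := by
    rw [hk]
    have : 0 ≤ 1 - ε := by linarith
    positivity
  have hbase : ∀ a, 0 < a → a < 1 → WW ρ a ≤ binEntropy a := by
    intro a ha ha'
    have h4 := entropy_ge_four ha.le ha'.le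
    have hle : binEntropy ε ≤ log 2 := binEntropy_le_log_two
    have e : WW ρ a = (1 - ρ ^ 2) * binEntropy a + ThN ρ * wQ a := rfl
    have hw : log 2 * wQ a ≤ binEntropy a := by
      unfold wQ
      nlinarith
    have hw0 : 0 ≤ wQ a := by
      unfold wQ
      have : 0 ≤ 1 - a := by linarith
      positivity
    have hTh2 : ThN ρ ≤ ρ ^ 2 * log 2 := by
      unfold ThN hN kN
      rw [← hε]
      nlinarith
    rw [e]
    have h5 : ThN ρ * wQ a ≤ ρ ^ 2 * log 2 * wQ a := mul_le_mul_of_nonneg_right hTh2 hw0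
    have h6 : ρ ^ 2 * (log 2 * wQ a) ≤ ρ ^ 2 * binEntropy a :=
      mul_le_mul_of_nonneg_left hw (by positivity)
    nlinarith
  have hall := planeClose_all h0 h1.le (WW_one_sub ρ) hcl
  have hCont : Continuous (WW ρ) := by
    unfold WW wQ
    have := binEntropy_continuous
    fun_prop
  refine mutual_of_envelope (κ := κ) hε0 hε2 ?_ ?_ ?_ f
  · rw [mul_add]
    have e : binEntropy ε * κ = kN ρ := by
      rw [hκ]
      field_simp
    have e2 : binEntropy ε * (2 * (1 - κ * log 2)) = 2 * ThN ρ := by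
      unfold ThN hN
      rw [← hε, hκ]
      field_simp
    rw [e, e2]
    unfold kN
    linarith
  · have : κ * log 2 ≤ 1 := by
      rw [hκ, div_mul_eq_mul_div, div_le_one hHpos]
      unfold ThN hN at hTh
      rw [← hε] at hTh
      linarith
    linarith
  · intro m g hg
    rw [hLK]
    refine envelope_closed hCont hε0.le (by linarith) ?_ g hg
    intro g' hg'
    exact envelope_of_planeClose h0 h1.le hbase hall g' hg'

theorem ck_of_TClosure {ρ : ℝ} (h0 : 0 < ρ) (h1 : ρ < 1) (hsize : 2 * ThN ρ ≤ ρ ^ 2)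
    (hT : TClosure ρ) {n : ℕ} (f : Cube n → Bool) :
    mutualInfo ((1 - ρ) / 2) f ≤ 1 - h2 ((1 - ρ) / 2) :=
  ck_of_planeClose h0 h1 hsize
    (fun a₀ a₁ ha1 h ha0 hs => planeClose_of_TT h0 h1.le h ha0 ha1 hs (hT a₀ a₁ ha1 h ha0 hs)) f

end Vale.Agent.P322
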