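import Vale.Agent.P322.HCorner
import Vale.Agent.P322.PEnv

/-!
The limit `ρ → 0` of the function `A`: its concavity and the lower bound for `A` uniform in small
`ρ`; and the inequality at `ε = 1/2`.
-/

namespace Vale.Agent.P322

open Real

/-- The limit of `A` at `ρ = 0`. -/
noncomputable def AT0 (p q : ℝ) : ℝ :=
  (1 / 2) * (1 - (1 - p - q) ^ 2 / (1 - (p - q) ^ 2)) - Xi (p - q) + (log 2 - 1 / 2) * (p - q) ^ 2

/-- The square over a positive quantity is jointly convex. -/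
lemma hc0_sq_div_convex {a b d₁ d₂ y₁ y₂ : ℝ} (ha : 0 ≤ a) (hb : 0 ≤ b) (hab : a + b = 1)
    (h₁ : 0 < y₁) (h₂ : 0 < y₂) :
    (a * d₁ + b * d₂) ^ 2 / (a * y₁ + b * y₂) ≤ a * (d₁ ^ 2 / y₁) + b * (d₂ ^ 2 / y₂) := by
  have hpos : 0 < a * y₁ + b * y₂ := by
    rcases eq_or_lt_of_le ha with h | h
    · have : b = 1 := by linarith
      rw [← h, this]
      simpa using h₂
    · have : 0 ≤ b * y₂ := by positivity
      have : 0 < a * y₁ := by positivity
      linarith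
  rw [div_le_iff₀ hpos]
  have e : (a * (d₁ ^ 2 / y₁) + b * (d₂ ^ 2 / y₂)) * (a * y₁ + b * y₂) - (a * d₁ + b * d₂) ^ 2
      = a * b * (d₁ * y₂ - d₂ * y₁) ^ 2 / (y₁ * y₂) := by
    field_simp
    ring
  have h3 : 0 ≤ a * b * (d₁ * y₂ - d₂ * y₁) ^ 2 / (y₁ * y₂) := by positivity
  linarith

/-- The value of the quadratic form in the means. -/
lemma hc0_T_eq {p q : ℝ} (hm : 0 < (1 - p + q) / 2) (hm' : 0 < 1 - (1 - p + q) / 2) :
    (1 - p - q) ^ 2 / (1 - (p - q) ^ 2)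
      = ((1 - p - q) / 2) ^ 2 / ((1 - p + q) / 2)
        + ((1 - p - q) / 2) ^ 2 / (1 - (1 - p + q) / 2) := by
  have e : 1 - (p - q) ^ 2 = 4 * ((1 - p + q) / 2 * (1 - (1 - p + q) / 2)) := by ring
  have e2 : 1 - p - q = 2 * ((1 - p - q) / 2) := by ring
  rw [e]
  nth_rewrite 1 [e2]
  generalize (1 - p + q) / 2 = m at *
  generalize (1 - p - q) / 2 = d at *
  field_simp
  ring

/-- The function `-Ξ(u) + θ u²` as a function of the mean. -/
lemma hc0_Xi_eq {p q : ℝ} (h1 : -1 < p - q) (h2 : p - q < 1) :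
    -Xi (p - q) + (log 2 - 1 / 2) * (p - q) ^ 2
      = binEntropy ((1 - p + q) / 2)
        - (4 * (log 2 - 1 / 2)) * ((1 - p + q) / 2 * (1 - (1 - p + q) / 2))
        + (log 2 - 1 / 2) - log 2 := by
  have e := binEntropy_half_sub h1 h2
  rw [show (1 - (p - q)) / 2 = (1 - p + q) / 2 by ring] at e
  rw [e]
  ring

/-- Joint concavity of the limit function. -/
lemma AT0_concave :
    ConcaveOn ℝ {x : ℝ × ℝ | 0 ≤ x.1 ∧ 0 ≤ x.2 ∧ x.1 + x.2 ≤ 1 ∧ x.1 < 1 ∧ x.2 < 1}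
      (fun x => AT0 x.1 x.2) := by
  refine ⟨?_, ?_⟩
  · intro x hx y hy a b ha hb hab
    simp only [Set.mem_ofPred_eq, Prod.fst_add, Prod.snd_add, Prod.smul_fst, Prod.smul_snd,
      smul_eq_mul] at hx hy ⊢
    obtain ⟨hx1, hx2, hx3, hx4, hx5⟩ := hx
    obtain ⟨hy1, hy2, hy3, hy4, hy5⟩ := hy
    have hb' : b = 1 - a := by linarith
    subst hb'
    refine ⟨by positivity, by positivity, by nlinarith, ?_, ?_⟩
    · rcases eq_or_lt_of_le ha with h | h
      · rw [← h]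
        linarith
      · nlinarith
    · rcases eq_or_lt_of_le ha with h | h
      · rw [← h]
        linarith
      · nlinarith
  · intro x hx y hy a b ha hb hab
    simp only [Set.mem_ofPred_eq] at hx hy
    obtain ⟨hx1, hx2, hx3, hx4, hx5⟩ := hx
    obtain ⟨hy1, hy2, hy3, hy4, hy5⟩ := hy
    simp only [Prod.fst_add, Prod.snd_add, Prod.smul_fst, Prod.smul_snd, smul_eq_mul]
    set X1 := x.1
    set X2 := x.2
    set Y1 := y.1
    set Y2 := y.2
    have hb' : b = 1 - a := by linarith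
    subst hb'
    -- the combined point
    set P := a * X1 + (1 - a) * Y1 with hP
    set Q := a * X2 + (1 - a) * Y2 with hQ
    have hP0 : 0 ≤ P := by positivity
    have hQ0 : 0 ≤ Q := by positivity
    have hPQ : P + Q ≤ 1 := by
      rw [hP, hQ]
      nlinarith
    have hP1 : P < 1 := by
      rw [hP]
      rcases eq_or_lt_of_le ha with h | h
      · rw [← h]
        linarith
      · nlinarith
    have hQ1 : Q < 1 := by
      rw [hQ]
      rcases eq_or_lt_of_le ha with h | h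
      · rw [← h]
        linarith
      · nlinarith
    -- the concave piece
    have hθ : 4 * (log 2 - 1 / 2) ≤ 2 := by
      have := log_two_sub_half_lt
      linarith
    have hg := (hc_conc hθ).2
      (x := (1 - X1 + X2) / 2) (y := (1 - Y1 + Y2) / 2)
      ⟨by linarith, by linarith⟩ ⟨by linarith, by linarith⟩ ha hb hab
    simp only [smul_eq_mul] at hg
    have em : a * ((1 - X1 + X2) / 2) + (1 - a) * ((1 - Y1 + Y2) / 2) = (1 - P + Q) / 2 := by
      rw [hP, hQ]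
      ring
    rw [em] at hg
    -- the convex piece
    have hmX : 0 < (1 - X1 + X2) / 2 := by linarith
    have hmY : 0 < (1 - Y1 + Y2) / 2 := by linarith
    have hmX' : 0 < 1 - (1 - X1 + X2) / 2 := by linarith
    have hmY' : 0 < 1 - (1 - Y1 + Y2) / 2 := by linarith
    have hmP : 0 < (1 - P + Q) / 2 := by linarith
    have hmP' : 0 < 1 - (1 - P + Q) / 2 := by linarith
    have k1 := hc0_sq_div_convex (d₁ := (1 - X1 - X2) / 2) (d₂ := (1 - Y1 - Y2) / 2) ha hb hab hmX hmY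
    have k2 := hc0_sq_div_convex (d₁ := (1 - X1 - X2) / 2) (d₂ := (1 - Y1 - Y2) / 2) ha hb hab hmX' hmY'
    have em1 : a * ((1 - X1 - X2) / 2) + (1 - a) * ((1 - Y1 - Y2) / 2) = (1 - P - Q) / 2 := by
      rw [hP, hQ]
      ring
    have em2 : a * (1 - (1 - X1 + X2) / 2) + (1 - a) * (1 - (1 - Y1 + Y2) / 2)
        = 1 - (1 - P + Q) / 2 := by
      rw [hP, hQ]
      ring
    rw [em1, em] at k1
    rw [em1, em2] at k2
    have hXi : ∀ {u v : ℝ}, 0 ≤ u → 0 ≤ v → u < 1 → v < 1 → -1 < u - v ∧ u - v < 1 := by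
      intro u v hu hv hu' hv'
      constructor <;> linarith
    have xX := hXi hx1 hx2 hx4 hx5
    have xY := hXi hy1 hy2 hy4 hy5
    have xP := hXi hP0 hQ0 hP1 hQ1
    have e1 := hc0_Xi_eq xX.1 xX.2
    have e2 := hc0_Xi_eq xY.1 xY.2
    have e3 := hc0_Xi_eq xP.1 xP.2
    have t1 := hc0_T_eq (p := X1) (q := X2) hmX hmX'
    have t2 := hc0_T_eq (p := Y1) (q := Y2) hmY hmY'
    have t3 := hc0_T_eq (p := P) (q := Q) hmP hmP'
    unfold AT0
    rw [t1, t2, t3]
    have a1 : ∀ T u θ : ℝ, (1 / 2) * (1 - T) - Xi u + θ * u ^ 2 = (1 / 2) * (1 - T) + (-Xi u + θ * u ^ 2) := by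
      intro T u θ
      ring
    rw [a1, a1, a1, e1, e2, e3]
    generalize (1 - P - Q) / 2 = dP at *
    generalize (1 - X1 - X2) / 2 = dX at *
    generalize (1 - Y1 - Y2) / 2 = dY at *
    generalize (1 - P + Q) / 2 = mP at *
    generalize (1 - X1 + X2) / 2 = mX at *
    generalize (1 - Y1 + Y2) / 2 = mY at *
    generalize binEntropy mP - 4 * (log 2 - 1 / 2) * (mP * (1 - mP)) = gP at *
    generalize binEntropy mX - 4 * (log 2 - 1 / 2) * (mX * (1 - mX)) = gX at *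
    generalize binEntropy mY - 4 * (log 2 - 1 / 2) * (mY * (1 - mY)) = gY at *
    have e5 : a * (1 / 2 * (1 - (dX ^ 2 / mX + dX ^ 2 / (1 - mX))) + (gX + (log 2 - 1 / 2) - log 2))
        + (1 - a) * (1 / 2 * (1 - (dY ^ 2 / mY + dY ^ 2 / (1 - mY))) + (gY + (log 2 - 1 / 2) - log 2))
        = 1 / 2 - (1 / 2) * ((a * (dX ^ 2 / mX) + (1 - a) * (dY ^ 2 / mY))
            + (a * (dX ^ 2 / (1 - mX)) + (1 - a) * (dY ^ 2 / (1 - mY))))
          + (a * gX + (1 - a) * gY) + ((log 2 - 1 / 2) - log 2) := by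
      ring
    rw [e5]
    linarith

/-- The lower bound of `A` by its limit, uniform in small `ρ`. -/
lemma AT_mono0 {ρ ρ₂ p q : ℝ} (h0 : 0 < ρ) (h2 : ρ ≤ ρ₂) (h3 : ρ₂ < 1) (hp : 0 ≤ p) (hq : 0 ≤ q)
    (hs : p + q ≤ 1) (hp1 : p < 1) (hq1 : q < 1) :
    AT0 p q + (thT ρ₂ - (log 2 - 1 / 2)) * (p - q) ^ 2 ≤ AT ρ p q := by
  have hρ1 : ρ < 1 := by linarith
  rw [AT_eq h0 hρ1]
  set m := (1 - p + q) / 2 with hm
  set d := (1 - p - q) / 2 with hd
  have hm0 : 0 < m := by rw [hm]; linarith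
  have hm1 : 0 < 1 - m := by rw [hm]; linarith
  have hd0 : 0 ≤ d := by rw [hd]; linarith
  have hdm : d ≤ m := by rw [hd, hm]; linarith
  have hdm' : d ≤ 1 - m := by rw [hd, hm]; linarith
  -- the series
  have S := (hasSum_Xi_div h0 hρ1).sub ((hasSum_GP h0 hρ1 hd0 hdm).add (hasSum_GP h0 hρ1 hd0 hdm'))
  have hnn : ∀ n : ℕ, 0 ≤ ρ ^ (2 * n) / ((2 * (n : ℝ) + 2) * (2 * (n : ℝ) + 1))
      - (ρ ^ (2 * n) / ((2 * (n : ℝ) + 2) * (2 * (n : ℝ) + 1)) * (m * (d / m) ^ (2 * n + 2))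
        + ρ ^ (2 * n) / ((2 * (n : ℝ) + 2) * (2 * (n : ℝ) + 1))
          * ((1 - m) * (d / (1 - m)) ^ (2 * n + 2))) := by
    intro n
    have t1 := hc_T_le n hd0 hdm
    have t2 := hc_T_le n hd0 hdm'
    have hc : 0 ≤ ρ ^ (2 * n) / ((2 * (n : ℝ) + 2) * (2 * (n : ℝ) + 1)) := by positivity
    have e : ρ ^ (2 * n) / ((2 * (n : ℝ) + 2) * (2 * (n : ℝ) + 1))
        - (ρ ^ (2 * n) / ((2 * (n : ℝ) + 2) * (2 * (n : ℝ) + 1)) * (m * (d / m) ^ (2 * n + 2))
          + ρ ^ (2 * n) / ((2 * (n : ℝ) + 2) * (2 * (n : ℝ) + 1))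
            * ((1 - m) * (d / (1 - m)) ^ (2 * n + 2)))
        = ρ ^ (2 * n) / ((2 * (n : ℝ) + 2) * (2 * (n : ℝ) + 1))
          * (1 - (m * (d / m) ^ (2 * n + 2) + (1 - m) * (d / (1 - m)) ^ (2 * n + 2))) := by
      ring
    rw [e]
    apply mul_nonneg hc
    linarith
  have hfirst := le_hasSum S 0 (fun n _ => hnn n)
  simp only [Nat.cast_zero, mul_zero, pow_zero, zero_add, mul_one] at hfirst
  have hT := hc0_T_eq (p := p) (q := q) hm0 hm1
  rw [← hm] at hT
  have e0 : m * (d / m) ^ 2 = d ^ 2 / m := by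
    field_simp
  have e1 : (1 - m) * (d / (1 - m)) ^ 2 = d ^ 2 / (1 - m) := by
    field_simp
  rw [e0, e1] at hfirst
  have hXi := hc0_Xi_eq (p := p) (q := q) (by linarith) (by linarith)
  rw [← hm] at hXi
  have hθ := hc_thT_antitone h0 h2 h3
  have hsq : 0 ≤ (p - q) ^ 2 := sq_nonneg _
  have hθq := mul_le_mul_of_nonneg_right hθ hsq
  have eV : 4 * (m * (1 - m)) = 1 - (p - q) ^ 2 := by
    rw [hm]
    ring
  have eV2 : 4 * thT ρ * (m * (1 - m)) = thT ρ * (1 - (p - q) ^ 2) := by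
    rw [← eV]
    ring
  have eV3 : (4 * (log 2 - 1 / 2)) * (m * (1 - m)) = (log 2 - 1 / 2) * (1 - (p - q) ^ 2) := by
    rw [← eV]
    ring
  rw [eV3] at hXi
  rw [eV2]
  unfold AT0
  rw [hT]
  have eS : (GP m (ρ * d) + GP (1 - m) (ρ * d)) / ρ ^ 2
      = GP m (ρ * d) / ρ ^ 2 + GP (1 - m) (ρ * d) / ρ ^ 2 := add_div _ _ _
  rw [eS]
  have eT : thT ρ = log 2 - Xi ρ / ρ ^ 2 := rfl
  have eN : (2 * 0 + 2 : ℝ) * (2 * 0 + 1) = 2 := by norm_num
  norm_num at hfirst
  rw [eT] at hθq ⊢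
  nlinarith [hfirst, hXi, hθq]

/-- The inequality at `ε = 1/2`. -/
theorem ck_half {n : ℕ} (f : Cube n → Bool) : mutualInfo (1 / 2) f ≤ 1 - h2 (1 / 2) := by
  have hm := one_sub_mutualInfo (ε := 1 / 2) (by norm_num) (by norm_num) f
  have hl : 0 < log 2 := log_pos (by norm_num)
  have hchan : ∀ x y : Cube n, channel (1 / 2) x y = 1 / 2 ^ n := by
    intro x y
    unfold channel
    have : ∀ i : Fin n, (if y i = x i then (1 : ℝ) - 1 / 2 else 1 / 2) = 1 / 2 := by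
      intro i
      split_ifs <;> norm_num
    simp only [this, Finset.prod_const, Finset.card_univ, Fintype.card_fin]
    rw [div_pow, one_pow]
  have hnoise : ∀ y : Cube n, noise (1 / 2) (indicator f) y = avg (indicator f) := by
    intro y
    unfold noise avg
    simp only [hchan]
    rw [← Finset.mul_sum]
    ring
  have hav : avg (fun y => binEntropy (noise (1 / 2) (indicator f) y))
      = binEntropy (avg (indicator f)) := by
    simp only [hnoise]
    exact avg_const _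
  rw [hav] at hm
  have h5 : log 2 * (1 - mutualInfo (1 / 2) f) = log 2 * 1 := by
    rw [hm]
    ring
  have h6 := mul_left_cancel₀ hl.ne' h5
  have h7 : h2 (1 / 2) = 1 := by
    unfold h2
    have e : (1 : ℝ) - 1 / 2 = 1 / 2 := by norm_num
    rw [e]
    have e2 : logb 2 (1 / 2) = -1 := by
      rw [one_div, logb_inv, logb_self_eq_one (by norm_num)]
    rw [e2]
    norm_num
  rw [h7]
  linarith

end Vale.Agent.P322
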