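import Vale.Agent.P322.HCorner

/-!
The regular form of the closure function `TT`:
`TT = ρ² (R̃ + ℳ U - θ̃ δ²)`, with `R̃ ≥ 0` (strong data processing) and the exact form of `ℳ = 1 - μ`.
-/

namespace Vale.Agent.P322

open Real

lemma ThN_eq {ρ : ℝ} (h0 : 0 < ρ) (h1 : ρ < 1) : ThN ρ = ρ ^ 2 * thT ρ := hc_ThN_eq h0 h1

lemma thT_antitone {ρ ρ' : ℝ} (h0 : 0 < ρ) (h : ρ ≤ ρ') (h1 : ρ' < 1) : thT ρ' ≤ thT ρ :=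
  hc_thT_antitone h0 h h1

lemma thT_le {ρ : ℝ} (h0 : 0 < ρ) (h1 : ρ < 1) : thT ρ ≤ log 2 - 1 / 2 := hc_thT_le h0 h1

lemma thT_nonneg {ρ : ℝ} (h0 : 0 < ρ) (h1 : ρ < 1) : 0 ≤ thT ρ := hc_thT_nonneg h0 h1

/-- The regular form of `TT`. -/
lemma TT_regular {ρ a₀ a₁ : ℝ} (h0 : 0 < ρ) (h1 : ρ < 1) :
    TT ρ a₀ a₁ = ρ ^ 2 * (RT ρ a₀ a₁ + MMT ρ a₀ a₁ * UT ρ a₀ a₁ - thT ρ * (a₀ - a₁) ^ 2) := by
  have hTh := hc_ThN_eq h0 h1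
  have hρ : ρ ^ 2 ≠ 0 := by positivity
  unfold TT RT MMT UT WW kN wQ
  rw [hTh]
  field_simp
  ring

/-- `S = 2 Ψ`. -/
lemma SS_eq_Psi (ρ u v : ℝ) : SS ((1 - ρ) / 2) u v = 2 * Psi ρ u v := by
  unfold SS Psi
  rw [show (1 - (1 - ρ) / 2) * u + (1 - ρ) / 2 * v = (u + v) / 2 + ρ * (u - v) / 2 by ring,
    show (1 - ρ) / 2 * u + (1 - (1 - ρ) / 2) * v = (u + v) / 2 - ρ * (u - v) / 2 by ring]
  ring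

lemma RT_nonneg {ρ a₀ a₁ : ℝ} (h0 : 0 < ρ) (h1 : ρ < 1) (ha0 : 0 ≤ a₀) (ha0' : a₀ ≤ 1) (ha1 : 0 ≤ a₁)
    (ha1' : a₁ ≤ 1) : 0 ≤ RT ρ a₀ a₁ := by
  have h := SS_ge_JJ (ε := (1 - ρ) / 2) (u := a₀) (w := a₁) (by linarith) (by linarith) ⟨ha0, ha0'⟩
    ⟨ha1, ha1'⟩
  rw [SS_eq_Psi] at h
  have hρ : 0 < ρ ^ 2 := by positivity
  have e : RT ρ a₀ a₁ = (Psi ρ a₀ a₁ - (binEntropy a₀ + binEntropy a₁) / 2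
      - (1 - ρ ^ 2) * JJ a₀ a₁) / ρ ^ 2 := by
    unfold RT JJ
    field_simp
    ring
  rw [e]
  apply div_nonneg _ hρ.le
  have e2 : 8 * ((1 - ρ) / 2 * (1 - (1 - ρ) / 2)) = 2 * (1 - ρ ^ 2) := by ring
  rw [e2] at h
  linarith

/-- The factorisation of `(1-x)(1-y)`. -/
lemma noised_prod (ρ a₀ a₁ : ℝ) :
    (1 - ((a₀ + a₁) / 2 + ρ * (a₀ - a₁) / 2)) * (1 - ((a₀ + a₁) / 2 - ρ * (a₀ - a₁) / 2))
      = (1 - a₀) * (1 - a₁) + kN ρ * (a₀ - a₁) ^ 2 / 4 := by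
  unfold kN
  ring

section mu

variable {ρ a₀ a₁ : ℝ}

lemma Q_pos (ha0 : a₀ < 1) (h : a₁ < a₀) : 0 < (1 - a₀) * (1 - a₁) :=
  mul_pos (by linarith) (by linarith)

lemma Q_lt_one (ha0 : a₀ < 1) (ha1 : 0 < a₁) (h : a₁ < a₀) : (1 - a₀) * (1 - a₁) < 1 := by
  nlinarith

lemma kN_pos (h0 : 0 < ρ) (h1 : ρ < 1) : 0 < kN ρ := by
  unfold kN
  nlinarith

lemma noised_lt_one (h0 : 0 < ρ) (h1 : ρ < 1) (ha0 : a₀ < 1) (ha1 : 0 < a₁) (h : a₁ < a₀) :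
    (1 - a₀) * (1 - a₁) + kN ρ * (a₀ - a₁) ^ 2 / 4 < 1 := by
  have hk : kN ρ ≤ 1 := by
    unfold kN
    nlinarith [sq_nonneg ρ]
  have hd : 0 ≤ (a₀ - a₁) ^ 2 := sq_nonneg _
  have e : (1 - a₀) * (1 - a₁) + (a₀ - a₁) ^ 2 / 4 = (1 - (a₀ + a₁) / 2) ^ 2 := by ring
  have h2 : kN ρ * (a₀ - a₁) ^ 2 / 4 ≤ (a₀ - a₁) ^ 2 / 4 := by nlinarith
  have h3 : (1 - (a₀ + a₁) / 2) ^ 2 < 1 := by
    have : 0 < 1 - (a₀ + a₁) / 2 := by linarith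
    have : 1 - (a₀ + a₁) / 2 < 1 := by linarith
    nlinarith
  linarith

lemma muT_nonneg (h0 : 0 < ρ) (h1 : ρ < 1) (h : a₁ < a₀) (ha0 : a₀ < 1) (ha1 : 0 < a₁) :
    0 ≤ muT ρ a₀ a₁ := by
  unfold muT
  rw [noised_prod]
  have hQ := Q_pos ha0 h
  have hk := kN_pos h0 h1
  have hpos : 0 < (1 - a₀) * (1 - a₁) + kN ρ * (a₀ - a₁) ^ 2 / 4 := by positivity
  apply div_nonneg_of_nonpos
  · exact (log_neg hpos (noised_lt_one h0 h1 ha0 ha1 h)).le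
  · exact (log_neg hQ (Q_lt_one ha0 ha1 h)).le

lemma muT_le_one (h0 : 0 < ρ) (h1 : ρ < 1) (h : a₁ < a₀) (ha0 : a₀ < 1) (ha1 : 0 < a₁) :
    muT ρ a₀ a₁ ≤ 1 := by
  unfold muT
  rw [noised_prod]
  have hQ := Q_pos ha0 h
  have hk := kN_pos h0 h1
  have hl : log ((1 - a₀) * (1 - a₁)) < 0 := log_neg hQ (Q_lt_one ha0 ha1 h)
  rw [div_le_one_of_neg hl]
  apply log_le_log hQ
  have : 0 ≤ kN ρ * (a₀ - a₁) ^ 2 / 4 := by positivity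
  linarith

/-- `(1-x)(1-y) = Q + k δ²/4`. -/
lemma MMT_eq (h0 : 0 < ρ) (h1 : ρ < 1) (h : a₁ < a₀) (ha0 : a₀ < 1) (ha1 : 0 < a₁) :
    MMT ρ a₀ a₁ = log (1 + kN ρ * (a₀ - a₁) ^ 2 / (4 * ((1 - a₀) * (1 - a₁))))
      / log (1 / ((1 - a₀) * (1 - a₁))) := by
  unfold MMT muT
  rw [noised_prod]
  have hQ := Q_pos ha0 h
  have hk := kN_pos h0 h1
  have hl : log ((1 - a₀) * (1 - a₁)) < 0 := log_neg hQ (Q_lt_one ha0 ha1 h)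
  have e0 : ∀ Q x : ℝ, Q ≠ 0 → 1 + x / (4 * Q) = (Q + x / 4) / Q := by
    intro Q x hQ0
    field_simp
  have e1 := e0 ((1 - a₀) * (1 - a₁)) (kN ρ * (a₀ - a₁) ^ 2) hQ.ne'
  have hpos : 0 < (1 - a₀) * (1 - a₁) + kN ρ * (a₀ - a₁) ^ 2 / 4 := by positivity
  rw [e1, log_div hpos.ne' hQ.ne', one_div, log_inv]
  have hl' : log ((1 - a₀) * (1 - a₁)) ≠ 0 := hl.ne
  field_simp
  ring

end mu

end Vale.Agent.P322
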