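import Vale.Agent.P322.HDLeaf
import Vale.Agent.P322.HCorner0
import Vale.Agent.P322.HForm
import Vale.Agent.P322.HCellC

/-!
Soundness of the test for a C-cell of the high noise regime.
-/

namespace Vale.Agent.P322

open Real

/-! ### Casts -/

lemma shl32 (a : ℕ) : Nat.shiftLeft a 32 = a * 4294967296 := by
  show a <<< 32 = _
  rw [Nat.shiftLeft_eq]

lemma shr1 (a : ℕ) : Nat.shiftRight a 1 = a / 2 := by
  show a >>> 1 = _
  rw [Nat.shiftRight_eq_div_pow]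

lemma Lo.half {x : ℝ} {X : ℕ} (h : Lo x X) : Lo (x / 2) (halfDn X) := by
  unfold Lo at *
  unfold halfDn
  rw [shr1]
  have hS := FS_pos
  have h3 := natDiv_le X 2
  push_cast at h3
  have h4 : ((X / 2 : ℕ) : ℝ) / FS ≤ (X : ℝ) / 2 / FS := div_le_div_of_nonneg_right h3 hS.le
  have e : (X : ℝ) / 2 / FS = (X : ℝ) / FS / 2 := by ring
  rw [e] at h4
  linarith

lemma Hi.half {x : ℝ} {X : ℕ} (h : Hi x X) : Hi (x / 2) (halfUp X) := by
  unfold Hi at *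
  unfold halfUp
  rw [Nat.succ_eq_add_one, shr1]
  have hS := FS_pos
  have h3 := le_natDiv_succ (a := X) (b := 2) (by norm_num)
  push_cast at h3
  have h4 : (X : ℝ) / 2 / FS ≤ (((X / 2 : ℕ) : ℝ) + 1) / FS := div_le_div_of_nonneg_right h3 hS.le
  have e : (X : ℝ) / 2 / FS = (X : ℝ) / FS / 2 := by ring
  rw [e] at h4
  push_cast
  linarith

/-- Only one of the factors needs to be nonnegative. -/
lemma Hi.mul1 {x y : ℝ} {X Y : ℕ} (hx : Hi x X) (hy : Hi y Y) (hx0 : 0 ≤ x) :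
    Hi (x * y) (mulUp X Y) := by
  have hy' : Hi ((Y : ℝ) / FS) Y := le_refl _
  have hS := FS_pos
  have hY0 : 0 ≤ (Y : ℝ) / FS := by positivity
  have h1 := Hi.mul hx hy' hx0 hY0
  unfold Hi at *
  exact le_trans (mul_le_mul_of_nonneg_left hy hx0) h1

lemma lo_exact {x : ℝ} {X : ℕ} (h : (X : ℝ) / FS = x) : Lo x X := le_of_eq h
lemma hi_exact {x : ℝ} {X : ℕ} (h : (X : ℝ) / FS = x) : Hi x X := le_of_eq h.symm

lemma lo_self (X : ℕ) : Lo ((X : ℝ) / FS) X := le_refl _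
lemma hi_self (X : ℕ) : Hi ((X : ℝ) / FS) X := le_refl _

lemma tF_exact (R : ℕ) : ((tF R : ℕ) : ℝ) / FS = ((R : ℝ) / DR) ^ 2 := by
  unfold tF
  rw [shl32, FS_cast, DR_cast]
  show (((R * R) * 4294967296 : ℕ) : ℝ) / _ = _
  push_cast
  ring

lemma kF_exact {R : ℕ} (hR : R ≤ DR) : ((kF R : ℕ) : ℝ) / FS = 1 - ((R : ℝ) / DR) ^ 2 := by
  unfold kF
  rw [shl32, FS_cast, DR_cast]
  have h : R * R ≤ 4294967296 := by
    have : R * R ≤ DR * DR := Nat.mul_le_mul hR hR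
    simpa [DR] using this
  show (((4294967296 - R * R) * 4294967296 : ℕ) : ℝ) / _ = _
  rw [Nat.cast_mul, Nat.cast_sub h]
  push_cast
  ring

lemma xF_exact (P : ℕ) : ((xF P : ℕ) : ℝ) / FS = (P : ℝ) / DP := by
  unfold xF
  rw [shl32, FS_cast, DP_cast]
  push_cast
  ring

lemma cF_exact {P : ℕ} (hP : P ≤ DP) : ((cF P : ℕ) : ℝ) / FS = 1 - (P : ℝ) / DP := by
  unfold cF
  rw [shl32, FS_cast]
  show (((DP - P) * 4294967296 : ℕ) : ℝ) / _ = _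
  rw [Nat.cast_mul, Nat.cast_sub hP, DP_cast]
  push_cast
  ring

lemma wF_exact {P : ℕ} (hP : P ≤ DP) : ((wF P : ℕ) : ℝ) / FS = wQ ((P : ℝ) / DP) := by
  unfold wF wQ
  rw [FS_cast]
  show ((4 * (P * (DP - P)) : ℕ) : ℝ) / _ = _
  rw [Nat.cast_mul, Nat.cast_mul, Nat.cast_sub hP, DP_cast]
  push_cast
  ring

section vertex

variable {P Q : ℕ}

lemma MM_cast (hP : P ≤ DP) : ((MM P Q : ℕ) : ℝ) = (DP : ℝ) - P + Q := by
  show ((DP - P + Q : ℕ) : ℝ) = _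
  rw [Nat.cast_add, Nat.cast_sub hP]

lemma DL_cast (hPQ : P + Q ≤ DP) : ((DL P Q : ℕ) : ℝ) = (DP : ℝ) - P - Q := by
  show ((DP - P - Q : ℕ) : ℝ) = _
  rw [Nat.cast_sub (by omega), Nat.cast_sub (by omega)]

lemma MM_eq_div (hP : P ≤ DP) :
    ((MM P Q : ℕ) : ℝ) / (DP2 : ℝ) = (1 - (P : ℝ) / DP + (Q : ℝ) / DP) / 2 := by
  rw [MM_cast hP, DP2_cast, DP_cast]
  ring

lemma MM_le2 (hPQ : P + Q ≤ DP) : MM P Q ≤ DP2 := by
  show DP - P + Q ≤ DP2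
  unfold DP at hPQ ⊢
  unfold DP2
  omega

lemma wM_exact (hPQ : P + Q ≤ DP) :
    ((wM P Q : ℕ) : ℝ) / FS = wQ ((1 - (P : ℝ) / DP + (Q : ℝ) / DP) / 2) := by
  have hP : P ≤ DP := by omega
  rw [← MM_eq_div hP]
  unfold wM wQ
  show ((MM P Q * (DP2 - MM P Q) : ℕ) : ℝ) / _ = _
  rw [Nat.cast_mul, Nat.cast_sub (MM_le2 hPQ), FS_cast, DP2_cast]
  ring

lemma uSq_exact : ((uSq P Q : ℕ) : ℝ) / FS = ((P : ℝ) / DP - (Q : ℝ) / DP) ^ 2 := by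
  unfold uSq
  show (((P - Q + (Q - P)) * (P - Q + (Q - P)) : ℕ) : ℝ) / _ = _
  rw [FS_cast, DP_cast]
  rcases le_total P Q with h | h
  · rw [Nat.sub_eq_zero_of_le h, zero_add, Nat.cast_mul, Nat.cast_sub h]
    ring
  · rw [Nat.sub_eq_zero_of_le h, add_zero, Nat.cast_mul, Nat.cast_sub h]
    ring

lemma x_eq {R : ℕ} (hPQ : P + Q ≤ DP) :
    ((xN R P Q : ℕ) : ℝ) / (DB : ℝ)
      = (1 - (P : ℝ) / DP + (Q : ℝ) / DP) / 2 + (R : ℝ) / DR * (1 - (P : ℝ) / DP - (Q : ℝ) / DP) / 2 := by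
  have hP : P ≤ DP := by omega
  show ((MM P Q * DR + R * DL P Q : ℕ) : ℝ) / _ = _
  rw [Nat.cast_add, Nat.cast_mul, Nat.cast_mul, MM_cast hP, DL_cast hPQ, DB_cast, DP_cast, DR_cast]
  ring

lemma y_le {R : ℕ} (hR : R ≤ DR) (hPQ : P + Q ≤ DP) : R * DL P Q ≤ MM P Q * DR := by
  have h1 : DL P Q ≤ MM P Q := by
    show DP - P - Q ≤ DP - P + Q
    omega
  calc R * DL P Q ≤ DR * MM P Q := Nat.mul_le_mul hR h1
    _ = MM P Q * DR := Nat.mul_comm _ _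

lemma y_eq {R : ℕ} (hR : R ≤ DR) (hPQ : P + Q ≤ DP) :
    ((yN R P Q : ℕ) : ℝ) / (DB : ℝ)
      = (1 - (P : ℝ) / DP + (Q : ℝ) / DP) / 2 - (R : ℝ) / DR * (1 - (P : ℝ) / DP - (Q : ℝ) / DP) / 2 := by
  have hP : P ≤ DP := by omega
  show ((MM P Q * DR - R * DL P Q : ℕ) : ℝ) / _ = _
  rw [Nat.cast_sub (y_le hR hPQ), Nat.cast_mul, Nat.cast_mul, MM_cast hP, DL_cast hPQ, DB_cast, DP_cast,
    DR_cast]
  ring

lemma xN_le {R : ℕ} (hR : R ≤ DR) (hPQ : P + Q ≤ DP) : xN R P Q ≤ DB := by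
  have h1 : R * DL P Q ≤ DR * DL P Q := Nat.mul_le_mul_right _ hR
  show MM P Q * DR + R * DL P Q ≤ DB
  have h2 : MM P Q * DR + DR * DL P Q = (MM P Q + DL P Q) * DR := by ring
  have h3 : MM P Q + DL P Q ≤ 2 * DP := by
    show DP - P + Q + (DP - P - Q) ≤ 2 * DP
    omega
  have h4 : (MM P Q + DL P Q) * DR ≤ (2 * DP) * DR := Nat.mul_le_mul_right _ h3
  have h5 : (2 * DP) * DR = DB := by
    unfold DP DR DB
    norm_num
  omega

lemma yN_le {R : ℕ} (hR : R ≤ DR) (hPQ : P + Q ≤ DP) : yN R P Q ≤ DB := by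
  have h := xN_le (R := R) hR hPQ
  show MM P Q * DR - R * DL P Q ≤ DB
  have h2 : xN R P Q = MM P Q * DR + R * DL P Q := rfl
  omega

lemma DB_pos : 0 < DB := by
  unfold DB
  norm_num

lemma psiDn_le {R : ℕ} (hR : R ≤ DR) (hPQ : P + Q ≤ DP) :
    Lo (Psi ((R : ℝ) / DR) (1 - (P : ℝ) / DP) ((Q : ℝ) / DP)) (psiDn R P Q) := by
  have h1 := entDn_le DB_pos (xN_le hR hPQ)
  have h2 := entDn_le DB_pos (yN_le hR hPQ)
  rw [x_eq hPQ] at h1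
  rw [y_eq hR hPQ] at h2
  have h3 := (Lo.add h1 h2).half
  have e : Psi ((R : ℝ) / DR) (1 - (P : ℝ) / DP) ((Q : ℝ) / DP)
      = (binEntropy ((1 - (P : ℝ) / DP + (Q : ℝ) / DP) / 2
            + (R : ℝ) / DR * (1 - (P : ℝ) / DP - (Q : ℝ) / DP) / 2)
          + binEntropy ((1 - (P : ℝ) / DP + (Q : ℝ) / DP) / 2
            - (R : ℝ) / DR * (1 - (P : ℝ) / DP - (Q : ℝ) / DP) / 2)) / 2 := rfl
  rw [e]
  exact h3

lemma Psi_nonneg_v {R : ℕ} (hR : R ≤ DR) (hPQ : P + Q ≤ DP) :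
    0 ≤ Psi ((R : ℝ) / DR) (1 - (P : ℝ) / DP) ((Q : ℝ) / DP) := by
  have hb : (0 : ℝ) < (DB : ℝ) := by exact_mod_cast DB_pos
  have h1 : 0 ≤ binEntropy (((xN R P Q : ℕ) : ℝ) / (DB : ℝ)) := by
    apply binEntropy_nonneg (by positivity)
    rw [div_le_one hb]
    exact_mod_cast xN_le hR hPQ
  have h2 : 0 ≤ binEntropy (((yN R P Q : ℕ) : ℝ) / (DB : ℝ)) := by
    apply binEntropy_nonneg (by positivity)
    rw [div_le_one hb]
    exact_mod_cast yN_le hR hPQ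
  rw [x_eq hPQ] at h1
  rw [y_eq hR hPQ] at h2
  unfold Psi
  show 0 ≤ (binEntropy ((1 - (P : ℝ) / DP + (Q : ℝ) / DP) / 2
            + (R : ℝ) / DR * (1 - (P : ℝ) / DP - (Q : ℝ) / DP) / 2)
          + binEntropy ((1 - (P : ℝ) / DP + (Q : ℝ) / DP) / 2
            - (R : ℝ) / DR * (1 - (P : ℝ) / DP - (Q : ℝ) / DP) / 2)) / 2
  linarith

lemma wwUp_ge {R Th : ℕ} (hR : R ≤ DR) (hPQ : P + Q ≤ DP)
    (hTh : Hi (ThN ((R : ℝ) / DR)) Th) (hTh0 : 0 ≤ ThN ((R : ℝ) / DR)) (hk0 : 0 ≤ kN ((R : ℝ) / DR)) :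
    Hi (WW ((R : ℝ) / DR) ((1 - (P : ℝ) / DP + (Q : ℝ) / DP) / 2)) (wwUp R Th P Q) := by
  have hP : P ≤ DP := by omega
  have hk : Hi (kN ((R : ℝ) / DR)) (kF R) := hi_exact (kF_exact hR)
  have hh := le_entUp (a := MM P Q) (b := DP2) (by unfold DP2; norm_num) (MM_le2 hPQ)
  rw [MM_eq_div hP] at hh
  have hw : Hi (wQ ((1 - (P : ℝ) / DP + (Q : ℝ) / DP) / 2)) (wM P Q) := hi_exact (wM_exact hPQ)
  exact Hi.add (Hi.mul1 hk hh hk0) (Hi.mul1 hTh hw hTh0)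

lemma WW_nonneg_v {R : ℕ} (hPQ : P + Q ≤ DP)
    (hTh0 : 0 ≤ ThN ((R : ℝ) / DR)) (hk0 : 0 ≤ kN ((R : ℝ) / DR)) :
    0 ≤ WW ((R : ℝ) / DR) ((1 - (P : ℝ) / DP + (Q : ℝ) / DP) / 2) := by
  have hP : P ≤ DP := by omega
  have hb : (0 : ℝ) < (DP2 : ℝ) := by rw [DP2_cast]; norm_num
  have hm0 : 0 ≤ (1 - (P : ℝ) / DP + (Q : ℝ) / DP) / 2 := by
    rw [← MM_eq_div hP]
    positivity
  have hm1 : (1 - (P : ℝ) / DP + (Q : ℝ) / DP) / 2 ≤ 1 := by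
    rw [← MM_eq_div hP, div_le_one hb]
    exact_mod_cast MM_le2 hPQ
  have hh := binEntropy_nonneg hm0 hm1
  unfold WW wQ
  have h1 : 0 ≤ 1 - (1 - (P : ℝ) / DP + (Q : ℝ) / DP) / 2 := by linarith
  have : 0 ≤ 4 * ((1 - (P : ℝ) / DP + (Q : ℝ) / DP) / 2) * (1 - (1 - (P : ℝ) / DP + (Q : ℝ) / DP) / 2) := by
    positivity
  positivity

/-- The bounds for the value of `A` at a vertex, `R > 0`. -/
lemma aPos1_le {R : ℕ} (hR0 : 0 < R) (hR : R ≤ DR) (hPQ : P + Q ≤ DP) :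
    Lo (Psi ((R : ℝ) / DR) (1 - (P : ℝ) / DP) ((Q : ℝ) / DP) / ((R : ℝ) / DR) ^ 2) (aPos1 R P Q) := by
  have hr : (0 : ℝ) < (R : ℝ) / DR := by
    have : (0 : ℝ) < R := by exact_mod_cast hR0
    rw [DR_cast]
    positivity
  exact Lo.div (psiDn_le hR hPQ) (hi_exact (tF_exact R)) (by positivity) (Psi_nonneg_v hR hPQ)

lemma aNeg1_ge {R Th : ℕ} (hR0 : 0 < R) (hR : R ≤ DR) (hPQ : P + Q ≤ DP)
    (hTh : Hi (ThN ((R : ℝ) / DR)) Th) (hTh0 : 0 ≤ ThN ((R : ℝ) / DR)) (hk0 : 0 ≤ kN ((R : ℝ) / DR)) :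
    Hi (WW ((R : ℝ) / DR) ((1 - (P : ℝ) / DP + (Q : ℝ) / DP) / 2) / ((R : ℝ) / DR) ^ 2)
      (aNeg1 R Th P Q) := by
  have ht : 0 < tF R := by
    unfold tF
    rw [shl32]
    show 0 < R * R * 4294967296
    positivity
  exact Hi.div (wwUp_ge hR hPQ hTh hTh0 hk0) (lo_exact (tF_exact R)) ht (WW_nonneg_v hPQ hTh0 hk0)

lemma wM_pos (hPQ : P + Q ≤ DP) (hP : P < DP) (hQ : Q < DP) : 0 < wM P Q := by
  have h := wM_exact hPQ
  have hP' : (P : ℝ) < 4294967296 := by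
    have : (P : ℝ) < (DP : ℝ) := by exact_mod_cast hP
    rwa [DP_cast] at this
  have hQ' : (Q : ℝ) < 4294967296 := by
    have : (Q : ℝ) < (DP : ℝ) := by exact_mod_cast hQ
    rwa [DP_cast] at this
  have hP0 : (0 : ℝ) ≤ P := Nat.cast_nonneg _
  have hQ0 : (0 : ℝ) ≤ Q := Nat.cast_nonneg _
  have e : wQ ((1 - (P : ℝ) / DP + (Q : ℝ) / DP) / 2)
      = (1 - (P : ℝ) / DP + (Q : ℝ) / DP) * (1 + (P : ℝ) / DP - (Q : ℝ) / DP) := by
    unfold wQ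
    ring
  rw [e, DP_cast] at h
  have h1 : 0 < 1 - (P : ℝ) / 4294967296 + (Q : ℝ) / 4294967296 := by
    have : (P : ℝ) / 4294967296 < 1 := by
      rw [div_lt_one (by norm_num)]
      exact hP'
    have : 0 ≤ (Q : ℝ) / 4294967296 := by positivity
    linarith
  have h2 : 0 < 1 + (P : ℝ) / 4294967296 - (Q : ℝ) / 4294967296 := by
    have : (Q : ℝ) / 4294967296 < 1 := by
      rw [div_lt_one (by norm_num)]
      exact hQ'
    have : 0 ≤ (P : ℝ) / 4294967296 := by positivity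
    linarith
  have h3 := mul_pos h1 h2
  rw [← h] at h3
  have hS := FS_pos
  have h4 : (0 : ℝ) < ((wM P Q : ℕ) : ℝ) := by
    by_contra hn
    have : ((wM P Q : ℕ) : ℝ) = 0 := le_antisymm (not_lt.mp hn) (Nat.cast_nonneg _)
    rw [this] at h3
    simp at h3
  exact_mod_cast h4

lemma AT0_split {p q : ℝ} (h1 : -1 < p - q) (h2 : p - q < 1) :
    AT0 p q = (binEntropy ((1 - p + q) / 2) + wQ ((1 - p + q) / 2) / 2)
      - ((1 - p - q) ^ 2 / 2 / wQ ((1 - p + q) / 2) + log 2 * wQ ((1 - p + q) / 2)) := by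
  have e := hc0_Xi_eq h1 h2
  have ew : wQ ((1 - p + q) / 2) = 1 - (p - q) ^ 2 := by
    unfold wQ
    ring
  unfold AT0
  have e2 : (1 / 2) * (1 - (1 - p - q) ^ 2 / (1 - (p - q) ^ 2)) - Xi (p - q)
      + (log 2 - 1 / 2) * (p - q) ^ 2
      = (1 / 2) * (1 - (1 - p - q) ^ 2 / (1 - (p - q) ^ 2))
        + (-Xi (p - q) + (log 2 - 1 / 2) * (p - q) ^ 2) := by ring
  rw [e2, e, ew]
  have e3 : (1 - p - q) ^ 2 / 2 / (1 - (p - q) ^ 2) = (1 / 2) * ((1 - p - q) ^ 2 / (1 - (p - q) ^ 2)) := by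
    ring
  rw [e3]
  have e4 : 4 * (log 2 - 1 / 2) * ((1 - p + q) / 2 * (1 - (1 - p + q) / 2))
      = (log 2 - 1 / 2) * (1 - (p - q) ^ 2) := by ring
  rw [e4]
  ring

/-- The bounds for the value of `AT0` at a vertex. -/
lemma aPos0_le (hPQ : P + Q ≤ DP) :
    Lo (binEntropy ((1 - (P : ℝ) / DP + (Q : ℝ) / DP) / 2)
      + wQ ((1 - (P : ℝ) / DP + (Q : ℝ) / DP) / 2) / 2) (aPos0 P Q) := by
  have hP : P ≤ DP := by omega
  have hh := entDn_le (a := MM P Q) (b := DP2) (by unfold DP2; norm_num) (MM_le2 hPQ)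
  rw [MM_eq_div hP] at hh
  have hw : Lo (wQ ((1 - (P : ℝ) / DP + (Q : ℝ) / DP) / 2)) (wM P Q) := lo_exact (wM_exact hPQ)
  exact Lo.add hh hw.half

lemma delta_sq_exact (hPQ : P + Q ≤ DP) :
    ((Nat.mul (DL P Q) (DL P Q) : ℕ) : ℝ) / FS = (1 - (P : ℝ) / DP - (Q : ℝ) / DP) ^ 2 := by
  show ((DL P Q * DL P Q : ℕ) : ℝ) / _ = _
  rw [Nat.cast_mul, DL_cast hPQ, FS_cast, DP_cast]
  ring

lemma aNeg0_ge (hPQ : P + Q ≤ DP) (hP : P < DP) (hQ : Q < DP) :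
    Hi ((1 - (P : ℝ) / DP - (Q : ℝ) / DP) ^ 2 / 2 / wQ ((1 - (P : ℝ) / DP + (Q : ℝ) / DP) / 2)
      + log 2 * wQ ((1 - (P : ℝ) / DP + (Q : ℝ) / DP) / 2)) (aNeg0 P Q) := by
  have hd : Hi ((1 - (P : ℝ) / DP - (Q : ℝ) / DP) ^ 2) (Nat.mul (DL P Q) (DL P Q)) :=
    hi_exact (delta_sq_exact hPQ)
  have hw : Hi (wQ ((1 - (P : ℝ) / DP + (Q : ℝ) / DP) / 2)) (wM P Q) := hi_exact (wM_exact hPQ)
  have hw' : Lo (wQ ((1 - (P : ℝ) / DP + (Q : ℝ) / DP) / 2)) (wM P Q) := lo_exact (wM_exact hPQ)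
  have h1 := Hi.div hd.half hw' (wM_pos hPQ hP hQ) (by positivity)
  have hl : 0 ≤ log 2 := (log_pos (by norm_num)).le
  exact Hi.add h1 (Hi.mul1 le_L2U hw hl)

end vertex

/-! ### The noise constants -/

lemma rho_pos {R : ℕ} (hR0 : 0 < R) : (0 : ℝ) < (R : ℝ) / DR := by
  have : (0 : ℝ) < R := by exact_mod_cast hR0
  rw [DR_cast]
  positivity

lemma rho_lt {R : ℕ} (hR : R < DR) : (R : ℝ) / DR < 1 := by
  have h : (R : ℝ) < (DR : ℝ) := by exact_mod_cast hR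
  have h0 : (0 : ℝ) < (DR : ℝ) := by rw [DR_cast]; norm_num
  rwa [div_lt_one h0]

lemma eps_eq {R : ℕ} (hR : R ≤ DR) : ((DR - R : ℕ) : ℝ) / ((131072 : ℕ) : ℝ) = (1 - (R : ℝ) / DR) / 2 := by
  rw [Nat.cast_sub hR, DR_cast]
  push_cast
  ring

lemma kN_nonneg_of {R : ℕ} (hR : R ≤ DR) : 0 ≤ kN ((R : ℝ) / DR) := by
  unfold kN
  have h := kF_exact hR
  rw [← h]
  exact div_nonneg (Nat.cast_nonneg _) FS_pos.le

lemma ThN_nonneg_of {R : ℕ} (hR0 : 0 < R) (hR : R < DR) : 0 ≤ ThN ((R : ℝ) / DR) := by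
  rw [hc_ThN_eq (rho_pos hR0) (rho_lt hR)]
  have := hc_thT_nonneg (rho_pos hR0) (rho_lt hR)
  positivity

lemma ThUp_ge {R : ℕ} (hR : R ≤ DR) : Hi (ThN ((R : ℝ) / DR)) (ThUp R) := by
  have h1 := le_entUp (a := DR - R) (b := 131072) (by norm_num) (by unfold DR at *; omega)
  rw [eps_eq hR] at h1
  have hk : Lo (kN ((R : ℝ) / DR)) (kF R) := lo_exact (kF_exact hR)
  exact Hi.sub h1 (Lo.mul hk L2D_le)

lemma ThDn_le {R : ℕ} (hR0 : 0 < R) (hR : R < DR) : Lo (ThN ((R : ℝ) / DR)) (ThDn R) := by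
  have h1 := entDn_le (a := DR - R) (b := 131072) (by norm_num) (by unfold DR at *; omega)
  rw [eps_eq hR.le] at h1
  have hk : Hi (kN ((R : ℝ) / DR)) (kF R) := hi_exact (kF_exact hR.le)
  exact Lo.sub h1 (Hi.mul hk le_L2U (kN_nonneg_of hR.le) (log_pos (by norm_num)).le)
    (ThN_nonneg_of hR0 hR)

/-- The bound `θ̃` at the lower end of a range of `ρ`. -/
noncomputable def thb (R : ℕ) : ℝ := if R = 0 then log 2 - 1 / 2 else thT ((R : ℝ) / DR)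

/-- The function `A` at the lower end of a range of `ρ`. -/
noncomputable def ATb (R : ℕ) (p q : ℝ) : ℝ := if R = 0 then AT0 p q else AT ((R : ℝ) / DR) p q

lemma thUp_ge {R : ℕ} (hR : R < DR) : Hi (thb R) (thUp R) := by
  unfold thUp thb
  by_cases h : R = 0
  · subst h
    rw [if_pos rfl, show Nat.beq 0 0 = true from rfl, cond_true]
    refine Hi.sub le_L2U (lo_exact ?_)
    rw [FS_cast]
    norm_num
  · rw [if_neg h]
    have hR0 : 0 < R := Nat.pos_of_ne_zero h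
    have hb : Nat.beq R 0 = false := by
      cases R with
      | zero => exact absurd rfl h
      | succ n => rfl
    rw [hb, cond_false]
    have ht : 0 < tF R := by
      unfold tF
      rw [shl32]
      show 0 < R * R * 4294967296
      positivity
    have e : thT ((R : ℝ) / DR) = ThN ((R : ℝ) / DR) / ((R : ℝ) / DR) ^ 2 := by
      rw [hc_ThN_eq (rho_pos hR0) (rho_lt hR), mul_comm, mul_div_assoc,
        div_self (pow_ne_zero 2 (rho_pos hR0).ne'), mul_one]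
    rw [e]
    exact Hi.div (ThUp_ge hR.le) (lo_exact (tF_exact R)) ht (ThN_nonneg_of hR0 hR)

lemma thDn_le {R : ℕ} (hR0 : 0 < R) (hR : R < DR) : Lo (thT ((R : ℝ) / DR)) (thDn R) := by
  have e : thT ((R : ℝ) / DR) = ThN ((R : ℝ) / DR) / ((R : ℝ) / DR) ^ 2 := by
    rw [hc_ThN_eq (rho_pos hR0) (rho_lt hR), mul_comm, mul_div_assoc,
      div_self (pow_ne_zero 2 (rho_pos hR0).ne'), mul_one]
  rw [e]
  have h := rho_pos hR0
  exact Lo.div (ThDn_le hR0 hR) (hi_exact (tF_exact R)) (by positivity) (ThN_nonneg_of hR0 hR)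

lemma thb_ge_of {R : ℕ} {ρ : ℝ} (hρ : (R : ℝ) / DR ≤ ρ) (h0 : 0 < ρ) (h1 : ρ < 1) : thT ρ ≤ thb R := by
  unfold thb
  by_cases h : R = 0
  · rw [if_pos h]
    exact hc_thT_le h0 h1
  · rw [if_neg h]
    have hR0 : 0 < R := Nat.pos_of_ne_zero h
    exact hc_thT_antitone (rho_pos hR0) hρ h1

lemma ATb_mono {R₁ : ℕ} {ρ ρ₂ p q : ℝ} (h1 : (R₁ : ℝ) / DR ≤ ρ) (h0 : 0 < ρ) (h2 : ρ ≤ ρ₂) (h3 : ρ₂ < 1)
    (hp : 0 ≤ p) (hq : 0 ≤ q) (hs : p + q ≤ 1) (hp1 : p < 1) (hq1 : q < 1) :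
    ATb R₁ p q + (thT ρ₂ - thb R₁) * (p - q) ^ 2 ≤ AT ρ p q := by
  unfold ATb thb
  by_cases h : R₁ = 0
  · rw [if_pos h, if_pos h]
    exact AT_mono0 h0 h2 h3 hp hq hs hp1 hq1
  · rw [if_neg h, if_neg h]
    have hR0 : 0 < R₁ := Nat.pos_of_ne_zero h
    exact AT_mono (rho_pos hR0) h1 h2 h3 hp hq hs

/-- The triangle of the concavity. -/
def TriC : Set (ℝ × ℝ) := {x | 0 ≤ x.1 ∧ 0 ≤ x.2 ∧ x.1 + x.2 ≤ 1 ∧ x.1 < 1 ∧ x.2 < 1}

lemma ATb_concave {R : ℕ} (hR : R < DR) : ConcaveOn ℝ TriC (fun x => ATb R x.1 x.2) := by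
  unfold ATb
  by_cases h : R = 0
  · simp only [if_pos h]
    exact AT0_concave
  · simp only [if_neg h]
    have hR0 : 0 < R := Nat.pos_of_ne_zero h
    exact (AT_concave (rho_pos hR0) (rho_lt hR)).subset (fun x hx => ⟨hx.1, hx.2.1, hx.2.2.1⟩)
      AT0_concave.1

lemma ATb_split {R P Q : ℕ} (hR : R < DR) (hPQ : P + Q ≤ DP) (hP : P < DP) (hQ : Q < DP) :
    ∃ Ap An : ℝ, ATb R ((P : ℝ) / DP) ((Q : ℝ) / DP) = Ap - An ∧ Lo Ap (aPos R P Q) ∧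
      Hi An (aNeg R (ThUp R) P Q) := by
  unfold ATb aPos aNeg
  by_cases h : R = 0
  · subst h
    rw [if_pos rfl, show Nat.beq 0 0 = true from rfl, cond_true, cond_true]
    have hP' : (P : ℝ) < 4294967296 := by
      have : (P : ℝ) < (DP : ℝ) := by exact_mod_cast hP
      rwa [DP_cast] at this
    have hQ' : (Q : ℝ) < 4294967296 := by
      have : (Q : ℝ) < (DP : ℝ) := by exact_mod_cast hQ
      rwa [DP_cast] at this
    have h1 : (P : ℝ) / DP < 1 := by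
      rw [DP_cast, div_lt_one (by norm_num)]
      exact hP'
    have h2 : (Q : ℝ) / DP < 1 := by
      rw [DP_cast, div_lt_one (by norm_num)]
      exact hQ'
    have h3 : 0 ≤ (P : ℝ) / DP := by rw [DP_cast]; positivity
    have h4 : 0 ≤ (Q : ℝ) / DP := by rw [DP_cast]; positivity
    refine ⟨_, _, AT0_split (by linarith) (by linarith), aPos0_le hPQ, aNeg0_ge hPQ hP hQ⟩
  · rw [if_neg h]
    have hR0 : 0 < R := Nat.pos_of_ne_zero h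
    have hb : Nat.beq R 0 = false := by
      cases R with
      | zero => exact absurd rfl h
      | succ n => rfl
    rw [hb, cond_false, cond_false]
    refine ⟨Psi ((R : ℝ) / DR) (1 - (P : ℝ) / DP) ((Q : ℝ) / DP) / ((R : ℝ) / DR) ^ 2,
      WW ((R : ℝ) / DR) ((1 - (P : ℝ) / DP + (Q : ℝ) / DP) / 2) / ((R : ℝ) / DR) ^ 2, ?_,
      aPos1_le hR0 hR.le hPQ, aNeg1_ge hR0 hR.le hPQ (ThUp_ge hR.le) (ThN_nonneg_of hR0 hR)
        (kN_nonneg_of hR.le)⟩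
    unfold AT
    rw [sub_div]

/-! ### The vertices -/

lemma vUp_ge {P Lc Lm th : ℕ} (hP : P ≤ DP) :
    Hi ((P : ℝ) / DP * ((Lc : ℝ) / FS) + (1 - (P : ℝ) / DP) * ((Lm : ℝ) / FS)
      - (th : ℝ) / FS * wQ ((P : ℝ) / DP)) (vUp P Lc Lm th) := by
  have hx : Hi ((P : ℝ) / DP) (xF P) := hi_exact (xF_exact P)
  have hc : Hi (1 - (P : ℝ) / DP) (cF P) := hi_exact (cF_exact hP)
  have hx0 : 0 ≤ (P : ℝ) / DP := by rw [DP_cast]; positivity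
  have hc0 : 0 ≤ 1 - (P : ℝ) / DP := by
    have h := cF_exact hP
    rw [← h]
    exact div_nonneg (Nat.cast_nonneg _) FS_pos.le
  have hw : Lo (wQ ((P : ℝ) / DP)) (wF P) := lo_exact (wF_exact hP)
  exact Hi.sub (Hi.add (Hi.mul1 hx (hi_self Lc) hx0) (Hi.mul1 hc (hi_self Lm) hc0))
    (Lo.mul (lo_self th) hw)

lemma ble_true_cast {a b : ℕ} (h : Nat.ble a b = true) : (a : ℝ) / FS ≤ (b : ℝ) / FS := by
  have h1 : a ≤ b := Nat.le_of_ble_eq_true h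
  have h2 : (a : ℝ) ≤ b := by exact_mod_cast h1
  exact div_le_div_of_nonneg_right h2 FS_pos.le

/-- The concave function of a C-cell. -/
noncomputable def Gc (R₁ : ℕ) (gap μ θ lcp lmp lcq lmq : ℝ) (x : ℝ × ℝ) : ℝ :=
  ATb R₁ x.1 x.2 - gap * (x.1 - x.2) ^ 2
    - μ * (((x.1 * lcp + (1 - x.1) * lmp - θ * wQ x.1)
        + (x.2 * lcq + (1 - x.2) * lmq - θ * wQ x.2)) / 2)

lemma cvert_sound {R Th G M th LcP LmP LcQ LmQ P Q : ℕ} (hR : R < DR) (hPQ : P + Q ≤ DP) (hP : P < DP)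
    (hQ : Q < DP) (hTh : Th = ThUp R)
    (hc : cvert R Th G M th LcP LmP LcQ LmQ P Q = true) :
    0 ≤ Gc R ((G : ℝ) / FS) ((M : ℝ) / FS) ((th : ℝ) / FS) ((LcP : ℝ) / FS) ((LmP : ℝ) / FS)
      ((LcQ : ℝ) / FS) ((LmQ : ℝ) / FS) ((P : ℝ) / DP, (Q : ℝ) / DP) := by
  subst hTh
  obtain ⟨Ap, An, e, hAp, hAn⟩ := ATb_split hR hPQ hP hQ
  unfold cvert at hc
  have h1 := ble_true_cast hc
  have hu : Hi (((P : ℝ) / DP - (Q : ℝ) / DP) ^ 2) (uSq P Q) := hi_exact uSq_exact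
  have hS := FS_pos
  have hG0 : 0 ≤ (G : ℝ) / FS := by positivity
  have hM0 : 0 ≤ (M : ℝ) / FS := by positivity
  have hg := Hi.mul1 (hi_self G) hu hG0
  have hvp := vUp_ge (P := P) (Lc := LcP) (Lm := LmP) (th := th) (by omega)
  have hvq := vUp_ge (P := Q) (Lc := LcQ) (Lm := LmQ) (th := th) (by omega)
  have hv := Hi.mul1 (hi_self M) (Hi.add hvp hvq).half hM0
  have hall := Hi.add hAn (Hi.add hg hv)
  unfold Hi at hall
  unfold Lo at hAp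
  unfold Gc
  simp only
  rw [e]
  linarith

/-- Four vertices of a rectangle in the triangle. -/
lemma vertices_nonneg {G : ℝ × ℝ → ℝ} (hG : ConcaveOn ℝ TriC G) {p₁ p₂ q₁ q₂ p q : ℝ}
    (hp1 : p₁ ≤ p) (hp2 : p ≤ p₂) (hq1 : q₁ ≤ q) (hq2 : q ≤ q₂) (hp₁0 : 0 ≤ p₁) (hq₁0 : 0 ≤ q₁)
    (hs : p₂ + q₂ ≤ 1) (hp₂1 : p₂ < 1) (hq₂1 : q₂ < 1)
    (h11 : 0 ≤ G (p₁, q₁)) (h12 : 0 ≤ G (p₁, q₂)) (h21 : 0 ≤ G (p₂, q₁)) (h22 : 0 ≤ G (p₂, q₂)) :
    0 ≤ G (p, q) := by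
  have hmem : ∀ x y : ℝ, p₁ ≤ x → x ≤ p₂ → q₁ ≤ y → y ≤ q₂ → (x, y) ∈ TriC := by
    intro x y h1 h2 h3 h4
    refine ⟨by show 0 ≤ x; linarith, by show 0 ≤ y; linarith, by show x + y ≤ 1; linarith,
      by show x < 1; linarith, by show y < 1; linarith⟩
  have line : ∀ (A B X : ℝ × ℝ) (a b : ℝ), A ∈ TriC → B ∈ TriC → 0 ≤ a → 0 ≤ b → a + b = 1 →
      X = a • A + b • B → 0 ≤ G A → 0 ≤ G B → 0 ≤ G X := by
    intro A B X a b hA hB ha hb hab hX h1 h2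
    have := hG.2 hA hB ha hb hab
    rw [← hX] at this
    simp only [smul_eq_mul] at this
    have h3 := mul_nonneg ha h1
    have h4 := mul_nonneg hb h2
    linarith
  have seg : ∀ (u v x : ℝ) (F : ℝ → ℝ × ℝ), u ≤ x → x ≤ v → (∀ t, u ≤ t → t ≤ v → F t ∈ TriC) →
      (∀ a b t s : ℝ, a + b = 1 → F (a * t + b * s) = a • F t + b • F s) → 0 ≤ G (F u) → 0 ≤ G (F v) →
      0 ≤ G (F x) := by
    intro u v x F h1 h2 hF hL hu hv
    rcases eq_or_lt_of_le (le_trans h1 h2) with huv | huv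
    · have : x = u := by linarith
      rw [this]
      exact hu
    have hd : 0 < v - u := by linarith
    have ha : 0 ≤ (v - x) / (v - u) := div_nonneg (by linarith) hd.le
    have hb : 0 ≤ (x - u) / (v - u) := div_nonneg (by linarith) hd.le
    have hab : (v - x) / (v - u) + (x - u) / (v - u) = 1 := by
      field_simp
      ring
    have hx : x = (v - x) / (v - u) * u + (x - u) / (v - u) * v := by
      field_simp
      ring
    refine line (F u) (F v) (F x) _ _ (hF u le_rfl (le_trans h1 h2)) (hF v (le_trans h1 h2) le_rfl)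
      ha hb hab ?_ hu hv
    rw [← hL _ _ u v hab, ← hx]
  have row : ∀ y : ℝ, q₁ ≤ y → y ≤ q₂ → 0 ≤ G (p₁, y) ∧ 0 ≤ G (p₂, y) := by
    intro y h1 h2
    constructor
    · refine seg q₁ q₂ y (fun t => (p₁, t)) h1 h2
        (fun t h3 h4 => hmem _ _ le_rfl (le_trans hp1 hp2) h3 h4) ?_ h11 h12
      intro a b t s hab
      ext
      · show p₁ = a * p₁ + b * p₁
        rw [← add_mul, hab, one_mul]
      · rfl
    · refine seg q₁ q₂ y (fun t => (p₂, t)) h1 h2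
        (fun t h3 h4 => hmem _ _ (le_trans hp1 hp2) le_rfl h3 h4) ?_ h21 h22
      intro a b t s hab
      ext
      · show p₂ = a * p₂ + b * p₂
        rw [← add_mul, hab, one_mul]
      · rfl
  have hr := row q hq1 hq2
  refine seg p₁ p₂ p (fun t => (t, q)) hp1 hp2 (fun t h3 h4 => hmem _ _ h3 h4 hq1 hq2) ?_ hr.1 hr.2
  intro a b t s hab
  ext
  · rfl
  · show q = a * q + b * q
    rw [← add_mul, hab, one_mul]

lemma Gc_concave {R : ℕ} (hR : R < DR) {gap μ θ lcp lmp lcq lmq : ℝ} (hgap : 0 ≤ gap) (hμ : 0 ≤ μ)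
    (hθ : 0 ≤ θ) : ConcaveOn ℝ TriC (Gc R gap μ θ lcp lmp lcq lmq) := by
  have h1 := ATb_concave hR
  have h2 : ConcaveOn ℝ TriC (fun x : ℝ × ℝ => - gap * (x.1 - x.2) ^ 2
      - μ * (((x.1 * lcp + (1 - x.1) * lmp - θ * wQ x.1)
        + (x.2 * lcq + (1 - x.2) * lmq - θ * wQ x.2)) / 2)) := by
    refine ⟨h1.1, ?_⟩
    intro X _ Y _ a b ha hb hab
    simp only [smul_eq_mul, Prod.fst_add, Prod.snd_add, Prod.smul_fst, Prod.smul_snd]
    have hb' : b = 1 - a := by linarith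
    subst hb'
    have key : (- gap * ((a * X.1 + (1 - a) * Y.1) - (a * X.2 + (1 - a) * Y.2)) ^ 2
          - μ * (((((a * X.1 + (1 - a) * Y.1)) * lcp + (1 - (a * X.1 + (1 - a) * Y.1)) * lmp
              - θ * wQ (a * X.1 + (1 - a) * Y.1))
            + ((a * X.2 + (1 - a) * Y.2) * lcq + (1 - (a * X.2 + (1 - a) * Y.2)) * lmq
              - θ * wQ (a * X.2 + (1 - a) * Y.2))) / 2))
        - (a * (- gap * (X.1 - X.2) ^ 2 - μ * (((X.1 * lcp + (1 - X.1) * lmp - θ * wQ X.1)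
            + (X.2 * lcq + (1 - X.2) * lmq - θ * wQ X.2)) / 2))
          + (1 - a) * (- gap * (Y.1 - Y.2) ^ 2 - μ * (((Y.1 * lcp + (1 - Y.1) * lmp - θ * wQ Y.1)
            + (Y.2 * lcq + (1 - Y.2) * lmq - θ * wQ Y.2)) / 2)))
        = a * (1 - a) * (gap * ((X.1 - X.2) - (Y.1 - Y.2)) ^ 2
            + 2 * (μ * θ) * ((X.1 - Y.1) ^ 2 + (X.2 - Y.2) ^ 2)) := by
      unfold wQ
      ring
    have hp : 0 ≤ a * (1 - a) * (gap * ((X.1 - X.2) - (Y.1 - Y.2)) ^ 2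
            + 2 * (μ * θ) * ((X.1 - Y.1) ^ 2 + (X.2 - Y.2) ^ 2)) := by positivity
    linarith
  have h3 := h1.add h2
  have e : Gc R gap μ θ lcp lmp lcq lmq = (fun x : ℝ × ℝ => ATb R x.1 x.2) + (fun x : ℝ × ℝ =>
      - gap * (x.1 - x.2) ^ 2 - μ * (((x.1 * lcp + (1 - x.1) * lmp - θ * wQ x.1)
        + (x.2 * lcq + (1 - x.2) * lmq - θ * wQ x.2)) / 2)) := by
    funext x
    simp only [Gc, Pi.add_apply]
    ring
  rw [e]
  exact h3

lemma and_split {a b : Bool} (h : and a b = true) : a = true ∧ b = true := by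
  cases a <;> cases b <;> simp_all

lemma ble_le {a b : ℕ} (h : Nat.ble a b = true) : a ≤ b := Nat.le_of_ble_eq_true h
lemma blt_lt {a b : ℕ} (h : Nat.blt a b = true) : a < b := Nat.le_of_ble_eq_true h

lemma entropy_gibbs {x c l₁ l₂ : ℝ} (h0 : 0 ≤ x) (h1 : x ≤ 1) (hc0 : 0 < c) (hc1 : c < 1)
    (hl₁ : log (1 / c) ≤ l₁) (hl₂ : log (1 / (1 - c)) ≤ l₂) :
    binEntropy x ≤ x * l₁ + (1 - x) * l₂ := by
  have h := entropy_tangent h0 h1 hc0 hc1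
  have e : binEntropy c + (log (1 - c) - log c) * (x - c)
      = x * (-log c) + (1 - x) * (-log (1 - c)) := by
    rw [binEntropy_eq]
    ring
  rw [e] at h
  have e1 : log (1 / c) = -log c := by
    rw [one_div, log_inv]
  have e2 : log (1 / (1 - c)) = -log (1 - c) := by
    rw [one_div, log_inv]
  rw [e1] at hl₁
  rw [e2] at hl₂
  have := mul_le_mul_of_nonneg_left hl₁ h0
  have := mul_le_mul_of_nonneg_left hl₂ (by linarith : 0 ≤ 1 - x)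
  linarith

lemma log_one_div_frac {a b : ℕ} : log (1 / ((a : ℝ) / b)) = log ((b : ℝ) / a) := by
  rw [one_div_div]

/-- The upper bound of the two logarithms for a center `(P1+P2)/2^33`. -/
lemma center_bounds {A : ℕ} (h0 : 0 < A) (h1 : A < DP2) :
    (0 : ℝ) < (A : ℝ) / DP2 ∧ (A : ℝ) / DP2 < 1 ∧
    log (1 / ((A : ℝ) / DP2)) ≤ ((logUp DP2 A : ℕ) : ℝ) / FS ∧
    log (1 / (1 - (A : ℝ) / DP2)) ≤ ((logUp DP2 (Nat.sub DP2 A) : ℕ) : ℝ) / FS := by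
  have hD : (0 : ℝ) < (DP2 : ℝ) := by rw [DP2_cast]; norm_num
  have hA : (0 : ℝ) < (A : ℝ) := by exact_mod_cast h0
  have hA1 : (A : ℝ) < (DP2 : ℝ) := by exact_mod_cast h1
  refine ⟨by positivity, by rwa [div_lt_one hD], ?_, ?_⟩
  · rw [log_one_div_frac]
    exact le_logUp h0 h1.le
  · have e : 1 - (A : ℝ) / DP2 = ((Nat.sub DP2 A : ℕ) : ℝ) / DP2 := by
      show _ = ((DP2 - A : ℕ) : ℝ) / _
      rw [Nat.cast_sub h1.le]
      field_simp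
    rw [e, log_one_div_frac]
    exact le_logUp (by show 0 < DP2 - A; omega) (Nat.sub_le _ _)

/-- The bound for the multiplier on a C-cell. -/
lemma muT_bound {R2 P1 P2 Q1 Q2 : ℕ} {ρ p q : ℝ} (hR2D : R2 < DR) (hR20 : 0 < R2) (hP10 : 0 < P1)
    (hP2D : P2 < DP) (hQ2D : Q2 < DP) (hPQ : P2 + Q2 ≤ DP) (hP12 : P1 < P2)
    (hnum0 : 0 < qnNum R2 P1 Q2) (hnum1 : qnNum R2 P1 Q2 ≤ qnDen)
    (hlog0 : 0 < logDn DPP (qxNum P2 Q1)) (hQ12 : Q1 < Q2)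
    (hρ0 : 0 < ρ) (hρ2 : ρ ≤ (R2 : ℝ) / DR) (hp1 : (P1 : ℝ) / DP ≤ p) (hp2 : p ≤ (P2 : ℝ) / DP)
    (hq1 : (Q1 : ℝ) / DP ≤ q) (hq2 : q ≤ (Q2 : ℝ) / DP) (hq0 : 0 < q) (hδ : p + q < 1) :
    muT ρ (1 - p) q ≤ ((divUp (logUp qnDen (qnNum R2 P1 Q2)) (logDn DPP (qxNum P2 Q1)) : ℕ) : ℝ) / FS := by
  have hDP : (0 : ℝ) < (DP : ℝ) := by rw [DP_cast]; norm_num
  have hr₂1 : (R2 : ℝ) / DR < 1 := rho_lt hR2D
  have hp₁0 : 0 < (P1 : ℝ) / DP := by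
    have : (0 : ℝ) < P1 := by exact_mod_cast hP10
    positivity
  have hq₁0 : 0 ≤ (Q1 : ℝ) / DP := by positivity
  have hs : (P2 : ℝ) / DP + (Q2 : ℝ) / DP ≤ 1 := by
    rw [← add_div, div_le_one hDP]
    exact_mod_cast hPQ
  have e2' : (P2 : ℝ) / DP * (1 - (Q1 : ℝ) / DP) = ((qxNum P2 Q1 : ℕ) : ℝ) / DPP := by
    have hqx : ((qxNum P2 Q1 : ℕ) : ℝ) = (P2 : ℝ) * ((DP : ℝ) - Q1) := by
      show ((P2 * (DP - Q1) : ℕ) : ℝ) = _
      rw [Nat.cast_mul, Nat.cast_sub (by omega)]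
    rw [hqx, DPP_cast, DP_cast]
    field_simp
    ring
  have hx0' : 0 < qxNum P2 Q1 := by
    show 0 < P2 * (DP - Q1)
    have : 0 < DP - Q1 := by omega
    have : 0 < P2 := by omega
    positivity
  have hx1' : qxNum P2 Q1 ≤ DPP := by
    show P2 * (DP - Q1) ≤ DPP
    have h3 : P2 * (DP - Q1) ≤ DP * DP := Nat.mul_le_mul hP2D.le (Nat.sub_le _ _)
    exact h3
  have hX : (P2 : ℝ) / DP * (1 - (Q1 : ℝ) / DP) < 1 := by
    have hL := logDn_le (a := DPP) (b := qxNum P2 Q1) hx0' hx1'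
    have hLp : 0 < log (((DPP : ℕ) : ℝ) / ((qxNum P2 Q1 : ℕ) : ℝ)) := by
      have h6 : 0 < ((logDn DPP (qxNum P2 Q1) : ℕ) : ℝ) / FS := by
        have : (0 : ℝ) < ((logDn DPP (qxNum P2 Q1) : ℕ) : ℝ) := by exact_mod_cast hlog0
        exact div_pos this FS_pos
      exact lt_of_lt_of_le h6 hL
    rw [e2'] 
    have hq0' : (0 : ℝ) < ((qxNum P2 Q1 : ℕ) : ℝ) := by exact_mod_cast hx0'
    have hD0 : (0 : ℝ) < ((DPP : ℕ) : ℝ) := by rw [DPP_cast]; norm_num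
    by_contra hcon
    push Not at hcon
    have h9 : ((DPP : ℕ) : ℝ) ≤ ((qxNum P2 Q1 : ℕ) : ℝ) := by
      rwa [one_le_div hD0] at hcon
    have h10 : ((DPP : ℕ) : ℝ) / ((qxNum P2 Q1 : ℕ) : ℝ) ≤ 1 := by
      rwa [div_le_one hq0']
    have h11 := log_nonpos (div_pos hD0 hq0').le h10
    linarith
  have h1 := muT_cell hρ0 hρ2 hr₂1 hp₁0 hp1 hp2 hq₁0 hq1 hq2 hq0 hs hδ hX
  refine le_trans h1 ?_
  have e1 : (P1 : ℝ) / DP * (1 - (Q2 : ℝ) / DP)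
      + (1 - ((R2 : ℝ) / DR) ^ 2) * (1 - (P1 : ℝ) / DP - (Q2 : ℝ) / DP) ^ 2 / 4
      = ((qnNum R2 P1 Q2 : ℕ) : ℝ) / qnDen := by
    have hR2s : R2 * R2 ≤ 4294967296 := by
      have : R2 ≤ 65536 := hR2D.le
      nlinarith
    have hDLc := DL_cast (P := P1) (Q := Q2) (by omega)
    have hqn : ((qnNum R2 P1 Q2 : ℕ) : ℝ) = 4 * (P1 : ℝ) * ((DP : ℝ) - Q2) * 4294967296
        + (4294967296 - (R2 : ℝ) * R2) * (((DP : ℝ) - P1 - Q2) * ((DP : ℝ) - P1 - Q2)) := by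
      show (((4 * P1 * (DP - Q2)) * 4294967296 + (4294967296 - R2 * R2) * (DL P1 Q2 * DL P1 Q2) : ℕ) : ℝ) = _
      rw [Nat.cast_add, Nat.cast_mul, Nat.cast_mul, Nat.cast_mul, Nat.cast_mul, Nat.cast_sub hQ2D.le,
        Nat.cast_sub hR2s, Nat.cast_mul, Nat.cast_mul, hDLc]
      push_cast
      ring
    have hqd : (qnDen : ℝ) = 316912650057057350374175801344 := by
      unfold qnDen
      norm_num
    rw [hqn, hqd, DR_cast, DP_cast]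
    field_simp
    ring
  rw [e1, e2', log_one_div_frac, log_one_div_frac]
  exact Hi.div (le_logUp hnum0 hnum1) (logDn_le hx0' hx1') hlog0 (log_nonneg_frac hnum0 hnum1)

/-- The bound for `U` on a C-cell. -/
lemma UT_bound {ρ p q θ lcp lmp lcq lmq : ℝ} (hp0 : 0 ≤ p) (hp1 : p ≤ 1) (hq0 : 0 ≤ q) (hq1 : q ≤ 1)
    (hth : θ ≤ thT ρ)
    (hGp : binEntropy p ≤ p * lcp + (1 - p) * lmp) (hGq : binEntropy q ≤ q * lcq + (1 - q) * lmq) :
    UT ρ (1 - p) q ≤ ((p * lcp + (1 - p) * lmp - θ * wQ p) + (q * lcq + (1 - q) * lmq - θ * wQ q)) / 2 := by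
  have hwp : 0 ≤ wQ p := by
    unfold wQ
    have : 0 ≤ 1 - p := by linarith
    positivity
  have hwq : 0 ≤ wQ q := by
    unfold wQ
    have : 0 ≤ 1 - q := by linarith
    positivity
  unfold UT
  rw [binEntropy_one_sub]
  have ew : wQ (1 - p) = wQ p := by
    unfold wQ
    ring
  rw [ew]
  have h1 := mul_le_mul_of_nonneg_right hth hwp
  have h2 := mul_le_mul_of_nonneg_right hth hwq
  nlinarith

/-- The final arithmetic of a C-cell. -/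
lemma cleaf_final {R₁ : ℕ} {ρ r₂ p q gap μ θ lcp lmp lcq lmq : ℝ} (hρ0 : 0 < ρ) (hρ1 : ρ < 1)
    (hq0 : 0 < q) (hδ : p + q < 1) (hq : q ≤ p) (hp1 : p ≤ 1)
    (hAT : ATb R₁ p q + (thT r₂ - thb R₁) * (p - q) ^ 2 ≤ AT ρ p q)
    (hgap : thb R₁ - thT r₂ ≤ gap)
    (hvert : 0 ≤ Gc R₁ gap μ θ lcp lmp lcq lmq (p, q))
    (hmu : muT ρ (1 - p) q ≤ μ) (hU0 : 0 ≤ UT ρ (1 - p) q) (hμ0 : 0 ≤ μ)
    (hUle : UT ρ (1 - p) q
      ≤ ((p * lcp + (1 - p) * lmp - θ * wQ p) + (q * lcq + (1 - q) * lmq - θ * wQ q)) / 2) :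
    0 ≤ TT ρ (1 - p) q := by
  rw [TT_eq_AT hρ0 hρ1]
  apply mul_nonneg (sq_nonneg ρ)
  have hgap' := mul_le_mul_of_nonneg_right hgap (sq_nonneg (p - q))
  have h5 : muT ρ (1 - p) q * UT ρ (1 - p) q ≤ μ * UT ρ (1 - p) q :=
    mul_le_mul_of_nonneg_right hmu hU0
  have h6 := mul_le_mul_of_nonneg_left hUle hμ0
  unfold Gc at hvert
  simp only at hvert
  linarith

/-- Soundness of the test for a C-cell. -/
theorem cleaf_sound {S0 M1 R1 R2 P1 P2 Q1 Q2 : ℕ} (h : cleaf R1 R2 P1 P2 Q1 Q2 = true) :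
    CovH S0 M1 R1 R2 P1 P2 Q1 Q2 := by
  intro ρ p q hρ1 hρ2 hρ0 hp1 hp2 hq1 hq2 hq0 hqp hδ _ _
  obtain ⟨hside, hcheck⟩ := and_split h
  obtain ⟨c1, hside⟩ := and_split hside
  obtain ⟨c2, hside⟩ := and_split hside
  obtain ⟨c3, hside⟩ := and_split hside
  obtain ⟨c4, hside⟩ := and_split hside
  obtain ⟨c5, hside⟩ := and_split hside
  obtain ⟨c6, hside⟩ := and_split hside
  obtain ⟨c7, hside⟩ := and_split hside
  obtain ⟨c8, hside⟩ := and_split hside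
  obtain ⟨c9, c10⟩ := and_split hside
  have hR12 := ble_le c1
  have hR2D := blt_lt c2
  have hR20 := blt_lt c3
  have hP10 := blt_lt c4
  have hP12 := blt_lt c5
  have hQ12 := blt_lt c6
  have hPQ : P2 + Q2 ≤ DP := ble_le c7
  have hnum0 := blt_lt c8
  have hnum1 := ble_le c9
  have hlog0 := blt_lt c10
  have hP2D : P2 < DP := by omega
  have hQ2D : Q2 < DP := by omega
  have hR1D : R1 < DR := by omega
  -- reals
  have hDP : (0 : ℝ) < (DP : ℝ) := by rw [DP_cast]; norm_num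
  have hr₂1 : (R2 : ℝ) / DR < 1 := rho_lt hR2D
  have hρ1' : ρ < 1 := lt_of_le_of_lt hρ2 hr₂1
  have hp₁0 : 0 < (P1 : ℝ) / DP := by
    have : (0 : ℝ) < P1 := by exact_mod_cast hP10
    positivity
  have hq₁0 : 0 ≤ (Q1 : ℝ) / DP := by positivity
  have hp₂1 : (P2 : ℝ) / DP < 1 := by
    rw [div_lt_one hDP]
    exact_mod_cast hP2D
  have hq₂1 : (Q2 : ℝ) / DP < 1 := by
    rw [div_lt_one hDP]
    exact_mod_cast hQ2D
  have hs : (P2 : ℝ) / DP + (Q2 : ℝ) / DP ≤ 1 := by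
    rw [← add_div, div_le_one hDP]
    exact_mod_cast hPQ
  have hp0 : 0 ≤ p := by linarith
  have hp1' : p ≤ 1 := by linarith
  have hq1' : q ≤ 1 := by linarith
  -- the constants
  have hS := FS_pos
  have hgap0 : 0 ≤ ((Nat.sub (thUp R1) (thDn R2) : ℕ) : ℝ) / FS := by positivity
  have hmu0 : 0 ≤ ((divUp (logUp qnDen (qnNum R2 P1 Q2)) (logDn DPP (qxNum P2 Q1)) : ℕ) : ℝ) / FS := by
    positivity
  have hth0 : 0 ≤ ((thDn R2 : ℕ) : ℝ) / FS := by positivity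
  -- the vertices
  obtain ⟨v1, hcheck⟩ := and_split hcheck
  obtain ⟨v2, hcheck⟩ := and_split hcheck
  obtain ⟨v3, v4⟩ := and_split hcheck
  have hG := Gc_concave hR1D (lcp := ((logUp DP2 (Nat.add P1 P2) : ℕ) : ℝ) / FS)
    (lmp := ((logUp DP2 (Nat.sub DP2 (Nat.add P1 P2)) : ℕ) : ℝ) / FS)
    (lcq := ((logUp DP2 (Nat.add Q1 Q2) : ℕ) : ℝ) / FS)
    (lmq := ((logUp DP2 (Nat.sub DP2 (Nat.add Q1 Q2)) : ℕ) : ℝ) / FS) hgap0 hmu0 hth0
  have hvert := vertices_nonneg hG hp1 hp2 hq1 hq2 hp₁0.le hq₁0 hs hp₂1 hq₂1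
    (cvert_sound hR1D (by omega) (by omega) (by omega) rfl v1)
    (cvert_sound hR1D (by omega) (by omega) (by omega) rfl v2)
    (cvert_sound hR1D (by omega) (by omega) (by omega) rfl v3)
    (cvert_sound hR1D (by omega) (by omega) (by omega) rfl v4)
  -- the bound for `A`
  have hAT := ATb_mono (R₁ := R1) (p := p) (q := q) hρ1 hρ0 hρ2 hr₂1 hp0 hq0.le hδ.le (by linarith)
    (by linarith)
  have hgap : Hi (thb R1 - thT ((R2 : ℝ) / DR)) (Nat.sub (thUp R1) (thDn R2)) :=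
    Hi.sub (thUp_ge hR1D) (thDn_le hR20 hR2D)
  have hmu := muT_bound (Q1 := Q1) hR2D hR20 hP10 hP2D hQ2D hPQ hP12 hnum0 hnum1 hlog0 hQ12 hρ0 hρ2 hp1 hp2
    hq1 hq2 hq0 hδ
  have hU0 : 0 ≤ UT ρ (1 - p) q := cc_UT_nonneg hρ0 hρ1' (by linarith) (by linarith) hq0.le hq1'
  have hcp := center_bounds (A := Nat.add P1 P2) (by show 0 < P1 + P2; omega)
    (by show P1 + P2 < DP2; unfold DP2; unfold DP at hP2D; omega)
  have hcq := center_bounds (A := Nat.add Q1 Q2) (by show 0 < Q1 + Q2; omega)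
    (by show Q1 + Q2 < DP2; unfold DP2; unfold DP at hQ2D; omega)
  have hGp := entropy_gibbs hp0 hp1' hcp.1 hcp.2.1 hcp.2.2.1 hcp.2.2.2
  have hGq := entropy_gibbs hq0.le hq1' hcq.1 hcq.2.1 hcq.2.2.1 hcq.2.2.2
  have hth : ((thDn R2 : ℕ) : ℝ) / FS ≤ thT ρ :=
    le_trans (thDn_le hR20 hR2D) (hc_thT_antitone hρ0 hρ2 hr₂1)
  have hUle := UT_bound hp0 hp1' hq0.le hq1' hth hGp hGq
  exact cleaf_final hρ0 hρ1' hq0 hδ hqp hp1' hAT hgap hvert hmu hU0 hmu0 hUle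

end Vale.Agent.P322
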