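import Vale.Agent.P322.HForm

/-!
Monotonicity of the two analytic quantities used on a D-cell of the high noise regime:
lower bounds, on a box, for `ℳ/δ²` and for `R̃/δ²`.
-/

namespace Vale.Agent.P322

open Real

/-- `GP y x` is given by the series of `Ξ` without any noise. -/
lemma hasSum_GP_one {y d : ℝ} (hd : 0 ≤ d) (hdy : d < y) :
    HasSum (fun n : ℕ => 1 / ((2 * (n : ℝ) + 2) * (2 * (n : ℝ) + 1))
      * (y * (d / y) ^ (2 * n + 2))) (GP y d) := by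
  have hy : 0 < y := lt_of_le_of_lt hd hdy
  have hz0 : 0 ≤ d / y := by positivity
  have hz1 : d / y < 1 := by rwa [div_lt_one hy]
  have hz : |d / y| < 1 := by rwa [abs_of_nonneg hz0]
  have e : GP y d = y * Xi (d / y) := by
    rw [Xi_eq (by linarith) hz1]
    unfold GP
    have e1 : 1 + d / y = (y + d) / y := by field_simp
    have e2 : 1 - d / y = (y - d) / y := by field_simp
    rw [e1, e2, log_div (by linarith) hy.ne', log_div (by linarith) hy.ne']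
    field_simp
    ring
  have h := (hasSum_Xi hz).mul_left y
  rw [← e] at h
  refine hasSum_of_eq h (fun n => ?_) rfl
  ring

/-- The closed form of `R̃` in terms of `GP`. -/
lemma RT_eq_GP {ρ m d : ℝ} (_h0 : 0 < ρ) :
    RT ρ (m + d) (m - d) = GP m d + GP (1 - m) d
      - (GP m (ρ * d) + GP (1 - m) (ρ * d)) / ρ ^ 2 := by
  have e1 := Psi_eq_GP ρ (m + d) (m - d)
  have e2 := Psi_eq_GP 1 (m + d) (m - d)
  have e3 : (m + d + (m - d)) / 2 = m := by ring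
  have e4 : ρ * (m + d - (m - d)) / 2 = ρ * d := by ring
  have e5 : 1 * (m + d - (m - d)) / 2 = d := by ring
  rw [e3, e4] at e1
  rw [e3, e5] at e2
  have e6 : Psi 1 (m + d) (m - d) = (binEntropy (m + d) + binEntropy (m - d)) / 2 := by
    unfold Psi
    rw [show (m + d + (m - d)) / 2 + 1 * (m + d - (m - d)) / 2 = m + d by ring,
      show (m + d + (m - d)) / 2 - 1 * (m + d - (m - d)) / 2 = m - d by ring]
  unfold RT
  rw [e3, e1, ← e6, e2]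
  ring

/-- The series of `R̃/δ²`. -/
lemma hasSum_RT_div {ρ m δ : ℝ} (h0 : 0 < ρ) (h1 : ρ < 1) (hδ : 0 < δ) (ha1 : δ / 2 < m)
    (ha0 : δ / 2 < 1 - m) :
    HasSum (fun n : ℕ => (1 - ρ ^ (2 * n)) * (1 / ((2 * (n : ℝ) + 2) * (2 * (n : ℝ) + 1))) * (1 / 4)
        * (δ / 2) ^ (2 * n) * ((1 / m) ^ (2 * n + 1) + (1 / (1 - m)) ^ (2 * n + 1)))
      (RT ρ (m + δ / 2) (m - δ / 2) / δ ^ 2) := by
  have hd : 0 ≤ δ / 2 := by positivity
  have hm : 0 < m := by linarith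
  have hm' : 0 < 1 - m := by linarith
  have S := (((hasSum_GP_one hd ha1).add (hasSum_GP_one hd ha0)).sub
    ((hasSum_GP h0 h1 hd ha1.le).add (hasSum_GP h0 h1 hd ha0.le))).div_const (δ ^ 2)
  have e : RT ρ (m + δ / 2) (m - δ / 2) / δ ^ 2 =
      (GP m (δ / 2) + GP (1 - m) (δ / 2)
        - (GP m (ρ * (δ / 2)) / ρ ^ 2 + GP (1 - m) (ρ * (δ / 2)) / ρ ^ 2)) / δ ^ 2 := by
    rw [RT_eq_GP h0]
    ring
  rw [e]
  refine hasSum_of_eq S (fun n => ?_) rfl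
  have hδ2 : δ ^ 2 ≠ 0 := by positivity
  have t : ∀ y : ℝ, 0 < y → y * (δ / 2 / y) ^ (2 * n + 2)
      = δ ^ 2 / 4 * (δ / 2) ^ (2 * n) * (1 / y) ^ (2 * n + 1) := by
    intro y hy
    rw [show 2 * n + 2 = (2 * n + 1) + 1 by ring, pow_succ (δ / 2 / y), show δ / 2 / y = δ / 2 * (1 / y) by ring,
      mul_pow, pow_succ (δ / 2) (2 * n)]
    have : y * (1 / y) = 1 := by field_simp
    calc y * ((δ / 2) ^ (2 * n) * (δ / 2) * (1 / y) ^ (2 * n + 1) * (δ / 2 * (1 / y)))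
        = (y * (1 / y)) * ((δ / 2) ^ (2 * n) * (δ / 2) * (1 / y) ^ (2 * n + 1) * (δ / 2)) := by ring
      _ = _ := by rw [this]; ring
  rw [t m hm, t (1 - m) hm']
  field_simp

/-- The function `x ↦ (1/x)^a + (1/(1-x))^a` decreases on `(0,1/2]`. -/
lemma sum_inv_pow_anti {m m₂ : ℝ} (a : ℕ) (h0 : 0 < m) (hm : m ≤ m₂) (hm2 : m₂ ≤ 1 / 2) :
    (1 / m₂) ^ a + (1 / (1 - m₂)) ^ a ≤ (1 / m) ^ a + (1 / (1 - m)) ^ a := by
  rcases eq_or_lt_of_le hm with rfl | hlt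
  · exact le_rfl
  have hc := convexOn_zpow (𝕜 := ℝ) (-(a : ℤ))
  have hm1 : 0 < 1 - m := by linarith
  have hm3 : 0 < 1 - 2 * m := by linarith
  have hf : ∀ x : ℝ, 0 < x → (1 / x) ^ a = x ^ (-(a : ℤ)) := by
    intro x _
    rw [zpow_neg, zpow_natCast, one_div, inv_pow]
  rw [hf m₂ (by linarith), hf (1 - m₂) (by linarith), hf m h0, hf (1 - m) hm1]
  have hm3' : 1 - 2 * m ≠ 0 := hm3.ne'
  set l : ℝ := (1 - m - m₂) / (1 - 2 * m) with hl
  have hl0 : 0 ≤ l := div_nonneg (by linarith) hm3.le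
  have hl' : l * (1 - 2 * m) = 1 - m - m₂ := by rw [hl]; exact div_mul_cancel₀ _ hm3'
  have hl1 : 0 ≤ 1 - l := by
    by_contra hneg
    have hneg' : 1 - l < 0 := not_le.mp hneg
    nlinarith
  have e1 : l • m + (1 - l) • (1 - m) = m₂ := by
    simp only [smul_eq_mul]
    linear_combination -hl'
  have e2 : (1 - l) • m + l • (1 - m) = 1 - m₂ := by
    simp only [smul_eq_mul]
    linear_combination hl'
  have c1 := hc.2 (Set.mem_Ioi.mpr h0) (Set.mem_Ioi.mpr hm1) hl0 hl1 (by ring)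
  have c2 := hc.2 (Set.mem_Ioi.mpr h0) (Set.mem_Ioi.mpr hm1) hl1 hl0 (by ring)
  rw [e1] at c1
  rw [e2] at c2
  simp only [smul_eq_mul] at c1 c2
  nlinarith

/-- **`RT_cell`**: on a cell, `R̃/δ²` is bounded below by its value at the largest `ρ`, the largest `m ≤ 1/2`
and the smallest `δ`. -/
theorem RT_cell {ρ ρ₂ m δ m₂ d₂ : ℝ} (h0 : 0 < ρ) (h : ρ ≤ ρ₂) (h1 : ρ₂ < 1) (hm : m ≤ m₂)
    (hm2 : m₂ ≤ 1 / 2) (hd0 : 0 < d₂) (hd : d₂ ≤ δ) (ha1 : δ / 2 < m) (ha0 : δ / 2 < 1 - m) :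
    RT ρ₂ (m₂ + d₂ / 2) (m₂ - d₂ / 2) / d₂ ^ 2 ≤ RT ρ (m + δ / 2) (m - δ / 2) / δ ^ 2 := by
  have hδ : 0 < δ := by linarith
  have hm0 : 0 < m := by linarith
  have hρ2 : 0 < ρ₂ := by linarith
  have S1 := hasSum_RT_div hρ2 h1 hd0 (by linarith : d₂ / 2 < m₂) (by linarith : d₂ / 2 < 1 - m₂)
  have S2 := hasSum_RT_div h0 (by linarith : ρ < 1) hδ ha1 ha0
  refine hasSum_le (fun n => ?_) S1 S2
  have hA : 1 - ρ₂ ^ (2 * n) ≤ 1 - ρ ^ (2 * n) := by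
    have := pow_le_pow_left₀ h0.le h (2 * n)
    linarith
  have hA0 : 0 ≤ 1 - ρ₂ ^ (2 * n) := by
    have := pow_le_one₀ (n := 2 * n) hρ2.le h1.le
    linarith
  have hB : (d₂ / 2) ^ (2 * n) ≤ (δ / 2) ^ (2 * n) :=
    pow_le_pow_left₀ (by positivity) (by linarith) _
  have hC := sum_inv_pow_anti (2 * n + 1) hm0 hm hm2
  have hm2' : 0 < m₂ := by linarith
  have hm2'' : 0 < 1 - m₂ := by linarith
  have hC0 : 0 ≤ (1 / m₂) ^ (2 * n + 1) + (1 / (1 - m₂)) ^ (2 * n + 1) := by positivity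
  have hc : 0 ≤ (1 / ((2 * (n : ℝ) + 2) * (2 * (n : ℝ) + 1))) * (1 / 4 : ℝ) := by positivity
  have hd2 : 0 ≤ (d₂ / 2) ^ (2 * n) := by positivity
  have key : (1 - ρ₂ ^ (2 * n)) * ((d₂ / 2) ^ (2 * n) * ((1 / m₂) ^ (2 * n + 1) + (1 / (1 - m₂)) ^ (2 * n + 1)))
      ≤ (1 - ρ ^ (2 * n)) * ((δ / 2) ^ (2 * n) * ((1 / m) ^ (2 * n + 1) + (1 / (1 - m)) ^ (2 * n + 1))) := by
    apply mul_le_mul hA _ (by positivity) (by linarith)
    exact mul_le_mul hB hC hC0 (by positivity)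
  calc _ = (1 / ((2 * (n : ℝ) + 2) * (2 * (n : ℝ) + 1))) * (1 / 4 : ℝ) *
        ((1 - ρ₂ ^ (2 * n)) * ((d₂ / 2) ^ (2 * n) * ((1 / m₂) ^ (2 * n + 1) + (1 / (1 - m₂)) ^ (2 * n + 1)))) := by
        ring
    _ ≤ (1 / ((2 * (n : ℝ) + 2) * (2 * (n : ℝ) + 1))) * (1 / 4 : ℝ) *
        ((1 - ρ ^ (2 * n)) * ((δ / 2) ^ (2 * n) * ((1 / m) ^ (2 * n + 1) + (1 / (1 - m)) ^ (2 * n + 1)))) :=
        mul_le_mul_of_nonneg_left key hc
    _ = _ := by ring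

/-- **`MMT_cell`**: on a cell, `ℳ/δ²` is bounded below by a closed expression in the vertices. -/
theorem MMT_cell {ρ ρ₂ p p₁ p₂ q q₁ q₂ : ℝ} (h0 : 0 < ρ) (h : ρ ≤ ρ₂) (h1 : ρ₂ < 1)
    (hp0 : 0 < p₁) (hp1 : p₁ ≤ p) (hp2 : p ≤ p₂) (hq0 : 0 < q) (hq1 : q₁ ≤ q) (hq2 : q ≤ q₂)
    (hq3 : q₂ < 1) (hδ : 0 < 1 - p - q) :
    (1 - p - q) ^ 2 * (log (1 + kN ρ₂ * (1 - p₁ - q₁) ^ 2 / (4 * (p₂ * (1 - q₁))))
        / ((1 - p₁ - q₁) ^ 2 * log (1 / (p₁ * (1 - q₂))))) ≤ MMT ρ (1 - p) q := by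
  have hρ2 : 0 < ρ₂ := by linarith
  have hρ1 : ρ < 1 := by linarith
  have hp : 0 < p := by linarith
  have hq' : 0 < 1 - q := by linarith
  have hd1 : 0 < 1 - p₁ - q₁ := by linarith
  have hX : 0 < p * (1 - q) := by positivity
  have hX1 : 0 < p₁ * (1 - q₂) := by
    have : 0 < 1 - q₂ := by linarith
    positivity
  have hX1' : p₁ * (1 - q₂) ≤ p * (1 - q) :=
    mul_le_mul hp1 (by linarith) (by linarith) hp.le
  have hp1' : p < 1 := by linarith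
  have hXlt : p * (1 - q) < 1 := by nlinarith
  have hlog0 : 0 < log (1 / (p * (1 - q))) := by
    apply log_pos
    rw [lt_div_iff₀ hX]
    linarith
  have hlog1 : log (1 / (p * (1 - q))) ≤ log (1 / (p₁ * (1 - q₂))) := by
    apply log_le_log (by positivity)
    exact one_div_le_one_div_of_le hX1 hX1'
  have hlog10 : 0 < log (1 / (p₁ * (1 - q₂))) := lt_of_lt_of_le hlog0 hlog1
  rw [MMT_eq h0 hρ1 (by linarith : q < 1 - p) (by linarith) hq0]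
  rw [show 1 - (1 - p) = p by ring, show (1 - p - q) = (1 - p - q) from rfl]
  have hk0 : 0 ≤ kN ρ₂ := (kN_pos hρ2 h1).le
  have hk : kN ρ₂ ≤ kN ρ := by
    unfold kN
    have := pow_le_pow_left₀ h0.le h 2
    linarith
  have hX2 : p * (1 - q) ≤ p₂ * (1 - q₁) := mul_le_mul hp2 (by linarith) hq'.le (by linarith)
  have hX20 : 0 < p₂ * (1 - q₁) := lt_of_lt_of_le hX hX2
  -- the inner monotonicity
  set c₂ : ℝ := kN ρ₂ / (4 * (p₂ * (1 - q₁))) with hc2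
  set c : ℝ := kN ρ / (4 * (p * (1 - q))) with hc
  have hc20 : 0 ≤ c₂ := by positivity
  have hcc : c₂ ≤ c := by
    rw [hc2, hc]
    apply div_le_div₀ (kN_pos h0 hρ1).le hk (by positivity)
    linarith
  have hδ1 : (1 - p - q) ≤ 1 - p₁ - q₁ := by linarith
  set D : ℝ := (1 - p - q) ^ 2 with hD
  set D₁ : ℝ := (1 - p₁ - q₁) ^ 2 with hD1
  have hD0 : 0 < D := by positivity
  have hD10 : 0 < D₁ := by positivity
  have hDD : D ≤ D₁ := pow_le_pow_left₀ hδ.le hδ1 2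
  -- log(1 + c D) ≥ (D/D₁) log (1 + c₂ D₁)
  have hlogc : (D / D₁) * log (1 + c₂ * D₁) ≤ log (1 + c * D) := by
    have hr0 : 0 ≤ D / D₁ := by positivity
    have hr1 : D / D₁ ≤ 1 := (div_le_one hD10).mpr hDD
    have hconc := (strictConcaveOn_log_Ioi.concaveOn).2 (Set.mem_Ioi.mpr (by positivity : (0:ℝ) < 1 + c₂ * D₁))
      (Set.mem_Ioi.mpr (by norm_num : (0:ℝ) < 1)) hr0 (by linarith : 0 ≤ 1 - D / D₁) (by ring)
    simp only [smul_eq_mul, log_one, mul_zero, add_zero] at hconc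
    have e : D / D₁ * (1 + c₂ * D₁) + (1 - D / D₁) * 1 = 1 + c₂ * D := by
      field_simp
      ring
    rw [e] at hconc
    refine hconc.trans ?_
    apply log_le_log (by positivity)
    nlinarith
  have e1 : kN ρ₂ * D₁ / (4 * (p₂ * (1 - q₁))) = c₂ * D₁ := by rw [hc2]; ring
  have e2 : kN ρ * D / (4 * (p * (1 - q))) = c * D := by rw [hc]; ring
  rw [e1, e2]
  have hlc0 : 0 ≤ log (1 + c * D) := log_nonneg (by nlinarith [mul_nonneg (hc20.trans hcc) hD0.le])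
  calc D * (log (1 + c₂ * D₁) / (D₁ * log (1 / (p₁ * (1 - q₂)))))
      = (D / D₁ * log (1 + c₂ * D₁)) / log (1 / (p₁ * (1 - q₂))) := by
        field_simp
    _ ≤ log (1 + c * D) / log (1 / (p₁ * (1 - q₂))) :=
        div_le_div_of_nonneg_right hlogc hlog10.le
    _ ≤ log (1 + c * D) / log (1 / (p * (1 - q))) :=
        div_le_div_of_nonneg_left hlc0 hlog0 hlog1

/-- `RT_cell` in the corner coordinates `a₀ = 1-p`, `a₁ = q`. -/
theorem RT_cell' {ρ ρ₂ p q m₂ d₂ : ℝ} (h0 : 0 < ρ) (h : ρ ≤ ρ₂) (h1 : ρ₂ < 1) (hp : 0 < p) (hq : 0 < q)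
    (hm : (1 - p + q) / 2 ≤ m₂) (hm2 : m₂ ≤ 1 / 2) (hd0 : 0 < d₂) (hd : d₂ ≤ 1 - p - q) :
    RT ρ₂ (m₂ + d₂ / 2) (m₂ - d₂ / 2) / d₂ ^ 2 ≤ RT ρ (1 - p) q / (1 - p - q) ^ 2 := by
  have := RT_cell (m := (1 - p + q) / 2) (δ := 1 - p - q) h0 h h1 hm hm2 hd0 hd (by linarith) (by linarith)
  rwa [show (1 - p + q) / 2 + (1 - p - q) / 2 = 1 - p by ring,
    show (1 - p + q) / 2 - (1 - p - q) / 2 = q by ring] at this

end Vale.Agent.P322
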