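import Vale.Agent.P322.HDefs
import Vale.Agent.P322.W.Plane2

/-!
The corner lemma for the tangent plane at the point itself: joint concavity of `A`, its value at
the corner, monotonicity in the noise, and the closure near the corner `(1,0)`.
-/

namespace Vale.Agent.P322

open Real

/-! ### The function `G(y,x) = y Ξ(x/y)` in a form without division -/

/-- `G y x = y Ξ(x/y)`. -/
noncomputable def GP (y x : ℝ) : ℝ :=
  ((y + x) * log (y + x) + (y - x) * log (y - x)) / 2 - y * log y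

/-- The two-point function in terms of `G`. -/
lemma Psi_eq_GP (ρ u v : ℝ) :
    Psi ρ u v = binEntropy ((u + v) / 2) - GP ((u + v) / 2) (ρ * (u - v) / 2)
      - GP (1 - (u + v) / 2) (ρ * (u - v) / 2) := by
  unfold Psi GP
  simp only [binEntropy_eq]
  rw [show 1 - ((u + v) / 2 + ρ * (u - v) / 2) = 1 - (u + v) / 2 - ρ * (u - v) / 2 by ring,
    show 1 - ((u + v) / 2 - ρ * (u - v) / 2) = 1 - (u + v) / 2 + ρ * (u - v) / 2 by ring]
  ring

/-- `h((1-z)/2) = log 2 - Ξ(z)`. -/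
lemma binEntropy_half_sub {z : ℝ} (h0 : -1 < z) (h1 : z < 1) :
    binEntropy ((1 - z) / 2) = log 2 - Xi z := by
  rw [Xi_eq h0 h1, binEntropy_eq]
  rw [show 1 - (1 - z) / 2 = (1 + z) / 2 by ring,
    log_div (by linarith : (1 - z) ≠ 0) (by norm_num : (2 : ℝ) ≠ 0),
    log_div (by linarith : (1 + z) ≠ 0) (by norm_num : (2 : ℝ) ≠ 0)]
  ring

lemma hc_ThN_eq {ρ : ℝ} (h0 : 0 < ρ) (h1 : ρ < 1) : ThN ρ = ρ ^ 2 * thT ρ := by
  unfold ThN hN kN thT
  rw [binEntropy_half_sub (by linarith) h1]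
  field_simp
  ring

/-- The series of `Ξ(ρ)/ρ²`. -/
lemma hasSum_Xi_div {ρ : ℝ} (h0 : 0 < ρ) (h1 : ρ < 1) :
    HasSum (fun n : ℕ => ρ ^ (2 * n) / ((2 * (n : ℝ) + 2) * (2 * (n : ℝ) + 1))) (Xi ρ / ρ ^ 2) := by
  have hz : |ρ| < 1 := by rwa [abs_of_pos h0]
  have h := (hasSum_Xi hz).div_const (ρ ^ 2)
  refine hasSum_of_eq h (fun n => ?_) rfl
  have h2 : ρ ^ 2 ≠ 0 := by positivity
  rw [show ρ ^ (2 * n + 2) = ρ ^ (2 * n) * ρ ^ 2 by ring]
  field_simp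

lemma hc_coef_nonneg (n : ℕ) : 0 ≤ 1 / ((2 * (n : ℝ) + 2) * (2 * (n : ℝ) + 1)) := by positivity

lemma hc_thT_antitone {ρ ρ' : ℝ} (h0 : 0 < ρ) (h : ρ ≤ ρ') (h1 : ρ' < 1) : thT ρ' ≤ thT ρ := by
  unfold thT
  have h2 : Xi ρ / ρ ^ 2 ≤ Xi ρ' / ρ' ^ 2 := by
    refine hasSum_le (fun n => ?_) (hasSum_Xi_div h0 (by linarith)) (hasSum_Xi_div (by linarith) h1)
    apply div_le_div_of_nonneg_right _ (by positivity)
    exact pow_le_pow_left₀ h0.le h _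
  linarith

lemma hc_thT_le {ρ : ℝ} (h0 : 0 < ρ) (h1 : ρ < 1) : thT ρ ≤ log 2 - 1 / 2 := by
  unfold thT
  have h2 := le_hasSum (hasSum_Xi_div h0 h1) 0 (fun n _ => by positivity)
  norm_num at h2
  linarith

lemma hc_thT_nonneg {ρ : ℝ} (h0 : 0 < ρ) (h1 : ρ < 1) : 0 ≤ thT ρ := by
  have h2 := entropy_ge_four (x := (1 - ρ) / 2) (by linarith) (by linarith)
  rw [binEntropy_half_sub (by linarith) h1] at h2
  have h3 : 0 < ρ ^ 2 := by positivity
  unfold thT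
  have h4 : Xi ρ / ρ ^ 2 ≤ log 2 := by
    rw [div_le_iff₀ h3]
    nlinarith
  linarith

lemma log_two_sub_half_lt : log 2 - 1 / 2 < 1 / 5 := by
  have := log_two_lt_d9
  linarith

/-! ### Joint convexity -/

/-- The log-sum inequality. -/
lemma log_sum_ineq {b₁ b₂ z₁ z₂ : ℝ} (hb₁ : 0 ≤ b₁) (hb₂ : 0 ≤ b₂) (hz₁ : 0 ≤ z₁) (hz₂ : 0 ≤ z₂)
    (h₁ : z₁ = 0 → b₁ = 0) (h₂ : z₂ = 0 → b₂ = 0) :
    (b₁ + b₂) * log (b₁ + b₂) - (b₁ + b₂) * log (z₁ + z₂)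
      ≤ (b₁ * log b₁ - b₁ * log z₁) + (b₂ * log b₂ - b₂ * log z₂) := by
  rcases eq_or_lt_of_le hb₁ with rfl | hb₁'
  · rcases eq_or_lt_of_le hb₂ with rfl | hb₂'
    · simp
    · have hz : 0 < z₂ := by
        rcases eq_or_lt_of_le hz₂ with h | h
        · exact absurd (h₂ h.symm) hb₂'.ne'
        · exact h
      have := log_le_log hz (by linarith : z₂ ≤ z₁ + z₂)
      simp only [zero_add, zero_mul, sub_self]
      nlinarith
  · have hz1 : 0 < z₁ := by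
      rcases eq_or_lt_of_le hz₁ with h | h
      · exact absurd (h₁ h.symm) hb₁'.ne'
      · exact h
    rcases eq_or_lt_of_le hb₂ with rfl | hb₂'
    · have := log_le_log hz1 (by linarith : z₁ ≤ z₁ + z₂)
      simp only [add_zero, zero_mul, sub_self]
      nlinarith
    · have hz2 : 0 < z₂ := by
        rcases eq_or_lt_of_le hz₂ with h | h
        · exact absurd (h₂ h.symm) hb₂'.ne'
        · exact h
      have hA : 0 < b₁ + b₂ := by linarith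
      have hY : 0 < z₁ + z₂ := by linarith
      have key : ∀ b z : ℝ, 0 < b → 0 < z →
          b - z * (b₁ + b₂) / (z₁ + z₂)
            ≤ b * (log b - log z - log (b₁ + b₂) + log (z₁ + z₂)) := by
        intro b z hb hz
        have hx : 0 < b * (z₁ + z₂) / (z * (b₁ + b₂)) := by positivity
        have h3 := log_le_sub_one_of_pos (inv_pos.2 hx)
        rw [log_inv, inv_div] at h3
        have e : log (b * (z₁ + z₂) / (z * (b₁ + b₂)))
            = log b + log (z₁ + z₂) - (log z + log (b₁ + b₂)) := by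
          rw [log_div (by positivity) (by positivity), log_mul hb.ne' hY.ne',
            log_mul hz.ne' hA.ne']
        rw [e] at h3
        have h4 := mul_le_mul_of_nonneg_left h3 hb.le
        have h5 : b * (z * (b₁ + b₂) / (b * (z₁ + z₂)) - 1) = z * (b₁ + b₂) / (z₁ + z₂) - b := by
          field_simp
        rw [h5] at h4
        nlinarith
      have k1 := key b₁ z₁ hb₁' hz1
      have k2 := key b₂ z₂ hb₂' hz2
      have e : z₁ * (b₁ + b₂) / (z₁ + z₂) + z₂ * (b₁ + b₂) / (z₁ + z₂) = b₁ + b₂ := by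
        field_simp
      nlinarith

/-- Scaling in the log-sum functional. -/
lemma kl_scale {θ a y : ℝ} (hθ : 0 < θ) (hy : y = 0 → a = 0) (ha : 0 ≤ a) :
    (θ * a) * log (θ * a) - (θ * a) * log (θ * y) = θ * (a * log a - a * log y) := by
  rcases eq_or_lt_of_le ha with rfl | ha'
  · simp
  · have hy' : y ≠ 0 := fun h => ha'.ne' (hy h)
    rw [log_mul hθ.ne' ha'.ne', log_mul hθ.ne' hy']
    ring

/-- Joint convexity of `a log (a/y)`. -/
lemma kl_convex {θ₁ θ₂ a₁ a₂ y₁ y₂ : ℝ} (hθ₁ : 0 ≤ θ₁) (hθ₂ : 0 ≤ θ₂) (hθ : θ₁ + θ₂ = 1)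
    (ha₁ : 0 ≤ a₁) (ha₂ : 0 ≤ a₂) (hy₁ : 0 ≤ y₁) (hy₂ : 0 ≤ y₂)
    (h₁ : y₁ = 0 → a₁ = 0) (h₂ : y₂ = 0 → a₂ = 0) :
    (θ₁ * a₁ + θ₂ * a₂) * log (θ₁ * a₁ + θ₂ * a₂)
        - (θ₁ * a₁ + θ₂ * a₂) * log (θ₁ * y₁ + θ₂ * y₂)
      ≤ θ₁ * (a₁ * log a₁ - a₁ * log y₁) + θ₂ * (a₂ * log a₂ - a₂ * log y₂) := by
  rcases eq_or_lt_of_le hθ₁ with rfl | hθ₁'
  · have : θ₂ = 1 := by linarith
    subst this
    simp
  rcases eq_or_lt_of_le hθ₂ with rfl | hθ₂'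
  · have : θ₁ = 1 := by linarith
    subst this
    simp
  have := log_sum_ineq (b₁ := θ₁ * a₁) (b₂ := θ₂ * a₂) (z₁ := θ₁ * y₁) (z₂ := θ₂ * y₂)
    (by positivity) (by positivity) (by positivity) (by positivity)
    (fun h => by
      have : y₁ = 0 := by
        rcases mul_eq_zero.1 h with h | h
        · exact absurd h hθ₁'.ne'
        · exact h
      rw [h₁ this, mul_zero])
    (fun h => by
      have : y₂ = 0 := by
        rcases mul_eq_zero.1 h with h | h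
        · exact absurd h hθ₂'.ne'
        · exact h
      rw [h₂ this, mul_zero])
  rw [kl_scale hθ₁' h₁ ha₁, kl_scale hθ₂' h₂ ha₂] at this
  exact this

/-- `G` as a sum of two relative entropy terms. -/
lemma GP_eq (y x : ℝ) :
    GP y x = (((y + x) * log (y + x) - (y + x) * log y)
      + ((y - x) * log (y - x) - (y - x) * log y)) / 2 := by
  unfold GP
  ring

/-- Joint convexity of `G` on `|x| ≤ y`. -/
lemma GP_convex {θ₁ θ₂ y₁ y₂ x₁ x₂ : ℝ} (hθ₁ : 0 ≤ θ₁) (hθ₂ : 0 ≤ θ₂) (hθ : θ₁ + θ₂ = 1)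
    (h₁ : |x₁| ≤ y₁) (h₂ : |x₂| ≤ y₂) :
    GP (θ₁ * y₁ + θ₂ * y₂) (θ₁ * x₁ + θ₂ * x₂) ≤ θ₁ * GP y₁ x₁ + θ₂ * GP y₂ x₂ := by
  have a1 := abs_le.1 h₁
  have a2 := abs_le.1 h₂
  have hy₁ : 0 ≤ y₁ := le_trans (abs_nonneg _) h₁
  have hy₂ : 0 ≤ y₂ := le_trans (abs_nonneg _) h₂
  have c₁ : y₁ = 0 → x₁ = 0 := fun h => by
    rw [h] at h₁
    exact abs_nonpos_iff.1 h₁
  have c₂ : y₂ = 0 → x₂ = 0 := fun h => by
    rw [h] at h₂
    exact abs_nonpos_iff.1 h₂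
  have k1 := kl_convex (a₁ := y₁ + x₁) (a₂ := y₂ + x₂) hθ₁ hθ₂ hθ (by linarith) (by linarith)
    hy₁ hy₂ (fun h => by rw [h, c₁ h]; ring) (fun h => by rw [h, c₂ h]; ring)
  have k2 := kl_convex (a₁ := y₁ - x₁) (a₂ := y₂ - x₂) hθ₁ hθ₂ hθ (by linarith) (by linarith)
    hy₁ hy₂ (fun h => by rw [h, c₁ h]; ring) (fun h => by rw [h, c₂ h]; ring)
  rw [GP_eq, GP_eq, GP_eq]
  rw [show θ₁ * (y₁ + x₁) + θ₂ * (y₂ + x₂) = θ₁ * y₁ + θ₂ * y₂ + (θ₁ * x₁ + θ₂ * x₂) by ring] at k1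
  rw [show θ₁ * (y₁ - x₁) + θ₂ * (y₂ - x₂) = θ₁ * y₁ + θ₂ * y₂ - (θ₁ * x₁ + θ₂ * x₂) by ring] at k2
  linarith

/-! ### Concavity of `h - c a(1-a)` -/

lemma hc_hasDeriv_conc (c : ℝ) {a : ℝ} (h0 : a ≠ 0) (h1 : a ≠ 1) :
    HasDerivAt (fun a : ℝ => binEntropy a - c * (a * (1 - a)))
      (log (1 - a) - log a - c * (1 - 2 * a)) a := by
  have h2 := hasDerivAt_binEntropy h0 h1
  have h3 : HasDerivAt (fun a : ℝ => a * (1 - a)) (1 * (1 - a) + a * (-1)) a :=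
    (hasDerivAt_id' a).mul (by simpa using (hasDerivAt_id a).const_sub 1)
  have h4 : HasDerivAt (fun a : ℝ => binEntropy a - c * (a * (1 - a)))
      (log (1 - a) - log a - c * (1 * (1 - a) + a * (-1))) a := h2.sub (h3.const_mul c)
  exact h4.congr_deriv (by ring)

lemma hc_anti_deriv {x : ℝ} (hx : x ∈ Set.Ioo (0 : ℝ) 1) :
    HasDerivAt (fun a : ℝ => log (1 - a) - log a + 4 * a) ((-1) / (1 - x) - x⁻¹ + 4) x := by
  have h0 : x ≠ 0 := hx.1.ne'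
  have h1 : 1 - x ≠ 0 := by linarith [hx.2]
  have h2 : HasDerivAt (fun a : ℝ => log (1 - a)) ((-1) / (1 - x)) x := by
    have := (by simpa using (hasDerivAt_id x).const_sub 1 : HasDerivAt (fun a : ℝ => 1 - a) (-1) x)
    exact this.log h1
  have h3 : HasDerivAt (fun a : ℝ => log (1 - a) - log a + 4 * a)
      ((-1) / (1 - x) - x⁻¹ + 4 * 1) x := (h2.sub (hasDerivAt_log h0)).add ((hasDerivAt_id' x).const_mul 4)
  exact h3.congr_deriv (by ring)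

/-- `log(1-a) - log a + 4 a` is antitone on `(0,1)`. -/
lemma hc_anti_aux : AntitoneOn (fun a : ℝ => log (1 - a) - log a + 4 * a) (Set.Ioo 0 1) := by
  apply antitoneOn_of_deriv_nonpos (convex_Ioo 0 1)
  · exact fun x hx => (hc_anti_deriv hx).differentiableAt.continuousAt.continuousWithinAt
  · rw [interior_Ioo]
    exact fun x hx => (hc_anti_deriv hx).differentiableAt.differentiableWithinAt
  · rw [interior_Ioo]
    intro x hx
    rw [(hc_anti_deriv hx).deriv]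
    have hx0 := hx.1
    have hx1 : 0 < 1 - x := by linarith [hx.2]
    have e : (-1) / (1 - x) - x⁻¹ + 4 = -((1 - 2 * x) ^ 2) / (x * (1 - x)) := by
      field_simp
      ring
    rw [e]
    apply div_nonpos_of_nonpos_of_nonneg
    · nlinarith [sq_nonneg (1 - 2 * x)]
    · positivity

/-- `h(a) - c a(1-a)` is concave on `[0,1]` for `c ≤ 2`. -/
lemma hc_conc {c : ℝ} (hc : c ≤ 2) :
    ConcaveOn ℝ (Set.Icc 0 1) (fun a : ℝ => binEntropy a - c * (a * (1 - a))) := by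
  apply AntitoneOn.concaveOn_of_deriv (convex_Icc 0 1)
  · exact (binEntropy_continuous.sub (continuous_const.mul
      (continuous_id.mul (continuous_const.sub continuous_id)))).continuousOn
  · rw [interior_Icc]
    intro x hx
    exact (hc_hasDeriv_conc c hx.1.ne' hx.2.ne).differentiableAt.differentiableWithinAt
  · rw [interior_Icc]
    intro a ha b hb hab
    rw [(hc_hasDeriv_conc c ha.1.ne' ha.2.ne).deriv, (hc_hasDeriv_conc c hb.1.ne' hb.2.ne).deriv]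
    have h := hc_anti_aux ha hb hab
    simp only at h
    nlinarith

/-! ### The regular form of `A` -/

/-- `A` in terms of `G`. -/
lemma AT_eq {ρ : ℝ} (h0 : 0 < ρ) (h1 : ρ < 1) (p q : ℝ) :
    AT ρ p q = binEntropy ((1 - p + q) / 2)
        - 4 * thT ρ * ((1 - p + q) / 2 * (1 - (1 - p + q) / 2))
        - (GP ((1 - p + q) / 2) (ρ * ((1 - p - q) / 2))
            + GP (1 - (1 - p + q) / 2) (ρ * ((1 - p - q) / 2))) / ρ ^ 2 := by
  have hρ : ρ ^ 2 ≠ 0 := by positivity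
  unfold AT WW kN wQ
  rw [hc_ThN_eq h0 h1, Psi_eq_GP]
  rw [show (1 - p + q) / 2 = (1 - p + q) / 2 from rfl,
    show ρ * (1 - p - q) / 2 = ρ * ((1 - p - q) / 2) by ring]
  field_simp
  ring

lemma AT_zero {ρ : ℝ} (_h0 : 0 < ρ) (_h1 : ρ < 1) : AT ρ 0 0 = 0 := by
  unfold AT WW ThN hN kN wQ Psi
  have e1 : (1 - 0 + 0 : ℝ) / 2 + ρ * (1 - 0 - 0) / 2 = 1 - (1 - ρ) / 2 := by ring
  have e2 : (1 - 0 + 0 : ℝ) / 2 - ρ * (1 - 0 - 0) / 2 = (1 - ρ) / 2 := by ring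
  have e3 : (1 - 0 + 0 : ℝ) / 2 = 2⁻¹ := by norm_num
  rw [e1, e2, e3, binEntropy_one_sub, binEntropy_two_inv]
  have : binEntropy ((1 - ρ) / 2) + binEntropy ((1 - ρ) / 2) = 2 * binEntropy ((1 - ρ) / 2) := by
    ring
  rw [this]
  rw [div_eq_zero_iff]
  left
  ring

lemma hc_tri_abs {ρ p q : ℝ} (h0 : 0 < ρ) (h1 : ρ < 1) (hp : 0 ≤ p) (hq : 0 ≤ q) (hs : p + q ≤ 1) :
    |ρ * ((1 - p - q) / 2)| ≤ (1 - p + q) / 2 ∧ |ρ * ((1 - p - q) / 2)| ≤ 1 - (1 - p + q) / 2 := by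
  have hd : 0 ≤ (1 - p - q) / 2 := by linarith
  have h2 : ρ * ((1 - p - q) / 2) ≤ (1 - p - q) / 2 := by nlinarith
  have h3 : 0 ≤ ρ * ((1 - p - q) / 2) := by positivity
  rw [abs_of_nonneg h3]
  constructor <;> linarith

/-- Joint concavity of `A` on the triangle. -/
lemma AT_concave {ρ : ℝ} (h0 : 0 < ρ) (h1 : ρ < 1) :
    ConcaveOn ℝ {x : ℝ × ℝ | 0 ≤ x.1 ∧ 0 ≤ x.2 ∧ x.1 + x.2 ≤ 1} (fun x => AT ρ x.1 x.2) := by
  refine ⟨?_, ?_⟩
  · intro x hx y hy a b ha hb hab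
    simp only [Set.mem_ofPred_eq, Prod.fst_add, Prod.snd_add, Prod.smul_fst, Prod.smul_snd,
      smul_eq_mul] at hx hy ⊢
    obtain ⟨hx1, hx2, hx3⟩ := hx
    obtain ⟨hy1, hy2, hy3⟩ := hy
    refine ⟨by positivity, by positivity, ?_⟩
    have e : a * x.1 + b * y.1 + (a * x.2 + b * y.2) = a * (x.1 + x.2) + b * (y.1 + y.2) := by ring
    rw [e]
    nlinarith
  · intro x hx y hy a b ha hb hab
    simp only [Set.mem_ofPred_eq] at hx hy
    obtain ⟨hx1, hx2, hx3⟩ := hx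
    obtain ⟨hy1, hy2, hy3⟩ := hy
    simp only [Prod.fst_add, Prod.snd_add, Prod.smul_fst, Prod.smul_snd, smul_eq_mul]
    rw [AT_eq h0 h1, AT_eq h0 h1, AT_eq h0 h1]
    set X1 := x.1
    set X2 := x.2
    set Y1 := y.1
    set Y2 := y.2
    -- the means
    have hθ : 4 * thT ρ ≤ 2 := by
      have := hc_thT_le h0 h1
      have := log_two_sub_half_lt
      linarith
    have hg := (hc_conc hθ).2
      (x := (1 - X1 + X2) / 2) (y := (1 - Y1 + Y2) / 2)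
      ⟨by linarith, by linarith⟩ ⟨by linarith, by linarith⟩ ha hb hab
    simp only [smul_eq_mul] at hg
    have em : a * ((1 - X1 + X2) / 2) + b * ((1 - Y1 + Y2) / 2)
        = (1 - (a * X1 + b * Y1) + (a * X2 + b * Y2)) / 2 := by
      have : b = 1 - a := by linarith
      subst this
      ring
    rw [em] at hg
    have ex := hc_tri_abs h0 h1 hx1 hx2 hx3
    have ey := hc_tri_abs h0 h1 hy1 hy2 hy3
    have k1 := GP_convex ha hb hab ex.1 ey.1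
    have k2 := GP_convex ha hb hab ex.2 ey.2
    have em2 : a * (ρ * ((1 - X1 - X2) / 2)) + b * (ρ * ((1 - Y1 - Y2) / 2))
        = ρ * ((1 - (a * X1 + b * Y1) - (a * X2 + b * Y2)) / 2) := by
      have : b = 1 - a := by linarith
      subst this
      ring
    have em3 : a * (1 - (1 - X1 + X2) / 2) + b * (1 - (1 - Y1 + Y2) / 2)
        = 1 - (1 - (a * X1 + b * Y1) + (a * X2 + b * Y2)) / 2 := by
      have : b = 1 - a := by linarith
      subst this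
      ring
    rw [em, em2] at k1
    rw [em3, em2] at k2
    have hρ : 0 < ρ ^ 2 := by positivity
    have hsum := add_le_add k1 k2
    have hdiv := div_le_div_of_nonneg_right hsum hρ.le
    have e5 : (a * GP ((1 - X1 + X2) / 2) (ρ * ((1 - X1 - X2) / 2))
          + b * GP ((1 - Y1 + Y2) / 2) (ρ * ((1 - Y1 - Y2) / 2))
          + (a * GP (1 - (1 - X1 + X2) / 2) (ρ * ((1 - X1 - X2) / 2))
          + b * GP (1 - (1 - Y1 + Y2) / 2) (ρ * ((1 - Y1 - Y2) / 2)))) / ρ ^ 2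
        = a * ((GP ((1 - X1 + X2) / 2) (ρ * ((1 - X1 - X2) / 2))
            + GP (1 - (1 - X1 + X2) / 2) (ρ * ((1 - X1 - X2) / 2))) / ρ ^ 2)
          + b * ((GP ((1 - Y1 + Y2) / 2) (ρ * ((1 - Y1 - Y2) / 2))
            + GP (1 - (1 - Y1 + Y2) / 2) (ρ * ((1 - Y1 - Y2) / 2))) / ρ ^ 2) := by
      ring
    rw [e5] at hdiv
    nlinarith [hg, hdiv]

/-! ### Monotonicity in the noise -/

/-- `G(y, ρ d)/ρ²` as a power series in `ρ²`. -/
lemma hasSum_GP {ρ y d : ℝ} (h0 : 0 < ρ) (h1 : ρ < 1) (hd : 0 ≤ d) (hdy : d ≤ y) :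
    HasSum (fun n : ℕ => ρ ^ (2 * n) / ((2 * (n : ℝ) + 2) * (2 * (n : ℝ) + 1))
      * (y * (d / y) ^ (2 * n + 2))) (GP y (ρ * d) / ρ ^ 2) := by
  rcases eq_or_lt_of_le (le_trans hd hdy) with hy | hy
  · have hd0 : d = 0 := by linarith
    subst hd0
    rw [← hy]
    have e : GP 0 (ρ * 0) = 0 := by
      unfold GP
      simp
    rw [e]
    simp
  · have hρd : ρ * d < y := by
      rcases eq_or_lt_of_le hd with hd0 | hd0
      · rw [← hd0]
        simpa using hy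
      · nlinarith
    have hρd0 : 0 ≤ ρ * d := by positivity
    have hz0 : 0 ≤ ρ * d / y := by positivity
    have hz1 : ρ * d / y < 1 := by rwa [div_lt_one hy]
    have hz : |ρ * d / y| < 1 := by rwa [abs_of_nonneg hz0]
    have e : GP y (ρ * d) = y * Xi (ρ * d / y) := by
      rw [Xi_eq (by linarith) hz1]
      unfold GP
      have e1 : 1 + ρ * d / y = (y + ρ * d) / y := by field_simp
      have e2 : 1 - ρ * d / y = (y - ρ * d) / y := by field_simp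
      rw [e1, e2, log_div (by linarith) hy.ne', log_div (by linarith) hy.ne']
      field_simp
      ring
    have h := ((hasSum_Xi hz).mul_left y).div_const (ρ ^ 2)
    rw [← e] at h
    refine hasSum_of_eq h (fun n => ?_) rfl
    have h2 : ρ ^ 2 ≠ 0 := by positivity
    rw [div_pow, div_pow, mul_pow]
    rw [show ρ ^ (2 * n + 2) = ρ ^ (2 * n) * ρ ^ 2 by ring]
    field_simp

lemma hc_T_le {y d : ℝ} (n : ℕ) (hd : 0 ≤ d) (hdy : d ≤ y) : y * (d / y) ^ (2 * n + 2) ≤ y := by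
  have hy : 0 ≤ y := le_trans hd hdy
  have h1 : d / y ≤ 1 := div_le_one_of_le₀ hdy hy
  have h2 : 0 ≤ d / y := by positivity
  have h3 : (d / y) ^ (2 * n + 2) ≤ 1 := pow_le_one₀ h2 h1
  nlinarith

lemma hc_S_mono {ρ₁ ρ m d : ℝ} (h0 : 0 < ρ₁) (h1 : ρ₁ ≤ ρ) (h2 : ρ < 1) (hd : 0 ≤ d) (hdm : d ≤ m)
    (hdm' : d ≤ 1 - m) :
    Xi ρ₁ / ρ₁ ^ 2 - (GP m (ρ₁ * d) / ρ₁ ^ 2 + GP (1 - m) (ρ₁ * d) / ρ₁ ^ 2)
      ≤ Xi ρ / ρ ^ 2 - (GP m (ρ * d) / ρ ^ 2 + GP (1 - m) (ρ * d) / ρ ^ 2) := by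
  have h0' : 0 < ρ := by linarith
  have h2' : ρ₁ < 1 := by linarith
  have S1 := (hasSum_Xi_div h0 h2').sub
    ((hasSum_GP h0 h2' hd hdm).add (hasSum_GP h0 h2' hd hdm'))
  have S2 := (hasSum_Xi_div h0' h2).sub
    ((hasSum_GP h0' h2 hd hdm).add (hasSum_GP h0' h2 hd hdm'))
  refine hasSum_le (fun n => ?_) S1 S2
  have t1 := hc_T_le n hd hdm
  have t2 := hc_T_le n hd hdm'
  set T := m * (d / m) ^ (2 * n + 2) + (1 - m) * (d / (1 - m)) ^ (2 * n + 2) with hT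
  have hT1 : 0 ≤ 1 - T := by rw [hT]; linarith
  have e : ∀ r : ℝ, r ^ (2 * n) / ((2 * (n : ℝ) + 2) * (2 * (n : ℝ) + 1))
      - (r ^ (2 * n) / ((2 * (n : ℝ) + 2) * (2 * (n : ℝ) + 1)) * (m * (d / m) ^ (2 * n + 2))
        + r ^ (2 * n) / ((2 * (n : ℝ) + 2) * (2 * (n : ℝ) + 1))
          * ((1 - m) * (d / (1 - m)) ^ (2 * n + 2)))
      = r ^ (2 * n) / ((2 * (n : ℝ) + 2) * (2 * (n : ℝ) + 1)) * (1 - T) := by
    intro r
    rw [hT]
    ring
  rw [e, e]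
  apply mul_le_mul_of_nonneg_right _ hT1
  apply div_le_div_of_nonneg_right _ (by positivity)
  exact pow_le_pow_left₀ h0.le h1 _

lemma AT_mono {ρ₁ ρ ρ₂ p q : ℝ} (h0 : 0 < ρ₁) (h1 : ρ₁ ≤ ρ) (h2 : ρ ≤ ρ₂) (h3 : ρ₂ < 1) (hp : 0 ≤ p)
    (hq : 0 ≤ q) (hs : p + q ≤ 1) :
    AT ρ₁ p q + (thT ρ₂ - thT ρ₁) * (p - q) ^ 2 ≤ AT ρ p q := by
  have h0' : 0 < ρ := by linarith
  have hρ1 : ρ < 1 := by linarith
  have hρ11 : ρ₁ < 1 := by linarith
  rw [AT_eq h0 hρ11, AT_eq h0' hρ1]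
  have hd : 0 ≤ (1 - p - q) / 2 := by linarith
  have hS := hc_S_mono (m := (1 - p + q) / 2) (d := (1 - p - q) / 2) h0 h1 hρ1 hd
    (by linarith) (by linarith)
  have hθ := hc_thT_antitone h0' h2 h3
  have hsq : 0 ≤ (p - q) ^ 2 := sq_nonneg _
  have e : 4 * ((1 - p + q) / 2 * (1 - (1 - p + q) / 2)) = 1 - (p - q) ^ 2 := by ring
  have e1 : ∀ r : ℝ, 4 * thT r * ((1 - p + q) / 2 * (1 - (1 - p + q) / 2))
      = thT r * (1 - (p - q) ^ 2) := by
    intro r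
    rw [← e]
    ring
  rw [e1, e1]
  unfold thT at hθ ⊢
  have e2 : ∀ r : ℝ, (GP ((1 - p + q) / 2) (r * ((1 - p - q) / 2))
      + GP (1 - (1 - p + q) / 2) (r * ((1 - p - q) / 2))) / r ^ 2
      = GP ((1 - p + q) / 2) (r * ((1 - p - q) / 2)) / r ^ 2
        + GP (1 - (1 - p + q) / 2) (r * ((1 - p - q) / 2)) / r ^ 2 := fun r => add_div _ _ _
  rw [e2, e2]
  nlinarith [mul_le_mul_of_nonneg_right hθ hsq]

/-! ### The corner -/

lemma TT_eq_AT {ρ : ℝ} (h0 : 0 < ρ) (h1 : ρ < 1) (p q : ℝ) :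
    TT ρ (1 - p) q = ρ ^ 2 * (AT ρ p q - muT ρ (1 - p) q * UT ρ (1 - p) q) := by
  have hρ : ρ ^ 2 ≠ 0 := by positivity
  unfold TT AT UT WW kN
  rw [hc_ThN_eq h0 h1]
  field_simp
  ring

/-- The lower bound for `A` from concavity. -/
lemma AT_lower {ρ s₀ B p q : ℝ} (h0 : 0 < ρ) (h1 : ρ < 1) (hs0 : 0 < s₀) (hs1 : s₀ ≤ 1 / 4)
    (hB1 : B * s₀ ≤ AT ρ s₀ 0) (hB2 : B * s₀ ≤ AT ρ (s₀ / 2) (s₀ / 2))
    (hq : 0 ≤ q) (hqp : q ≤ p) (hs : p + q ≤ s₀) : (p + q) * B ≤ AT ρ p q := by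
  have hc := AT_concave h0 h1
  set α := (p - q) / s₀ with hα
  set β := 2 * q / s₀ with hβ
  set γ := 1 - (p + q) / s₀ with hγ
  have hα0 : 0 ≤ α := div_nonneg (by linarith) hs0.le
  have hβ0 : 0 ≤ β := div_nonneg (by linarith) hs0.le
  have hγ0 : 0 ≤ γ := by
    rw [hγ, sub_nonneg, div_le_one hs0]
    exact hs
  have hsum : α + β + γ = 1 := by
    rw [hα, hβ, hγ]
    field_simp
    ring
  have hJ := hc.le_map_sum (t := (Finset.univ : Finset (Fin 3))) (w := ![α, β, γ])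
    (p := ![(s₀, 0), (s₀ / 2, s₀ / 2), (0, 0)])
    (by
      intro i _
      fin_cases i <;> simp [hα0, hβ0, hγ0])
    (by
      simp only [Fin.sum_univ_three]
      simpa using hsum)
    (by
      intro i _
      fin_cases i <;> simp <;> constructor <;> first | positivity | linarith)
  simp only [Fin.sum_univ_three] at hJ
  simp only [Matrix.cons_val_zero, Matrix.cons_val_one, Matrix.cons_val, smul_eq_mul, Prod.smul_mk,
    Prod.mk_add_mk, mul_zero, add_zero] at hJ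
  have e1 : α * s₀ + β * (s₀ / 2) = p := by
    rw [hα, hβ]
    field_simp
    ring
  have e2 : β * (s₀ / 2) = q := by
    rw [hβ]
    field_simp
  rw [e1, e2, AT_zero h0 h1] at hJ
  have e3 : (p + q) * B = α * (B * s₀) + β * (B * s₀) := by
    rw [hα, hβ]
    field_simp
    ring
  have h5 := mul_le_mul_of_nonneg_left hB1 hα0
  have h6 := mul_le_mul_of_nonneg_left hB2 hβ0
  simp only [mul_zero, add_zero, zero_add] at hJ
  rw [e3]
  linarith

/-- `h(x) ≤ x (log(1/x) + 1)`. -/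
lemma hc_entropy_le {x : ℝ} (_h0 : 0 < x) (h1 : x < 1) : binEntropy x ≤ x * (log (1 / x) + 1) := by
  have h2 : 0 < 1 - x := by linarith
  have h3 := one_sub_inv_le_log_of_pos h2
  have h4 := mul_le_mul_of_nonneg_left h3 h2.le
  have h5 : (1 - x) * (1 - (1 - x)⁻¹) = -x := by
    field_simp
    ring
  rw [h5] at h4
  rw [binEntropy_eq, one_div, log_inv]
  nlinarith

/-- The constant `c₀` solves `1 + c₀ + log c₀ ≥ 0`. -/
lemma hc_c0_log : -(1 + 2785 / 10000 : ℝ) ≤ log (2785 / 10000) := by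
  rw [le_log_iff_exp_le (by norm_num)]
  have h1 : exp (12785 / 10000) = exp 1 * exp (2785 / 10000) := by
    rw [← exp_add]
    norm_num
  have h2 := Real.sum_le_exp_of_nonneg (x := (2785 / 10000 : ℝ)) (by norm_num) 5
  simp only [Finset.sum_range_succ, Finset.sum_range_zero, Nat.factorial] at h2
  norm_num at h2
  have h3 := exp_one_gt_d9
  have h4 : (10000 / 2785 : ℝ) ≤ exp (12785 / 10000) := by
    rw [h1]
    have h5 : (0:ℝ) < 2.7182818283 := by norm_num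
    nlinarith
  have h6 : exp (-(1 + 2785 / 10000 : ℝ)) = (exp (12785 / 10000))⁻¹ := by
    rw [← exp_neg]
    norm_num
  rw [h6]
  have h7 : (0:ℝ) < 10000 / 2785 := by norm_num
  calc (exp (12785 / 10000))⁻¹ ≤ (10000 / 2785 : ℝ)⁻¹ := inv_anti₀ h7 h4
    _ = 2785 / 10000 := by norm_num

/-- `q log(p/q) ≤ c₀ (p+q)`. -/
lemma hc_q_log {p q : ℝ} (hq : 0 < q) (hp : 0 < p) :
    q * log (1 / q) ≤ q * log (1 / p) + 2785 / 10000 * (p + q) := by
  have hc : (0:ℝ) < 2785 / 10000 := by norm_num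
  have h1 := log_le_sub_one_of_pos (show 0 < 2785 / 10000 * p / q by positivity)
  rw [log_div (by positivity) hq.ne', log_mul hc.ne' hp.ne'] at h1
  have h2 := hc_c0_log
  have h3 := mul_le_mul_of_nonneg_left h1 hq.le
  have h4 : q * (2785 / 10000 * p / q - 1) = 2785 / 10000 * p - q := by
    field_simp
  rw [h4] at h3
  simp only [one_div, log_inv]
  nlinarith

/-- The bound on `U`. -/
lemma hc_U_le {ρ s₀ p q : ℝ} (h0 : 0 < ρ) (h1 : ρ < 1) (hs1 : s₀ ≤ 1 / 4) (hq : 0 < q) (hqp : q ≤ p)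
    (hs : p + q ≤ s₀) :
    UT ρ (1 - p) q ≤ (p + q) / 2 * (log (1 / p) + (2785 / 10000 + 1 - 4 * thT ρ * (1 - s₀))) := by
  have hp : 0 < p := by linarith
  have hp1 : p < 1 := by linarith
  have hq1 : q < 1 := by linarith
  have hθ := hc_thT_nonneg h0 h1
  have e1 := hc_entropy_le hp hp1
  have e2 := hc_entropy_le hq hq1
  have e3 := hc_q_log hq hp
  unfold UT wQ
  rw [binEntropy_one_sub]
  have hw : 2 * (p + q) * (1 - s₀) ≤ (4 * (1 - p) * (1 - (1 - p)) + 4 * q * (1 - q)) / 2 := by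
    nlinarith
  have h5 := mul_le_mul_of_nonneg_left hw hθ
  nlinarith

/-- The bound on the multiplier. -/
lemma hc_mu_le {ρ s₀ p q : ℝ} (h0 : 0 < ρ) (h1 : ρ < 1) (hs0 : 0 < s₀) (hs1 : s₀ ≤ 1 / 4)
    (hq : 0 < q) (hqp : q ≤ p) (hs : p + q ≤ s₀) :
    ∃ L₁ L₂, muT ρ (1 - p) q = L₁ / L₂ ∧ 0 ≤ L₁ ∧ L₁ ≤ log (4 / ((1 - ρ ^ 2) * (1 - s₀) ^ 2)) ∧
      log (1 / p) ≤ L₂ ∧ log (1 / s₀) ≤ log (1 / p) ∧ 0 < log (1 / s₀) := by
  have hp : 0 < p := by linarith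
  have hp1 : p < 1 := by linarith
  have hq1 : q < 1 := by linarith
  have hk : 0 < 1 - ρ ^ 2 := by nlinarith
  have hk1 : 1 - ρ ^ 2 ≤ 1 := by nlinarith [sq_nonneg ρ]
  set δ := 1 - p - q with hδ
  have hδ1 : 1 - s₀ ≤ δ := by rw [hδ]; linarith
  have hs2 : 0 < 1 - s₀ := by linarith
  have hδ0 : 0 < δ := by linarith
  set Q := (1 - (1 - p)) * (1 - q) with hQ
  have eQ : Q = p * (1 - q) := by rw [hQ]; ring
  have hQ0 : 0 < Q := by rw [eQ]; exact mul_pos hp (by linarith)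
  have hQ1 : Q ≤ p := by rw [eQ]; nlinarith
  set Q' := (1 - ((1 - p + q) / 2 + ρ * (1 - p - q) / 2))
      * (1 - ((1 - p + q) / 2 - ρ * (1 - p - q) / 2)) with hQ'
  have eQ' : Q' = Q + (1 - ρ ^ 2) * δ ^ 2 / 4 := by
    rw [hQ', hQ, hδ]
    ring
  have hkd : 0 < (1 - ρ ^ 2) * δ ^ 2 / 4 := by positivity
  have hQ'1 : Q' ≤ ((1 + p - q) / 2) ^ 2 := by
    rw [hQ']
    nlinarith [sq_nonneg (ρ * (1 - p - q) / 2)]
  have hQ'2 : Q' < 1 := by
    have : (1 + p - q) / 2 ≤ 5 / 8 := by linarith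
    have h2 : 0 ≤ (1 + p - q) / 2 := by linarith
    nlinarith
  have hQ'0 : 0 < Q' := by rw [eQ']; linarith
  refine ⟨-log Q', -log Q, ?_, ?_, ?_, ?_, ?_, ?_⟩
  · unfold muT
    rw [neg_div_neg_eq]
  · have := log_neg hQ'0 hQ'2
    linarith
  · have h3 : (1 - ρ ^ 2) * (1 - s₀) ^ 2 / 4 ≤ Q' := by
      rw [eQ']
      have : (1 - s₀) ^ 2 ≤ δ ^ 2 := by nlinarith
      nlinarith
    have h4 : 0 < (1 - ρ ^ 2) * (1 - s₀) ^ 2 / 4 := by positivity
    have h5 := log_le_log h4 h3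
    have e : 4 / ((1 - ρ ^ 2) * (1 - s₀) ^ 2) = ((1 - ρ ^ 2) * (1 - s₀) ^ 2 / 4)⁻¹ := by
      field_simp
    rw [e, log_inv]
    linarith
  · have := log_le_log hQ0 hQ1
    rw [one_div, log_inv]
    linarith
  · apply log_le_log (by positivity)
    apply one_div_le_one_div_of_le hp
    linarith
  · apply log_pos
    rw [lt_div_iff₀ hs0]
    linarith

/-- Closure near the corner `(1,0)`. -/
theorem hcorner {ρ s₀ B : ℝ} (h0 : 0 < ρ) (h1 : ρ < 1) (hs0 : 0 < s₀) (hs1 : s₀ ≤ 1 / 4)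
    (hB1 : B * s₀ ≤ AT ρ s₀ 0) (hB2 : B * s₀ ≤ AT ρ (s₀ / 2) (s₀ / 2))
    (hcond : (1 / 2) * log (4 / ((1 - ρ ^ 2) * (1 - s₀) ^ 2))
        * (1 + (2785 / 10000 + 1 - 4 * thT ρ * (1 - s₀)) / log (1 / s₀)) ≤ B)
    {p q : ℝ} (hq : 0 < q) (hqp : q ≤ p) (hs : p + q ≤ s₀) : 0 ≤ TT ρ (1 - p) q := by
  rw [TT_eq_AT h0 h1]
  apply mul_nonneg (by positivity)
  have hA := AT_lower h0 h1 hs0 hs1 hB1 hB2 hq.le hqp hs
  obtain ⟨L₁, L₂, hμ, hL1, hL2, hL3, hL4, hL5⟩ := hc_mu_le h0 h1 hs0 hs1 hq hqp hs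
  have hU := hc_U_le h0 h1 hs1 hq hqp hs
  set c' := (2785 / 10000 + 1 - 4 * thT ρ * (1 - s₀) : ℝ) with hc'
  set ℓ := log (4 / ((1 - ρ ^ 2) * (1 - s₀) ^ 2)) with hℓ
  set L₀ := log (1 / s₀) with hL₀
  set P := log (1 / p) with hP
  have hθ := hc_thT_nonneg h0 h1
  have hθ2 := hc_thT_le h0 h1
  have hθ3 := log_two_sub_half_lt
  have hc'0 : 0 < c' := by
    rw [hc']
    nlinarith
  have hℓ0 : 0 ≤ ℓ := le_trans hL1 hL2
  have hL₂0 : 0 < L₂ := by linarith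
  have hs' : 0 < p + q := by linarith
  have hX : 0 ≤ 1 + c' / L₀ := by positivity
  have hB0 : 0 ≤ B := le_trans (by positivity) hcond
  have hsB : (p + q) * (1 / 2 * ℓ * (1 + c' / L₀)) ≤ (p + q) * B :=
    mul_le_mul_of_nonneg_left hcond hs'.le
  rw [hμ]
  by_cases hU0 : UT ρ (1 - p) q ≤ 0
  · have h2 : L₁ / L₂ * UT ρ (1 - p) q ≤ 0 :=
      mul_nonpos_of_nonneg_of_nonpos (by positivity) hU0
    have h3 : 0 ≤ (p + q) * B := by positivity
    linarith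
  · push Not at hU0
    have h2 : L₁ / L₂ * UT ρ (1 - p) q ≤ ℓ / L₂ * UT ρ (1 - p) q := by
      apply mul_le_mul_of_nonneg_right _ hU0.le
      exact div_le_div_of_nonneg_right hL2 hL₂0.le
    have h3 : ℓ / L₂ * UT ρ (1 - p) q ≤ ℓ / L₂ * ((p + q) / 2 * (P + c')) :=
      mul_le_mul_of_nonneg_left hU (by positivity)
    have h4 : (P + c') / L₂ ≤ 1 + c' / L₀ := by
      rw [add_div]
      have h5 : P / L₂ ≤ 1 := by
        rw [div_le_one hL₂0]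
        exact hL3
      have h6 : c' / L₂ ≤ c' / L₀ :=
        div_le_div_of_nonneg_left hc'0.le hL5 (by linarith)
      linarith
    have h7 : ℓ / L₂ * ((p + q) / 2 * (P + c')) = (p + q) / 2 * ℓ * ((P + c') / L₂) := by
      field_simp
    have h8 : (p + q) / 2 * ℓ * ((P + c') / L₂) ≤ (p + q) / 2 * ℓ * (1 + c' / L₀) :=
      mul_le_mul_of_nonneg_left h4 (by positivity)
    have h9 : (p + q) / 2 * ℓ * (1 + c' / L₀) = (p + q) * (1 / 2 * ℓ * (1 + c' / L₀)) := by ring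
    linarith

end Vale.Agent.P322
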