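import Vale.Agent.P322.HForm

/-!
Closure of the tangent plane at the point itself for small means.
-/

namespace Vale.Agent.P322

open Real

/-- `h(a) ≥ a log(1/a)`. -/
lemma binEntropy_ge_mul_log {a : ℝ} (h0 : 0 < a) (h1 : a < 1) :
    a * log (1 / a) ≤ binEntropy a := by
  rw [binEntropy_eq, one_div, log_inv]
  have : log (1 - a) ≤ 0 := log_nonpos (by linarith) (by linarith)
  nlinarith

/-- Lower bound for `U`. -/
lemma UT_lower {ρ a₀ a₁ : ℝ} (h0 : 0 < ρ) (h1 : ρ < 1) (ha1 : 0 < a₁) (h : a₁ < a₀)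
    (hs : a₀ + a₁ < 1) :
    (a₀ + a₁) / 2 * (log (1 / (a₀ + a₁)) - 4 * thT ρ) ≤ UT ρ a₀ a₁ := by
  have hth := hc_thT_nonneg h0 h1
  have ha0 : 0 < a₀ := by linarith
  have h1a : a₀ < 1 := by linarith
  have h1b : a₁ < 1 := by linarith
  have hb0 := binEntropy_ge_mul_log ha0 h1a
  have hb1 := binEntropy_ge_mul_log ha1 h1b
  have hs0 : 0 < a₀ + a₁ := by linarith
  have hl0 : log (1 / (a₀ + a₁)) ≤ log (1 / a₀) := by
    apply log_le_log (by positivity)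
    apply one_div_le_one_div_of_le ha0 (by linarith)
  have hl1 : log (1 / (a₀ + a₁)) ≤ log (1 / a₁) := by
    apply log_le_log (by positivity)
    apply one_div_le_one_div_of_le ha1 (by linarith)
  have h2 : a₀ * log (1 / (a₀ + a₁)) ≤ a₀ * log (1 / a₀) := mul_le_mul_of_nonneg_left hl0 ha0.le
  have h3 : a₁ * log (1 / (a₀ + a₁)) ≤ a₁ * log (1 / a₁) := mul_le_mul_of_nonneg_left hl1 ha1.le
  have h4 : (wQ a₀ + wQ a₁) / 2 ≤ 2 * (a₀ + a₁) := by
    unfold wQ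
    nlinarith
  have h5 := mul_le_mul_of_nonneg_left h4 hth
  unfold UT
  nlinarith

/-- Lower bound for `ℳ`. -/
lemma MMT_lower {ρ a₀ a₁ : ℝ} (h0 : 0 < ρ) (h1 : ρ < 1) (ha1 : 0 < a₁) (h : a₁ < a₀)
    (hs : a₀ + a₁ < 1) :
    (kN ρ * (a₀ - a₁) ^ 2 / 4) / (1 + (((a₀ + a₁) / 2) / (1 - (a₀ + a₁))) ^ 2 / 2)
        * ((1 - (a₀ + a₁)) / (a₀ + a₁)) ≤ MMT ρ a₀ a₁ := by
  have ha0 : 0 < a₀ := by linarith
  have ha0' : a₀ < 1 := by linarith
  have hk := kN_pos h0 h1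
  have hk1 : kN ρ ≤ 1 := by
    unfold kN
    nlinarith [sq_nonneg ρ]
  have hQ := Q_pos ha0' h
  have hQ1 := Q_lt_one ha0' ha1 h
  rw [MMT_eq h0 h1 h ha0' ha1]
  set Q := (1 - a₀) * (1 - a₁) with hQdef
  set d := a₀ - a₁ with hd
  set s := a₀ + a₁ with hsdef
  have hs0 : 0 < s := by rw [hsdef]; linarith
  have hd0 : 0 < d := by rw [hd]; linarith
  have hds : d ≤ s := by rw [hd, hsdef]; linarith
  have hQs : 1 - s ≤ Q := by
    rw [hQdef, hsdef]
    nlinarith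
  have h1s : 0 < 1 - s := by linarith
  set E := kN ρ * d ^ 2 / (4 * Q) with hE
  have hE0 : 0 < E := by
    rw [hE]
    positivity
  -- E ≥ k d²/4
  have hE1 : kN ρ * d ^ 2 / 4 ≤ E := by
    rw [hE, div_le_div_iff₀ (by norm_num) (by positivity)]
    have : 0 < kN ρ * d ^ 2 := by positivity
    nlinarith
  -- E ≤ X := (s/2/(1-s))²
  have hE2 : E ≤ (s / 2 / (1 - s)) ^ 2 := by
    rw [hE, div_pow, div_pow, div_le_div_iff₀ (by positivity) (by positivity)]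
    have h2 : kN ρ * d ^ 2 ≤ s ^ 2 := by
      have : d ^ 2 ≤ s ^ 2 := by nlinarith
      nlinarith [sq_nonneg d]
    have h3 : (1 - s) ^ 2 ≤ Q := by nlinarith
    have h4 : kN ρ * d ^ 2 * (1 - s) ^ 2 ≤ s ^ 2 * Q := by
      calc kN ρ * d ^ 2 * (1 - s) ^ 2 ≤ s ^ 2 * (1 - s) ^ 2 :=
            mul_le_mul_of_nonneg_right h2 (sq_nonneg _)
        _ ≤ s ^ 2 * Q := mul_le_mul_of_nonneg_left h3 (sq_nonneg _)
    nlinarith
  -- log(1+E) bound
  have hlog1 : 2 * E / (E + 2) ≤ log (1 + E) := le_log_one_add_of_nonneg hE0.le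
  set X := (s / 2 / (1 - s)) ^ 2 with hX
  have hX0 : 0 ≤ X := by rw [hX]; positivity
  have hlog2 : (kN ρ * d ^ 2 / 4) / (1 + X / 2) ≤ log (1 + E) := by
    refine le_trans ?_ hlog1
    have e : 2 * E / (E + 2) = E / (1 + E / 2) := by
      field_simp
      ring
    rw [e]
    apply div_le_div₀ hE0.le hE1 (by positivity)
    linarith
  -- log (1/Q) bound
  have hlq : log (1 / Q) ≤ s / (1 - s) := by
    have h2 : log (1 / Q) ≤ 1 / Q - 1 := by
      have := log_le_sub_one_of_pos (show 0 < 1 / Q by positivity)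
      linarith
    refine le_trans h2 ?_
    have h3 : 1 / Q ≤ 1 / (1 - s) := one_div_le_one_div_of_le h1s hQs
    have e : s / (1 - s) = 1 / (1 - s) - 1 := by
      field_simp
      ring
    rw [e]
    linarith
  have hlq0 : 0 < log (1 / Q) := log_pos (by
    rw [lt_div_iff₀ hQ]
    linarith)
  -- combine
  have hA : 0 ≤ (kN ρ * d ^ 2 / 4) / (1 + X / 2) := by positivity
  have e3 : (1 - s) / s = 1 / (s / (1 - s)) := by
    field_simp
  rw [e3, ← div_eq_mul_one_div]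
  exact div_le_div₀ (le_trans hA hlog2) hlog2 hlq0 hlq

/-- Closure of the tangent plane at the point itself for small means. -/
theorem htail {ρ m₁ : ℝ} (h0 : 0 < ρ) (h1 : ρ < 1) (hm0 : 0 < m₁) (hm1 : m₁ ≤ 1 / 8)
    (hcond : thT ρ * (8 * (1 + m₁ ^ 2 / (2 * (1 - 2 * m₁) ^ 2)))
        ≤ (1 - ρ ^ 2) * (1 - 2 * m₁) * (log (1 / (2 * m₁)) - 4 * thT ρ))
    {a₀ a₁ : ℝ} (ha1 : 0 < a₁) (h : a₁ < a₀) (hm : (a₀ + a₁) / 2 ≤ m₁) : 0 ≤ TT ρ a₀ a₁ := by
  have hth := hc_thT_nonneg h0 h1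
  have hk := kN_pos h0 h1
  have hk' : kN ρ = 1 - ρ ^ 2 := rfl
  rw [← hk'] at hcond
  have hs : a₀ + a₁ ≤ 1 / 4 := by linarith
  have ha0 : 0 < a₀ := by linarith
  have ha0' : a₀ < 1 := by linarith
  have ha1' : a₁ < 1 := by linarith
  have hR := RT_nonneg h0 h1 ha0.le ha0'.le ha1.le ha1'.le
  rw [TT_regular h0 h1]
  apply mul_nonneg (by positivity)
  set s := a₀ + a₁ with hsdef
  have hs0 : 0 < s := by rw [hsdef]; linarith
  have hs1 : 0 < 1 - s := by linarith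
  have h2m : 0 < 1 - 2 * m₁ := by linarith
  -- monotonicity
  have hL : log (1 / (2 * m₁)) ≤ log (1 / s) := by
    apply log_le_log (by positivity)
    apply one_div_le_one_div_of_le hs0
    linarith
  have hbr : 0 ≤ log (1 / (2 * m₁)) - 4 * thT ρ := by
    by_contra hneg0
    have hneg := not_le.mp hneg0
    have h2 : 0 < kN ρ * (1 - 2 * m₁) := by positivity
    have h3 : kN ρ * (1 - 2 * m₁) * (log (1 / (2 * m₁)) - 4 * thT ρ) < 0 :=
      mul_neg_of_pos_of_neg h2 hneg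
    have h4 : 0 ≤ thT ρ * (8 * (1 + m₁ ^ 2 / (2 * (1 - 2 * m₁) ^ 2))) := by positivity
    linarith
  have hbr' : 0 ≤ log (1 / s) - 4 * thT ρ := by linarith
  -- U ≥ 0 and lower bounds
  have hU := UT_lower h0 h1 ha1 h (show a₀ + a₁ < 1 by linarith)
  rw [← hsdef] at hU
  have hM := MMT_lower h0 h1 ha1 h (show a₀ + a₁ < 1 by linarith)
  rw [← hsdef] at hM
  set d := a₀ - a₁ with hd
  set X := (s / 2 / (1 - s)) ^ 2 with hX
  have hX0 : 0 ≤ X := by rw [hX]; positivity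
  have hA0 : 0 ≤ kN ρ * d ^ 2 / 4 / (1 + X / 2) * ((1 - s) / s) := by positivity
  have hprod : kN ρ * d ^ 2 / 4 / (1 + X / 2) * ((1 - s) / s) * (s / 2 * (log (1 / s) - 4 * thT ρ))
      ≤ MMT ρ a₀ a₁ * UT ρ a₀ a₁ :=
    mul_le_mul hM hU (by positivity) (le_trans hA0 hM)
  have e : kN ρ * d ^ 2 / 4 / (1 + X / 2) * ((1 - s) / s) * (s / 2 * (log (1 / s) - 4 * thT ρ))
      = d ^ 2 * (kN ρ * (1 - s) * (log (1 / s) - 4 * thT ρ)) / (8 * (1 + X / 2)) := by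
    field_simp
    ring
  rw [e] at hprod
  -- the bracket
  have hX1 : X ≤ m₁ ^ 2 / (1 - 2 * m₁) ^ 2 := by
    rw [hX, ← div_pow]
    apply pow_le_pow_left₀ (by positivity)
    apply div_le_div₀ hm0.le (by linarith) h2m (by linarith)
  have h5 : 1 + X / 2 ≤ 1 + m₁ ^ 2 / (2 * (1 - 2 * m₁) ^ 2) := by
    have e5 : m₁ ^ 2 / (2 * (1 - 2 * m₁) ^ 2) = m₁ ^ 2 / (1 - 2 * m₁) ^ 2 / 2 := by
      field_simp
    rw [e5]
    linarith
  have h6 : thT ρ * (8 * (1 + X / 2)) ≤ kN ρ * (1 - s) * (log (1 / s) - 4 * thT ρ) := by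
    calc thT ρ * (8 * (1 + X / 2)) ≤ thT ρ * (8 * (1 + m₁ ^ 2 / (2 * (1 - 2 * m₁) ^ 2))) := by
          apply mul_le_mul_of_nonneg_left _ hth
          linarith
      _ ≤ kN ρ * (1 - 2 * m₁) * (log (1 / (2 * m₁)) - 4 * thT ρ) := hcond
      _ ≤ kN ρ * (1 - s) * (log (1 / s) - 4 * thT ρ) := by
          apply mul_le_mul _ (by linarith) hbr (by positivity)
          apply mul_le_mul_of_nonneg_left _ hk.le
          linarith
  have h7 : thT ρ * d ^ 2 ≤ d ^ 2 * (kN ρ * (1 - s) * (log (1 / s) - 4 * thT ρ)) / (8 * (1 + X / 2)) := by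
    rw [le_div_iff₀ (by positivity)]
    nlinarith [sq_nonneg d]
  linarith

end Vale.Agent.P322
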