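import Vale.Agent.P322.HLeafDefs
import Vale.Agent.P322.HTail

/-!
Soundness of the D-cells of the high noise regime.
-/

namespace Vale.Agent.P322

open Real

/-! ### Casts -/

lemma DP_cast : (DP : ℝ) = 4294967296 := by
  unfold DP
  norm_num

lemma DR_cast : (DR : ℝ) = 65536 := by
  unfold DR
  norm_num

lemma DP2_cast : (DP2 : ℝ) = 8589934592 := by
  unfold DP2
  norm_num

lemma DB_cast : (DB : ℝ) = 562949953421312 := by
  unfold DB
  norm_num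

lemma DPP_cast : (DPP : ℝ) = 18446744073709551616 := by
  unfold DPP
  norm_num

lemma FS_cast : (FS : ℝ) = 18446744073709551616 := by
  unfold FS
  norm_num

lemma DP_pos : 0 < DP := by
  unfold DP
  norm_num

lemma cast_natSub {a b : ℕ} (h : b ≤ a) : ((Nat.sub a b : ℕ) : ℝ) = (a : ℝ) - b := Nat.cast_sub h

lemma cast_natMul (a b : ℕ) : ((Nat.mul a b : ℕ) : ℝ) = (a : ℝ) * b := Nat.cast_mul a b

lemma cast_natAdd (a b : ℕ) : ((Nat.add a b : ℕ) : ℝ) = (a : ℝ) + b := Nat.cast_add a b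

lemma cast_shl32 (a : ℕ) : ((Nat.shiftLeft a 32 : ℕ) : ℝ) = (a : ℝ) * 4294967296 := by
  show ((a <<< 32 : ℕ) : ℝ) = _
  rw [Nat.shiftLeft_eq]
  push_cast
  norm_num

lemma lo_of_eq {x : ℝ} {X : ℕ} (h : (X : ℝ) / FS = x) : Lo x X := le_of_eq h

lemma hi_of_eq {x : ℝ} {X : ℕ} (h : (X : ℝ) / FS = x) : Hi x X := ge_of_eq h

lemma Hi.mono {x y : ℝ} {Y : ℕ} (h : x ≤ y) (hy : Hi y Y) : Hi x Y := le_trans h hy

lemma Lo.mono {x y : ℝ} {Y : ℕ} (h : y ≤ x) (hy : Lo y Y) : Lo x Y := le_trans hy h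

/-- Splitting of a conjunction of `Bool` values. -/
lemma and_spec {a b : Bool} (h : and a b = true) : a = true ∧ b = true := by
  cases a <;> cases b <;> simp_all

lemma ble_spec {a b : ℕ} (h : Nat.ble a b = true) : a ≤ b := Nat.le_of_ble_eq_true h

lemma blt_spec {a b : ℕ} (h : Nat.blt a b = true) : a < b := Nat.le_of_ble_eq_true h

/-! ### Upper bound for `θ̃` -/

lemma kF_eq {R : ℕ} (hR : R < DR) : ((kF R : ℕ) : ℝ) / FS = kN ((R : ℝ) / DR) := by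
  have hR2 : Nat.mul R R ≤ 4294967296 := by
    have h : R < 65536 := hR
    show R * R ≤ 4294967296
    nlinarith
  unfold kF kN
  rw [cast_shl32, cast_natSub hR2, cast_natMul, FS_cast, DR_cast]
  push_cast
  field_simp
  ring

lemma kF_lo {R : ℕ} (hR : R < DR) : Lo (kN ((R : ℝ) / DR)) (kF R) := lo_of_eq (kF_eq hR)

lemma kF_hi {R : ℕ} (hR : R < DR) : Hi (kN ((R : ℝ) / DR)) (kF R) := hi_of_eq (kF_eq hR)

lemma tF_eq (R : ℕ) : ((tF R : ℕ) : ℝ) / FS = ((R : ℝ) / DR) ^ 2 := by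
  unfold tF
  rw [cast_shl32, cast_natMul, FS_cast, DR_cast]
  field_simp
  ring

lemma tF_lo (R : ℕ) : Lo (((R : ℝ) / DR) ^ 2) (tF R) := lo_of_eq (tF_eq R)

lemma tF_hi (R : ℕ) : Hi (((R : ℝ) / DR) ^ 2) (tF R) := hi_of_eq (tF_eq R)

lemma tF_pos {R : ℕ} (hR : 0 < R) : 0 < tF R := by
  unfold tF
  show 0 < (R * R) <<< 32
  rw [Nat.shiftLeft_eq]
  positivity

lemma ThUp_hi {R : ℕ} (hR : R < DR) : Hi (ThN ((R : ℝ) / DR)) (ThUp R) := by
  unfold ThN ThUp hN hnUp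
  apply Hi.sub
  · have hle : Nat.sub DR R ≤ 131072 := by
      show DR - R ≤ 131072
      unfold DR
      omega
    have h := le_entUp (a := Nat.sub DR R) (b := 131072) (by norm_num) hle
    have e : (1 - (R : ℝ) / DR) / 2 = ((Nat.sub DR R : ℕ) : ℝ) / ((131072 : ℕ) : ℝ) := by
      rw [cast_natSub hR.le, DR_cast]
      push_cast
      field_simp
      ring
    rw [e]
    exact h
  · exact Lo.mul (kF_lo hR) L2D_le

lemma thT_hi {R : ℕ} {ρ : ℝ} (hR : (R : ℝ) / DR ≤ ρ) (h0 : 0 < ρ) (h1 : ρ < 1) (hRd : R < DR) :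
    Hi (thT ρ) (thUp R) := by
  unfold thUp
  refine Hi_cond (fun hb => ?_) (fun hb => ?_)
  · refine Hi.mono (thT_le h0 h1) (Hi.sub le_L2U (lo_of_eq ?_))
    rw [FS_cast]
    norm_num
  · have hR0 : 0 < R := by
      rcases Nat.eq_zero_or_pos R with h | h
      · rw [h] at hb
        exact absurd hb (by decide)
      · exact h
    have hDR : (0 : ℝ) < DR := by
      rw [DR_cast]
      norm_num
    have hR0' : (0 : ℝ) < (R : ℝ) := by exact_mod_cast hR0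
    have hr0 : 0 < (R : ℝ) / DR := by positivity
    have hr1 : (R : ℝ) / DR < 1 := lt_of_le_of_lt hR h1
    have h2 := thT_antitone hr0 hR h1
    refine Hi.mono h2 ?_
    have e : thT ((R : ℝ) / DR) = ThN ((R : ℝ) / DR) / ((R : ℝ) / DR) ^ 2 := by
      rw [ThN_eq hr0 hr1]
      field_simp
    rw [e]
    refine Hi.div (ThUp_hi hRd) (tF_lo R) (tF_pos hR0) ?_
    rw [ThN_eq hr0 hr1]
    have := thT_nonneg hr0 hr1
    positivity

/-! ### Lower bound for `U` -/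

lemma halfDn_eq (a : ℕ) : halfDn a = a / 2 := by
  show a >>> 1 = _
  rw [Nat.shiftRight_eq_div_pow]

lemma halfUp_eq (a : ℕ) : halfUp a = a / 2 + 1 := by
  show Nat.succ (a >>> 1) = _
  rw [Nat.shiftRight_eq_div_pow]

lemma lo_half {x : ℝ} {X : ℕ} (h : Lo x X) : Lo (x / 2) (halfDn X) := by
  unfold Lo at *
  rw [halfDn_eq]
  have hS := FS_pos
  have h1 := natDiv_le X 2
  push_cast at h1
  have h2 : ((X / 2 : ℕ) : ℝ) / FS ≤ (X : ℝ) / 2 / FS := div_le_div_of_nonneg_right h1 hS.le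
  have e : (X : ℝ) / 2 / FS = (X : ℝ) / FS / 2 := by ring
  rw [e] at h2
  linarith

lemma hi_half {x : ℝ} {X : ℕ} (h : Hi x X) : Hi (x / 2) (halfUp X) := by
  unfold Hi at *
  rw [halfUp_eq]
  have hS := FS_pos
  have h1 := le_natDiv_succ (a := X) (b := 2) (by norm_num)
  push_cast at h1
  have h2 : (X : ℝ) / 2 / FS ≤ (((X / 2 : ℕ) : ℝ) + 1) / FS := div_le_div_of_nonneg_right h1 hS.le
  have e : (X : ℝ) / 2 / FS = (X : ℝ) / FS / 2 := by ring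
  rw [e] at h2
  push_cast
  linarith

lemma lo_nmin {x x₁ x₂ : ℝ} {A B : ℕ} (h1 : Lo x₁ A) (h2 : Lo x₂ B) (h : min x₁ x₂ ≤ x) :
    Lo x (nmin A B) := by
  have hS := FS_pos
  unfold nmin
  refine Lo_cond (fun hb => ?_) (fun hb => ?_)
  · have hAB : A ≤ B := ble_spec hb
    have hAB' : (A : ℝ) ≤ B := by exact_mod_cast hAB
    have hd : (A : ℝ) / FS ≤ (B : ℝ) / FS := div_le_div_of_nonneg_right hAB' hS.le
    unfold Lo at *
    exact le_trans (le_min h1 (le_trans hd h2)) h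
  · have hAB : B ≤ A := by
      rcases Nat.le_total A B with hAB | hBA
      · have := Nat.ble_eq_true_of_le hAB
        rw [hb] at this
        exact absurd this (by decide)
      · exact hBA
    have hAB' : (B : ℝ) ≤ A := by exact_mod_cast hAB
    have hd : (B : ℝ) / FS ≤ (A : ℝ) / FS := div_le_div_of_nonneg_right hAB' hS.le
    unfold Lo at *
    exact le_trans (le_min (le_trans hd h1) h2) h

lemma hi_nmax {x x₁ x₂ : ℝ} {A B : ℕ} (h1 : Hi x₁ A) (h2 : Hi x₂ B) (h : x ≤ max x₁ x₂) :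
    Hi x (nmax A B) := by
  have hS := FS_pos
  unfold nmax
  refine Hi_cond (fun hb => ?_) (fun hb => ?_)
  · have hAB : A ≤ B := ble_spec hb
    have hAB' : (A : ℝ) ≤ B := by exact_mod_cast hAB
    have hd : (A : ℝ) / FS ≤ (B : ℝ) / FS := div_le_div_of_nonneg_right hAB' hS.le
    unfold Hi at *
    exact le_trans h (max_le (le_trans h1 hd) h2)
  · have hAB : B ≤ A := by
      rcases Nat.le_total A B with hAB | hBA
      · have := Nat.ble_eq_true_of_le hAB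
        rw [hb] at this
        exact absurd this (by decide)
      · exact hBA
    have hAB' : (B : ℝ) ≤ A := by exact_mod_cast hAB
    have hd : (B : ℝ) / FS ≤ (A : ℝ) / FS := div_le_div_of_nonneg_right hAB' hS.le
    unfold Hi at *
    exact le_trans h (max_le h1 (le_trans h2 hd))

lemma wF_eq {P : ℕ} (hP : P ≤ DP) : ((wF P : ℕ) : ℝ) / FS = wQ ((P : ℝ) / DP) := by
  unfold wF wQ
  rw [cast_natMul, cast_natMul, cast_natSub hP, FS_cast, DP_cast]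
  push_cast
  field_simp
  ring

lemma wQ_le_one (a : ℝ) : wQ a ≤ 1 := by
  unfold wQ
  nlinarith [sq_nonneg (2 * a - 1)]

lemma wQ_nonneg {a : ℝ} (h0 : 0 ≤ a) (h1 : a ≤ 1) : 0 ≤ wQ a := by
  unfold wQ
  have : 0 ≤ 1 - a := by linarith
  positivity

lemma wmax_hi {P1 P2 : ℕ} {p : ℝ} (hp1 : (P1 : ℝ) / DP ≤ p) (hp2 : p ≤ (P2 : ℝ) / DP)
    (hP1 : P1 ≤ DP) (hP2 : P2 ≤ DP) : Hi (wQ p) (wmax P1 P2) := by
  unfold wmax
  refine Hi_cond (fun hb => ?_) (fun hb => ?_)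
  · unfold Hi
    have hS : ((DPP : ℕ) : ℝ) / FS = 1 := by
      rw [DPP_cast, FS_cast]
      norm_num
    rw [hS]
    exact wQ_le_one p
  · refine hi_nmax (hi_of_eq (wF_eq hP1)) (hi_of_eq (wF_eq hP2)) ?_
    have hor : ¬ P1 ≤ 2147483648 ∨ ¬ 2147483648 ≤ P2 := by
      by_contra hn
      push Not at hn
      have h1 := Nat.ble_eq_true_of_le hn.1
      have h2 := Nat.ble_eq_true_of_le hn.2
      rw [h1, h2] at hb
      exact absurd hb (by decide)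
    rw [DP_cast] at hp1 hp2 ⊢
    rcases hor with h | h
    · apply le_max_of_le_left
      have h' : (2147483648 : ℝ) ≤ P1 := by
        have : 2147483648 ≤ P1 := by omega
        exact_mod_cast this
      set a := (P1 : ℝ) / 4294967296 with ha
      have ha2 : 1 / 2 ≤ a := by
        rw [ha, le_div_iff₀ (by norm_num)]
        linarith
      unfold wQ
      nlinarith
    · apply le_max_of_le_right
      have h' : (P2 : ℝ) ≤ 2147483648 := by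
        have : P2 ≤ 2147483648 := by omega
        exact_mod_cast this
      set a := (P2 : ℝ) / 4294967296 with ha
      have ha2 : a ≤ 1 / 2 := by
        rw [ha, div_le_iff₀ (by norm_num)]
        linarith
      unfold wQ
      nlinarith

/-- `h` is at least the minimum of its values at the ends of an interval. -/
lemma ent_interval {P1 P2 : ℕ} {p : ℝ} (hp1 : (P1 : ℝ) / DP ≤ p) (hp2 : p ≤ (P2 : ℝ) / DP)
    (hP1 : P1 ≤ DP) (hP2 : P2 ≤ DP) : Lo (binEntropy p) (nmin (entDn P1 DP) (entDn P2 DP)) := by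
  have hD : (0 : ℝ) < (DP : ℝ) := by
    rw [DP_cast]
    norm_num
  have hD0 : 0 < DP := DP_pos
  refine lo_nmin (entDn_le hD0 hP1) (entDn_le hD0 hP2) ?_
  have m1 : (P1 : ℝ) / DP ∈ Set.Icc (0 : ℝ) 1 := by
    refine ⟨by positivity, ?_⟩
    rw [div_le_one hD]
    exact_mod_cast hP1
  have m2 : (P2 : ℝ) / DP ∈ Set.Icc (0 : ℝ) 1 := by
    refine ⟨by positivity, ?_⟩
    rw [div_le_one hD]
    exact_mod_cast hP2
  exact strictConcave_binEntropy.concaveOn.min_le_of_mem_Icc m1 m2 ⟨hp1, hp2⟩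

/-- `U ≥ 0`. -/
lemma ent_sub_nonneg {θ a : ℝ} (_h0 : 0 ≤ θ) (hθ : θ ≤ log 2 - 1 / 2) (ha0 : 0 ≤ a) (ha1 : a ≤ 1) :
    θ * wQ a ≤ binEntropy a := by
  have hl := log_two_sub_half_lt
  have hc : 4 * θ ≤ 2 := by linarith
  have h := (hc_conc hc).2 (show (0 : ℝ) ∈ Set.Icc (0 : ℝ) 1 from ⟨le_refl _, zero_le_one⟩)
    (show (1 : ℝ) ∈ Set.Icc (0 : ℝ) 1 from ⟨zero_le_one, le_refl _⟩)
    (show 0 ≤ 1 - a by linarith) ha0 (by ring)
  simp only [smul_eq_mul] at h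
  have e : (1 - a) * 0 + a * 1 = a := by ring
  rw [e] at h
  simp only [binEntropy_zero, binEntropy_one] at h
  unfold wQ
  nlinarith

lemma UT_nonneg {ρ a₀ a₁ : ℝ} (h0 : 0 < ρ) (h1 : ρ < 1) (ha0 : 0 ≤ a₀) (ha0' : a₀ ≤ 1) (ha1 : 0 ≤ a₁)
    (ha1' : a₁ ≤ 1) : 0 ≤ UT ρ a₀ a₁ := by
  have hn := thT_nonneg h0 h1
  have hl := thT_le h0 h1
  have k0 := ent_sub_nonneg hn hl ha0 ha0'
  have k1 := ent_sub_nonneg hn hl ha1 ha1'
  unfold UT
  nlinarith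

lemma wQ_one_sub (p : ℝ) : wQ (1 - p) = wQ p := by
  unfold wQ
  ring

lemma UT_lo {th P1 P2 Q1 Q2 : ℕ} {ρ p q : ℝ} (h0 : 0 < ρ) (h1 : ρ < 1) (hθ : Hi (thT ρ) th)
    (hp1 : (P1 : ℝ) / DP ≤ p) (hp2 : p ≤ (P2 : ℝ) / DP) (hq1 : (Q1 : ℝ) / DP ≤ q)
    (hq2 : q ≤ (Q2 : ℝ) / DP) (hP1 : P1 ≤ DP) (hP2 : P2 ≤ DP) (hQ1 : Q1 ≤ DP) (hQ2 : Q2 ≤ DP)
    (hp0 : 0 ≤ p) (hp' : p ≤ 1) (hq0 : 0 ≤ q) (hq' : q ≤ 1) :
    Lo (UT ρ (1 - p) q) (uDn th P1 P2 Q1 Q2) := by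
  have hU := UT_nonneg h0 h1 (a₀ := 1 - p) (a₁ := q) (by linarith) (by linarith) hq0 hq'
  unfold UT at hU ⊢
  unfold uDn
  refine Lo.sub (lo_half (Lo.add ?_ (ent_interval hq1 hq2 hQ1 hQ2))) ?_ hU
  · rw [binEntropy_one_sub]
    exact ent_interval hp1 hp2 hP1 hP2
  · refine Hi.mul hθ (hi_half (Hi.add ?_ (wmax_hi hq1 hq2 hQ1 hQ2))) (thT_nonneg h0 h1) ?_
    · rw [wQ_one_sub]
      exact wmax_hi hp1 hp2 hP1 hP2
    · have := wQ_nonneg hq0 hq'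
      have := wQ_nonneg (a := 1 - p) (by linarith) (by linarith)
      positivity

/-! ### Lower bound for `ℳ` -/

lemma log_one_add_mul_ge {t l : ℝ} (ht : 0 ≤ t) (h0 : 0 ≤ l) (h1 : l ≤ 1) :
    l * log (1 + t) ≤ log (1 + l * t) := by
  have h := strictConcaveOn_log_Ioi.concaveOn.2 (show 1 + t ∈ Set.Ioi (0 : ℝ) from by
      simp only [Set.mem_Ioi]
      linarith) (show (1 : ℝ) ∈ Set.Ioi (0 : ℝ) from by
      simp only [Set.mem_Ioi]
      norm_num) h0 (show 0 ≤ 1 - l by linarith) (by ring)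
  simp only [smul_eq_mul, log_one, mul_zero, add_zero] at h
  rw [show l * (1 + t) + (1 - l) * 1 = 1 + l * t by ring] at h
  exact h

/-- The multiplier on a cell. -/
lemma dl_MMT_cell {ρ ρ₂ p q p₁ p₂ q₁ q₂ : ℝ} (h0 : 0 < ρ) (h2 : ρ ≤ ρ₂) (h3 : ρ₂ < 1)
    (hp1 : p₁ ≤ p) (hp2 : p ≤ p₂) (hq1 : q₁ ≤ q) (hq2 : q ≤ q₂) (hq0 : 0 < q) (hs : p + q < 1)
    (hp₁ : 0 < p₁) (hq₂ : q₂ < 1) :
    log (1 + kN ρ₂ * (1 - p₁ - q₁) ^ 2 / (4 * (p₂ * (1 - q₁))))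
        / ((1 - p₁ - q₁) ^ 2 * log (1 / (p₁ * (1 - q₂))))
      ≤ MMT ρ (1 - p) q / (1 - p - q) ^ 2 := by
  have hρ1 : ρ < 1 := lt_of_le_of_lt h2 h3
  have hp0 : 0 < p := lt_of_lt_of_le hp₁ hp1
  have hqlt : q < 1 - p := by linarith
  have hm := MMT_eq (a₀ := 1 - p) (a₁ := q) h0 hρ1 hqlt (by linarith) hq0
  rw [hm]
  have e1 : 1 - (1 - p) = p := by ring
  have e2 : 1 - p - q = 1 - p - q := rfl
  rw [e1]
  set δ := 1 - p - q with hδ
  set δ₁ := 1 - p₁ - q₁ with hδ₁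
  set Q := p * (1 - q) with hQ
  set Qx := p₂ * (1 - q₁) with hQx
  set Qn := p₁ * (1 - q₂) with hQn
  have hδ0 : 0 < δ := by rw [hδ]; linarith
  have hδδ : δ ≤ δ₁ := by rw [hδ, hδ₁]; linarith
  have hδ₁0 : 0 < δ₁ := by linarith
  have hq1' : 0 < 1 - q := by linarith
  have hQ0 : 0 < Q := by rw [hQ]; positivity
  have hQ1 : Q < 1 := by
    rw [hQ]
    nlinarith
  have hQxQ : Q ≤ Qx := by
    rw [hQ, hQx]
    apply mul_le_mul hp2 (by linarith) hq1'.le (by linarith)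
  have hQnQ : Qn ≤ Q := by
    rw [hQ, hQn]
    apply mul_le_mul hp1 (by linarith) (by linarith) hp0.le
  have hQn0 : 0 < Qn := by
    rw [hQn]
    apply mul_pos hp₁
    linarith
  have hk₂ : 0 < kN ρ₂ := kN_pos (lt_of_lt_of_le h0 h2) h3
  have hk : kN ρ₂ ≤ kN ρ := by
    unfold kN
    nlinarith
  have hk0 : 0 < kN ρ := lt_of_lt_of_le hk₂ hk
  have hQx0 : 0 < Qx := by linarith
  -- the scaling
  set l := δ ^ 2 / δ₁ ^ 2 with hl
  have hl0 : 0 ≤ l := by rw [hl]; positivity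
  have hl1 : l ≤ 1 := by
    rw [hl, div_le_one (by positivity)]
    exact pow_le_pow_left₀ hδ0.le hδδ 2
  set t := kN ρ₂ * δ₁ ^ 2 / (4 * Qx) with ht
  have ht0 : 0 ≤ t := by rw [ht]; positivity
  have h4 := log_one_add_mul_ge ht0 hl0 hl1
  have e3 : l * t = kN ρ₂ * δ ^ 2 / (4 * Qx) := by
    rw [hl, ht]
    field_simp
  have h5 : l * t ≤ kN ρ * δ ^ 2 / (4 * Q) := by
    rw [e3]
    apply div_le_div₀ (by positivity) _ (by positivity) (by linarith)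
    apply mul_le_mul_of_nonneg_right hk (by positivity)
  have h6 : log (1 + l * t) ≤ log (1 + kN ρ * δ ^ 2 / (4 * Q)) := by
    apply log_le_log (by positivity)
    linarith
  have hL0 : 0 < log (1 / Q) := log_pos (by
    rw [lt_div_iff₀ hQ0]
    linarith)
  have hLL : log (1 / Q) ≤ log (1 / Qn) := by
    apply log_le_log (by positivity)
    exact one_div_le_one_div_of_le hQn0 hQnQ
  have hE0 : 0 ≤ log (1 + kN ρ * δ ^ 2 / (4 * Q)) := by
    apply log_nonneg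
    have : 0 ≤ kN ρ * δ ^ 2 / (4 * Q) := by positivity
    linarith
  calc log (1 + t) / (δ₁ ^ 2 * log (1 / Qn))
      = (l * log (1 + t)) / (δ ^ 2 * log (1 / Qn)) := by
        rw [hl]
        have : log (1 / Qn) ≠ 0 := (lt_of_lt_of_le hL0 hLL).ne'
        field_simp
    _ ≤ log (1 + kN ρ * δ ^ 2 / (4 * Q)) / (δ ^ 2 * log (1 / Q)) := by
        apply div_le_div₀ hE0 (le_trans h4 h6) (by positivity)
        exact mul_le_mul_of_nonneg_left hLL (by positivity)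
    _ = log (1 + kN ρ * δ ^ 2 / (4 * Q)) / log (1 / Q) / δ ^ 2 := by
        field_simp

/-- The fixed point lower bound of the multiplier, in exact form. -/
lemma mDn_lo {R2 P1 P2 Q1 Q2 : ℕ} (hR : R2 < DR) (hP1 : 0 < P1) (hP : P1 ≤ P2) (hP2 : P2 ≤ DP)
    (hQ : Q1 ≤ Q2) (hQ2 : Q2 < DP) (hs : P1 + Q1 < DP) :
    Lo (log (1 + kN ((R2 : ℝ) / DR) * (1 - (P1 : ℝ) / DP - (Q1 : ℝ) / DP) ^ 2
          / (4 * ((P2 : ℝ) / DP * (1 - (Q1 : ℝ) / DP))))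
        / ((1 - (P1 : ℝ) / DP - (Q1 : ℝ) / DP) ^ 2 * log (1 / ((P1 : ℝ) / DP * (1 - (Q2 : ℝ) / DP)))))
      (mDn R2 P1 P2 Q1 Q2) := by
  have hD : (0 : ℝ) < (DP : ℝ) := by
    rw [DP_cast]
    norm_num
  have hDR : (0 : ℝ) < (DR : ℝ) := by
    rw [DR_cast]
    norm_num
  have hP1r : (0 : ℝ) < (P1 : ℝ) := by exact_mod_cast hP1
  have hP2r : (0 : ℝ) < (P2 : ℝ) := by
    have : 0 < P2 := lt_of_lt_of_le hP1 hP
    exact_mod_cast this
  have hQ2r : (Q2 : ℝ) < DP := by exact_mod_cast hQ2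
  have hQ1r : (Q1 : ℝ) ≤ Q2 := by exact_mod_cast hQ
  have hsr : (P1 : ℝ) + Q1 < DP := by exact_mod_cast hs
  have hQ0r : (0 : ℝ) ≤ (Q1 : ℝ) := Nat.cast_nonneg _
  have hQ20r : (0 : ℝ) ≤ (Q2 : ℝ) := Nat.cast_nonneg _
  have hQ1D : Q1 ≤ DP := by omega
  have hQ2D : Q2 ≤ DP := hQ2.le
  have hP1D : P1 ≤ DP := by omega
  -- the natural numbers
  have hqx : (qxNum P2 Q1 : ℝ) = (P2 : ℝ) * ((DP : ℝ) - Q1) := by
    unfold qxNum
    rw [cast_natMul, cast_natSub hQ1D]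
  have hqx0 : 0 < qxNum P2 Q1 := by
    unfold qxNum
    show 0 < P2 * (DP - Q1)
    apply Nat.mul_pos (lt_of_lt_of_le hP1 hP)
    omega
  have hD1 : Nat.sub P1.succ 1 = P1 := rfl
  have hd1 : ((Nat.sub (Nat.sub DP P1) Q1 : ℕ) : ℝ) = (DP : ℝ) - P1 - Q1 := by
    have h1 : Q1 ≤ Nat.sub DP P1 := by
      show Q1 ≤ DP - P1
      omega
    rw [cast_natSub h1, cast_natSub hP1D]
  have hR2 : Nat.mul R2 R2 ≤ 4294967296 := by
    have h : R2 < 65536 := hR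
    show R2 * R2 ≤ 4294967296
    nlinarith
  have hk : ((Nat.sub 4294967296 (Nat.mul R2 R2) : ℕ) : ℝ) = 4294967296 - (R2 : ℝ) * R2 := by
    rw [cast_natSub hR2, cast_natMul]
    norm_num
  have hd10 : (0 : ℝ) < (DP : ℝ) - P1 - Q1 := by linarith
  have hdpos : 0 < Nat.sub (Nat.sub DP P1) Q1 := by
    show 0 < DP - P1 - Q1
    omega
  have hQnr0 : 0 < (P1 : ℝ) / DP * (1 - (Q2 : ℝ) / DP) := by
    apply mul_pos (by positivity)
    rw [sub_pos, div_lt_one hD]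
    exact hQ2r
  have hQnr1 : (P1 : ℝ) / DP * (1 - (Q2 : ℝ) / DP) < 1 := by
    have h1 : (P1 : ℝ) / DP < 1 := by
      rw [div_lt_one hD]
      linarith
    have h2 : 1 - (Q2 : ℝ) / DP ≤ 1 := by
      have : 0 ≤ (Q2 : ℝ) / DP := by positivity
      linarith
    have h3 : 0 < (P1 : ℝ) / DP := by positivity
    nlinarith
  have hlogpos : 0 < log (1 / ((P1 : ℝ) / DP * (1 - (Q2 : ℝ) / DP))) := by
    apply log_pos
    rw [lt_div_iff₀ hQnr0]
    linarith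
  unfold mDn
  refine Lo.div ?_ ?_ ?_ ?_
  · -- the numerator
    have hA : 0 < Nat.mul 4294967296 (Nat.mul 4 (qxNum P2 Q1)) := by
      show 0 < 4294967296 * (4 * qxNum P2 Q1)
      omega
    have h := logDn_le (a := Nat.add (Nat.mul 4294967296 (Nat.mul 4 (qxNum P2 Q1)))
        (Nat.mul (Nat.sub 4294967296 (Nat.mul R2 R2))
          (Nat.mul (Nat.sub (Nat.sub DP P1) Q1) (Nat.sub (Nat.sub DP P1) Q1))))
      (b := Nat.mul 4294967296 (Nat.mul 4 (qxNum P2 Q1))) hA (Nat.le_add_right _ _)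
    have e : 1 + kN ((R2 : ℝ) / DR) * (1 - (P1 : ℝ) / DP - (Q1 : ℝ) / DP) ^ 2
          / (4 * ((P2 : ℝ) / DP * (1 - (Q1 : ℝ) / DP)))
        = ((Nat.add (Nat.mul 4294967296 (Nat.mul 4 (qxNum P2 Q1)))
        (Nat.mul (Nat.sub 4294967296 (Nat.mul R2 R2))
          (Nat.mul (Nat.sub (Nat.sub DP P1) Q1) (Nat.sub (Nat.sub DP P1) Q1))) : ℕ) : ℝ)
          / ((Nat.mul 4294967296 (Nat.mul 4 (qxNum P2 Q1)) : ℕ) : ℝ) := by
      rw [cast_natAdd, cast_natMul, cast_natMul, cast_natMul, cast_natMul, hqx, hk, hd1]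
      unfold kN
      rw [DR_cast]
      have hQ1' : (0 : ℝ) < (DP : ℝ) - Q1 := by linarith
      push_cast
      rw [← sub_pos] at hQ1'
      have e1 : 1 - (Q1 : ℝ) / DP = ((DP : ℝ) - Q1) / DP := by
        field_simp
      have e2 : 1 - (P1 : ℝ) / DP - (Q1 : ℝ) / DP = ((DP : ℝ) - P1 - Q1) / DP := by
        field_simp
      have hQ1'' : (DP : ℝ) - Q1 ≠ 0 := by linarith
      rw [e1, e2]
      field_simp
      ring
    rw [e]
    exact h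
  · -- the denominator
    have hq : 0 < Nat.mul P1 (Nat.sub DP Q2) := by
      show 0 < P1 * (DP - Q2)
      apply Nat.mul_pos hP1
      omega
    have hqle : Nat.mul P1 (Nat.sub DP Q2) ≤ DPP := by
      show P1 * (DP - Q2) ≤ DPP
      have h1 : DP - Q2 ≤ DP := Nat.sub_le _ _
      have h2 : P1 * (DP - Q2) ≤ DP * DP := Nat.mul_le_mul hP1D h1
      exact h2
    have h := le_logUp hq hqle
    have e : 1 / ((P1 : ℝ) / DP * (1 - (Q2 : ℝ) / DP))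
        = ((DPP : ℕ) : ℝ) / ((Nat.mul P1 (Nat.sub DP Q2) : ℕ) : ℝ) := by
      rw [cast_natMul, cast_natSub hQ2D, DPP_cast, DP_cast]
      rw [DP_cast] at hQ2r
      have hQ1' : (4294967296 : ℝ) - Q2 ≠ 0 := by linarith
      have e1 : 1 - (Q2 : ℝ) / 4294967296 = ((4294967296 : ℝ) - Q2) / 4294967296 := by
        field_simp
      rw [e1]
      field_simp
      ring
    rw [e]
    refine Hi.mul (hi_of_eq ?_) h (sq_nonneg _) ?_
    · rw [cast_natMul, hd1, FS_cast, DP_cast]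
      field_simp
      ring
    · rw [← e]
      exact hlogpos.le
  · have hδ : 0 < 1 - (P1 : ℝ) / DP - (Q1 : ℝ) / DP := by
      have e2 : 1 - (P1 : ℝ) / DP - (Q1 : ℝ) / DP = ((DP : ℝ) - P1 - Q1) / DP := by
        field_simp
      rw [e2]
      positivity
    positivity
  · apply log_nonneg
    have hk0 : 0 ≤ kN ((R2 : ℝ) / DR) := by
      unfold kN
      have : (R2 : ℝ) < DR := by exact_mod_cast hR
      have h1 : (R2 : ℝ) / DR ≤ 1 := (div_lt_one hDR).mpr this |>.le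
      have h0 : 0 ≤ (R2 : ℝ) / DR := by positivity
      nlinarith
    have hq1 : 0 < 1 - (Q1 : ℝ) / DP := by
      rw [sub_pos, div_lt_one hD]
      linarith
    have : 0 ≤ kN ((R2 : ℝ) / DR) * (1 - (P1 : ℝ) / DP - (Q1 : ℝ) / DP) ^ 2
          / (4 * ((P2 : ℝ) / DP * (1 - (Q1 : ℝ) / DP))) := by positivity
    linarith

/-! ### The cell without the term `R̃` -/

/-- What the side conditions of a D-cell say. -/
lemma dside_spec {R1 R2 P1 P2 Q1 Q2 : ℕ} (h : dside R1 R2 P1 P2 Q1 Q2 = true) :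
    R1 ≤ R2 ∧ R2 < DR ∧ 0 < R2 ∧ 0 < P1 ∧ P1 ≤ P2 ∧ Q1 ≤ Q2 ∧ P2 ≤ DP ∧ P1 + Q1 < DP ∧ Q2 < DP := by
  have h1 := and_spec h
  have h2 := and_spec h1.2
  have h3 := and_spec h2.2
  have h4 := and_spec h3.2
  have h5 := and_spec h4.2
  have h6 := and_spec h5.2
  have h7 := and_spec h6.2
  have h8 := and_spec h7.2
  exact ⟨ble_spec h1.1, blt_spec h2.1, blt_spec h3.1, blt_spec h4.1, ble_spec h5.1, ble_spec h6.1,
    ble_spec h7.1, blt_spec h8.1, blt_spec h8.2⟩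

/-- The common bounds on a D-cell: `θ ≤ X` and `X ≤ (ℳ/δ²) U` are what the two tests use. -/
lemma dcell_bounds {R1 R2 P1 P2 Q1 Q2 : ℕ} {ρ p q : ℝ} (hd : dside R1 R2 P1 P2 Q1 Q2 = true)
    (hρ1 : (R1 : ℝ) / DR ≤ ρ) (hρ2 : ρ ≤ (R2 : ℝ) / DR) (hρ0 : 0 < ρ)
    (hp1 : (P1 : ℝ) / DP ≤ p) (hp2 : p ≤ (P2 : ℝ) / DP) (hq1 : (Q1 : ℝ) / DP ≤ q)
    (hq2 : q ≤ (Q2 : ℝ) / DP) (hq0 : 0 < q) (hs : p + q < 1) :
    0 < ρ ∧ ρ < 1 ∧ Hi (thT ρ) (thUp R1) ∧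
      Lo (MMT ρ (1 - p) q / (1 - p - q) ^ 2 * UT ρ (1 - p) q)
        (mulDn (mDn R2 P1 P2 Q1 Q2) (uDn (thUp R1) P1 P2 Q1 Q2)) := by
  obtain ⟨h12, hR2, h0R, hP1, hP, hQ, hP2, hPQ, hQ2⟩ := dside_spec hd
  have hD : (0 : ℝ) < (DP : ℝ) := by
    rw [DP_cast]
    norm_num
  have hDR : (0 : ℝ) < (DR : ℝ) := by
    rw [DR_cast]
    norm_num
  have hρ₂1 : (R2 : ℝ) / DR < 1 := by
    rw [div_lt_one hDR]
    exact_mod_cast hR2
  have hρ1' : ρ < 1 := lt_of_le_of_lt hρ2 hρ₂1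
  have hp₁ : 0 < (P1 : ℝ) / DP := by
    have : (0 : ℝ) < P1 := by exact_mod_cast hP1
    positivity
  have hq₂ : (Q2 : ℝ) / DP < 1 := by
    rw [div_lt_one hD]
    exact_mod_cast hQ2
  have hM := dl_MMT_cell hρ0 hρ2 hρ₂1 hp1 hp2 hq1 hq2 hq0 hs hp₁ hq₂
  have hMl : Lo (MMT ρ (1 - p) q / (1 - p - q) ^ 2) (mDn R2 P1 P2 Q1 Q2) :=
    Lo.mono hM (mDn_lo hR2 hP1 hP hP2 hQ hQ2 hPQ)
  have hθ : Hi (thT ρ) (thUp R1) := thT_hi hρ1 hρ0 hρ1' (lt_of_le_of_lt h12 hR2)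
  have hU := UT_lo (th := thUp R1) hρ0 hρ1' hθ hp1 hp2 hq1 hq2 (le_trans hP hP2) hP2 (by omega) hQ2.le
    (by linarith) (by linarith) hq0.le (by linarith)
  exact ⟨hρ0, hρ1', hθ, Lo.mul hMl hU⟩

/-- Soundness of the D-cell test without the term `R̃`. -/
theorem dleafB_sound {S0 M1 R1 R2 P1 P2 Q1 Q2 : ℕ} (h : dleafB R1 R2 P1 P2 Q1 Q2 = true) :
    CovH S0 M1 R1 R2 P1 P2 Q1 Q2 := by
  have hs := and_spec h
  have hchk : thUp R1 ≤ mulDn (mDn R2 P1 P2 Q1 Q2) (uDn (thUp R1) P1 P2 Q1 Q2) := ble_spec hs.2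
  intro ρ p q hρ1 hρ2 hρ0 hp1 hp2 hq1 hq2 hq0 _hqp hsum _ _
  obtain ⟨hρ0', hρ1', hθ, hL⟩ := dcell_bounds hs.1 hρ1 hρ2 hρ0 hp1 hp2 hq1 hq2 hq0 hsum
  obtain ⟨_, _, _, hP1, _, _, _, _, _⟩ := dside_spec hs.1
  have hD : (0 : ℝ) < (DP : ℝ) := by
    rw [DP_cast]
    norm_num
  have hp₁ : 0 < (P1 : ℝ) / DP := by
    have : (0 : ℝ) < P1 := by exact_mod_cast hP1
    positivity
  have hp0 : 0 < p := lt_of_lt_of_le hp₁ hp1
  have hR := RT_nonneg (a₀ := 1 - p) (a₁ := q) hρ0 hρ1' (by linarith) (by linarith) hq0.le (by linarith)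
  rw [TT_regular hρ0 hρ1']
  apply mul_nonneg (by positivity)
  have hS := FS_pos
  have hδ : 0 < 1 - p - q := by linarith
  have hle : thT ρ ≤ MMT ρ (1 - p) q / (1 - p - q) ^ 2 * UT ρ (1 - p) q := by
    unfold Lo at hL
    unfold Hi at hθ
    have hc : ((thUp R1 : ℕ) : ℝ) ≤ ((mulDn (mDn R2 P1 P2 Q1 Q2) (uDn (thUp R1) P1 P2 Q1 Q2) : ℕ) : ℝ) := by
      exact_mod_cast hchk
    have := div_le_div_of_nonneg_right hc hS.le
    linarith
  have e : (1 - p - q) ^ 2 * (MMT ρ (1 - p) q / (1 - p - q) ^ 2 * UT ρ (1 - p) q)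
      = MMT ρ (1 - p) q * UT ρ (1 - p) q := by
    field_simp
  have h3 := mul_le_mul_of_nonneg_left hle (sq_nonneg (1 - p - q))
  rw [e] at h3
  have e2 : 1 - p - q = 1 - p - q := rfl
  nlinarith

/-! ### The term `R̃` on a cell -/

lemma dl_hasSum_GP_one {y d : ℝ} (hd : 0 ≤ d) (hdy : d < y) :
    HasSum (fun n : ℕ => 1 / ((2 * (n : ℝ) + 2) * (2 * (n : ℝ) + 1)) * (y * (d / y) ^ (2 * n + 2)))
      (GP y d) := by
  have hy : 0 < y := lt_of_le_of_lt hd hdy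
  have hz0 : 0 ≤ d / y := by positivity
  have hz1 : d / y < 1 := by rwa [div_lt_one hy]
  have hz : |d / y| < 1 := by rwa [abs_of_nonneg hz0]
  have e : GP y d = y * Xi (d / y) := by
    rw [Xi_eq (by linarith) hz1]
    unfold GP
    have e1 : 1 + d / y = (y + d) / y := by field_simp
    have e2 : 1 - d / y = (y - d) / y := by field_simp
    rw [e1, e2, log_div (by linarith) hy.ne', log_div (by linarith) hy.ne']
    field_simp
    ring
  have h := (hasSum_Xi hz).mul_left y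
  rw [← e] at h
  refine hasSum_of_eq h (fun n => ?_) rfl
  ring

/-- `R̃` in terms of `G`. -/
lemma dl_RT_eq_GP {ρ : ℝ} (m e : ℝ) :
    RT ρ (m + e) (m - e)
      = (GP m e + GP (1 - m) e) - (GP m (ρ * e) + GP (1 - m) (ρ * e)) / ρ ^ 2 := by
  have h1 := Psi_eq_GP ρ (m + e) (m - e)
  have h2 := Psi_eq_GP 1 (m + e) (m - e)
  have e0 : (m + e + (m - e)) / 2 = m := by ring
  have e1 : ρ * (m + e - (m - e)) / 2 = ρ * e := by ring
  have e2 : 1 * (m + e - (m - e)) / 2 = e := by ring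
  rw [e0, e1] at h1
  rw [e0, e2] at h2
  have h3 : Psi 1 (m + e) (m - e) = (binEntropy (m + e) + binEntropy (m - e)) / 2 := by
    unfold Psi
    rw [e0, e2]
  unfold RT
  rw [e0, h1, ← h3, h2]
  ring

/-- The power series of `R̃`. -/
lemma hasSum_RT {ρ m e : ℝ} (h0 : 0 < ρ) (h1 : ρ < 1) (he : 0 ≤ e) (hem : e < m) (hem' : e < 1 - m) :
    HasSum (fun n : ℕ => (1 - ρ ^ (2 * n)) / ((2 * (n : ℝ) + 2) * (2 * (n : ℝ) + 1))
      * (m * (e / m) ^ (2 * n + 2) + (1 - m) * (e / (1 - m)) ^ (2 * n + 2)))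
      (RT ρ (m + e) (m - e)) := by
  rw [dl_RT_eq_GP, add_div]
  have h := ((dl_hasSum_GP_one he hem).add (dl_hasSum_GP_one he hem')).sub
    ((hasSum_GP h0 h1 he hem.le).add (hasSum_GP h0 h1 he hem'.le))
  refine hasSum_of_eq h (fun n => ?_) rfl
  ring

/-- The sum `x^(-k) + (1-x)^(-k)` decreases on `(0, 1/2]`. -/
lemma conv_sum (k : ℕ) {m m' : ℝ} (hm0 : 0 < m) (hm : m ≤ m') (hm' : m' ≤ 1 / 2) :
    (m' ^ k)⁻¹ + ((1 - m') ^ k)⁻¹ ≤ (m ^ k)⁻¹ + ((1 - m) ^ k)⁻¹ := by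
  rcases eq_or_lt_of_le (show m ≤ 1 / 2 by linarith) with h | h
  · have : m' = m := by linarith
    rw [this]
  have hc := convexOn_zpow (𝕜 := ℝ) (-(k : ℤ))
  have hb : 0 < 1 - 2 * m := by linarith
  set t := (m' - m) / (1 - 2 * m) with ht
  have ht0 : 0 ≤ t := div_nonneg (by linarith) hb.le
  have ht1 : t ≤ 1 := by
    rw [ht, div_le_one hb]
    linarith
  have e1 : (1 - t) * m + t * (1 - m) = m' := by
    have : t * (1 - 2 * m) = m' - m := by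
      rw [ht]
      exact div_mul_cancel₀ _ hb.ne'
    linarith
  have e2 : t * m + (1 - t) * (1 - m) = 1 - m' := by
    have : t * (1 - 2 * m) = m' - m := by
      rw [ht]
      exact div_mul_cancel₀ _ hb.ne'
    linarith
  have hm1 : m ∈ Set.Ioi (0 : ℝ) := hm0
  have hm2 : 1 - m ∈ Set.Ioi (0 : ℝ) := by
    simp only [Set.mem_Ioi]
    linarith
  have k1 := hc.2 hm1 hm2 (show 0 ≤ 1 - t by linarith) ht0 (by ring)
  have k2 := hc.2 hm1 hm2 ht0 (show 0 ≤ 1 - t by linarith) (by ring)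
  simp only [smul_eq_mul, e1, e2, zpow_neg, zpow_natCast] at k1 k2
  nlinarith

/-- A term of the series of `R̃`, divided by `(2e)²`. -/
lemma RT_term {y e : ℝ} (n : ℕ) (hy : 0 < y) (he : 0 < e) :
    y * (e / y) ^ (2 * n + 2) / (2 * e) ^ 2 = e ^ (2 * n) / 4 * (y ^ (2 * n + 1))⁻¹ := by
  rw [div_pow]
  have e1 : y ^ (2 * n + 2) = y ^ (2 * n + 1) * y := by ring
  have e2 : e ^ (2 * n + 2) = e ^ (2 * n) * e ^ 2 := by ring
  rw [e1, e2]
  field_simp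
  norm_num

/-- Monotonicity of `R̃/δ²` on a cell. -/
lemma dl_RT_cell {ρ ρ₂ m e m' e' : ℝ} (h0 : 0 < ρ) (h2 : ρ ≤ ρ₂) (h3 : ρ₂ < 1) (he' : 0 < e')
    (he : e' ≤ e) (hem : e < m) (hm : m ≤ m') (hm' : m' ≤ 1 / 2) :
    RT ρ₂ (m' + e') (m' - e') / (2 * e') ^ 2 ≤ RT ρ (m + e) (m - e) / (2 * e) ^ 2 := by
  have h1 : ρ < 1 := lt_of_le_of_lt h2 h3
  have h0₂ : 0 < ρ₂ := lt_of_lt_of_le h0 h2
  have he0 : 0 < e := lt_of_lt_of_le he' he
  have hm0 : 0 < m := by linarith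
  have hm'0 : 0 < m' := by linarith
  have S1 := (hasSum_RT h0₂ h3 he'.le (lt_of_le_of_lt he (lt_of_lt_of_le hem hm)) (by linarith)).div_const
    ((2 * e') ^ 2)
  have S2 := (hasSum_RT h0 h1 he0.le hem (by linarith)).div_const ((2 * e) ^ 2)
  refine hasSum_le (fun n => ?_) S1 S2
  have hc : 0 < (2 * (n : ℝ) + 2) * (2 * (n : ℝ) + 1) := by positivity
  have h1m : 0 < 1 - m := by linarith
  have h1m' : 0 < 1 - m' := by linarith
  have e1 : ∀ r y z : ℝ, 0 < y → 0 < 1 - y → 0 < z →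
      (1 - r ^ (2 * n)) / ((2 * (n : ℝ) + 2) * (2 * (n : ℝ) + 1))
        * (y * (z / y) ^ (2 * n + 2) + (1 - y) * (z / (1 - y)) ^ (2 * n + 2)) / (2 * z) ^ 2
      = (1 - r ^ (2 * n)) / ((2 * (n : ℝ) + 2) * (2 * (n : ℝ) + 1)) * (z ^ (2 * n) / 4)
        * ((y ^ (2 * n + 1))⁻¹ + ((1 - y) ^ (2 * n + 1))⁻¹) := by
    intro r y z hy hy' hz
    rw [mul_div_assoc, add_div, RT_term n hy hz, RT_term n hy' hz]
    ring
  rw [e1 _ _ _ hm'0 h1m' he', e1 _ _ _ hm0 h1m he0]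
  have hq1 : 1 - ρ₂ ^ (2 * n) ≤ 1 - ρ ^ (2 * n) := by
    have := pow_le_pow_left₀ h0.le h2 (2 * n)
    linarith
  have hq0 : 0 ≤ 1 - ρ₂ ^ (2 * n) := by
    have := pow_le_one₀ (n := 2 * n) h0₂.le h3.le
    linarith
  have hz : e' ^ (2 * n) / 4 ≤ e ^ (2 * n) / 4 := by
    have := pow_le_pow_left₀ he'.le he (2 * n)
    linarith
  have hF := conv_sum (2 * n + 1) hm0 hm hm'
  apply mul_le_mul _ hF (by positivity)
  · apply mul_nonneg _ (by positivity)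
    apply div_nonneg _ hc.le
    linarith
  apply mul_le_mul _ hz (by positivity)
  · apply div_nonneg _ hc.le
    linarith
  exact div_le_div_of_nonneg_right hq1 hc.le

/-! ### The fixed point bounds of `R̃` -/

lemma ent_xN {R2 Mh Dl : ℕ} (hR : R2 < DR) (hD : Mh + Dl ≤ DP2) :
    Lo (binEntropy ((Mh : ℝ) / DP2 + (R2 : ℝ) / DR * ((Dl : ℝ) / DP2)))
      (entDn (Nat.add (Nat.mul Mh DR) (Nat.mul R2 Dl)) DB) := by
  have hle : Nat.add (Nat.mul Mh DR) (Nat.mul R2 Dl) ≤ DB := by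
    show Mh * DR + R2 * Dl ≤ DB
    have h1 : R2 * Dl ≤ DR * Dl := Nat.mul_le_mul_right _ hR.le
    have h2 : Mh * DR + DR * Dl = (Mh + Dl) * DR := by ring
    have h3 : (Mh + Dl) * DR ≤ DP2 * DR := Nat.mul_le_mul_right _ hD
    have h4 : DP2 * DR = DB := by
      unfold DP2 DR DB
      norm_num
    omega
  have h := entDn_le (a := Nat.add (Nat.mul Mh DR) (Nat.mul R2 Dl)) (b := DB) (by unfold DB; norm_num) hle
  have e : (Mh : ℝ) / DP2 + (R2 : ℝ) / DR * ((Dl : ℝ) / DP2)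
      = ((Nat.add (Nat.mul Mh DR) (Nat.mul R2 Dl) : ℕ) : ℝ) / ((DB : ℕ) : ℝ) := by
    rw [cast_natAdd, cast_natMul, cast_natMul, DB_cast, DR_cast, DP2_cast]
    field_simp
    ring
  rw [e]
  exact h

lemma ent_yN {R2 Mh Dl : ℕ} (hR : R2 < DR) (hMh : Mh ≤ DP) (hDM : Dl ≤ Mh) :
    Lo (binEntropy ((Mh : ℝ) / DP2 - (R2 : ℝ) / DR * ((Dl : ℝ) / DP2)))
      (entDn (Nat.sub (Nat.mul Mh DR) (Nat.mul R2 Dl)) DB) := by
  have h0 : Nat.mul R2 Dl ≤ Nat.mul Mh DR := by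
    show R2 * Dl ≤ Mh * DR
    calc R2 * Dl ≤ DR * Mh := Nat.mul_le_mul hR.le hDM
      _ = Mh * DR := Nat.mul_comm _ _
  have hle : Nat.sub (Nat.mul Mh DR) (Nat.mul R2 Dl) ≤ DB := by
    have h1 : Nat.sub (Nat.mul Mh DR) (Nat.mul R2 Dl) ≤ Nat.mul Mh DR := Nat.sub_le _ _
    have h2 : Nat.mul Mh DR ≤ DB := by
      show Mh * DR ≤ DB
      have h3 : Mh * DR ≤ DP * DR := Nat.mul_le_mul_right _ hMh
      have h4 : DP * DR ≤ DB := by
        unfold DP DR DB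
        norm_num
      exact le_trans h3 h4
    exact le_trans h1 h2
  have h := entDn_le (a := Nat.sub (Nat.mul Mh DR) (Nat.mul R2 Dl)) (b := DB) (by unfold DB; norm_num) hle
  have e : (Mh : ℝ) / DP2 - (R2 : ℝ) / DR * ((Dl : ℝ) / DP2)
      = ((Nat.sub (Nat.mul Mh DR) (Nat.mul R2 Dl) : ℕ) : ℝ) / ((DB : ℕ) : ℝ) := by
    rw [cast_natSub h0, cast_natMul, cast_natMul, DB_cast, DR_cast, DP2_cast]
    field_simp
    ring
  rw [e]
  exact h

lemma Psi_nonneg {ρ u v : ℝ} (h0 : 0 ≤ ρ) (h1 : ρ ≤ 1) (hv : 0 ≤ v) (hvu : v ≤ u) (hu : u ≤ 1) :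
    0 ≤ Psi ρ u v := by
  unfold Psi
  have hd : ρ * (u - v) / 2 ≤ (u - v) / 2 := by nlinarith
  have hd0 : 0 ≤ ρ * (u - v) / 2 := by
    have : 0 ≤ u - v := by linarith
    positivity
  have k1 := binEntropy_nonneg (p := (u + v) / 2 + ρ * (u - v) / 2) (by linarith) (by linarith)
  have k2 := binEntropy_nonneg (p := (u + v) / 2 - ρ * (u - v) / 2) (by linarith) (by linarith)
  linarith

lemma rPos_lo {R2 Mh Dl : ℕ} (hR : R2 < DR) (hR0 : 0 < R2) (hMh : Mh ≤ DP) (hDM : Dl ≤ Mh)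
    (hD : Mh + Dl ≤ DP2) :
    Lo (Psi ((R2 : ℝ) / DR) ((Mh : ℝ) / DP2 + (Dl : ℝ) / DP2) ((Mh : ℝ) / DP2 - (Dl : ℝ) / DP2)
        / ((R2 : ℝ) / DR) ^ 2) (rPos R2 Mh Dl) := by
  have hDR : (0 : ℝ) < (DR : ℝ) := by
    rw [DR_cast]
    norm_num
  have hR0' : (0 : ℝ) < (R2 : ℝ) := by exact_mod_cast hR0
  have e0 : ((Mh : ℝ) / DP2 + (Dl : ℝ) / DP2 + ((Mh : ℝ) / DP2 - (Dl : ℝ) / DP2)) / 2 = (Mh : ℝ) / DP2 := by
    ring
  have e1 : (R2 : ℝ) / DR * ((Mh : ℝ) / DP2 + (Dl : ℝ) / DP2 - ((Mh : ℝ) / DP2 - (Dl : ℝ) / DP2)) / 2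
      = (R2 : ℝ) / DR * ((Dl : ℝ) / DP2) := by
    ring
  have hρ0 : 0 < (R2 : ℝ) / DR := by positivity
  have hρ1 : (R2 : ℝ) / DR < 1 := by
    rw [div_lt_one hDR]
    exact_mod_cast hR
  have hD2 : (0 : ℝ) < (DP2 : ℝ) := by
    rw [DP2_cast]
    norm_num
  have hv : 0 ≤ (Mh : ℝ) / DP2 - (Dl : ℝ) / DP2 := by
    have : (Dl : ℝ) ≤ Mh := by exact_mod_cast hDM
    have := div_le_div_of_nonneg_right this hD2.le
    linarith
  have hvu : (Mh : ℝ) / DP2 - (Dl : ℝ) / DP2 ≤ (Mh : ℝ) / DP2 + (Dl : ℝ) / DP2 := by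
    have : 0 ≤ (Dl : ℝ) / DP2 := by positivity
    linarith
  have hu : (Mh : ℝ) / DP2 + (Dl : ℝ) / DP2 ≤ 1 := by
    rw [← add_div, div_le_one hD2]
    exact_mod_cast hD
  unfold rPos
  refine Lo.div ?_ (tF_hi R2) (by positivity) ?_
  · unfold Psi
    rw [e0, e1]
    exact lo_half (Lo.add (ent_xN hR hD) (ent_yN hR hMh hDM))
  · exact Psi_nonneg hρ0.le hρ1.le hv hvu hu

lemma rNeg_hi {R2 Mh Dl : ℕ} (hR : R2 < DR) (hR0 : 0 < R2) (hMh : Mh ≤ DP2) (hDM : Dl ≤ Mh)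
    (hD : Mh + Dl ≤ DP2) :
    Hi (kN ((R2 : ℝ) / DR) * binEntropy ((Mh : ℝ) / DP2) / ((R2 : ℝ) / DR) ^ 2
        + (binEntropy ((Mh : ℝ) / DP2 + (Dl : ℝ) / DP2)
          + binEntropy ((Mh : ℝ) / DP2 - (Dl : ℝ) / DP2)) / 2) (rNeg R2 Mh Dl) := by
  have hDR : (0 : ℝ) < (DR : ℝ) := by
    rw [DR_cast]
    norm_num
  have hD2 : (0 : ℝ) < (DP2 : ℝ) := by
    rw [DP2_cast]
    norm_num
  have hD2' : 0 < DP2 := by
    unfold DP2
    norm_num
  have hR0' : (0 : ℝ) < (R2 : ℝ) := by exact_mod_cast hR0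
  have hρ0 : 0 < (R2 : ℝ) / DR := by positivity
  have hρ1 : (R2 : ℝ) / DR < 1 := by
    rw [div_lt_one hDR]
    exact_mod_cast hR
  have hm1 : (Mh : ℝ) / DP2 ≤ 1 := by
    rw [div_le_one hD2]
    exact_mod_cast hMh
  have hk := kN_pos hρ0 hρ1
  have hh : 0 ≤ binEntropy ((Mh : ℝ) / DP2) := binEntropy_nonneg (by positivity) hm1
  unfold rNeg
  refine Hi.add (Hi.div (Hi.mul (kF_hi hR) (le_entUp hD2' hMh) hk.le hh) (tF_lo R2) (tF_pos hR0)
    (by positivity)) (hi_half (Hi.add ?_ ?_))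
  · have h := le_entUp (a := Nat.add Mh Dl) (b := DP2) hD2' hD
    rw [cast_natAdd, add_div] at h
    exact h
  · have h := le_entUp (a := Nat.sub Mh Dl) (b := DP2) hD2' (le_trans (Nat.sub_le _ _) hMh)
    rw [cast_natSub hDM, sub_div] at h
    exact h

/-- `R̃` splits into a positive and a negative part. -/
lemma RT_split {ρ : ℝ} (h0 : 0 < ρ) (u v : ℝ) :
    RT ρ u v = Psi ρ u v / ρ ^ 2
      - (kN ρ * binEntropy ((u + v) / 2) / ρ ^ 2 + (binEntropy u + binEntropy v) / 2) := by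
  unfold RT kN
  field_simp
  ring

/-- The comparison in natural numbers gives the comparison of the real numbers. -/
lemma chk_generic {x y z w : ℝ} {A B T C : ℕ} (hP : Lo x A) (hN : Hi y B) (hθ : Hi z T) (hL : Lo w C)
    (h : Nat.add B T ≤ Nat.add A C) : y + z ≤ x + w := by
  have hS := FS_pos
  have hc : ((Nat.add B T : ℕ) : ℝ) ≤ ((Nat.add A C : ℕ) : ℝ) := Nat.cast_le.mpr h
  have hc' := div_le_div_of_nonneg_right hc hS.le
  rw [cast_natAdd, cast_natAdd, add_div, add_div] at hc'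
  unfold Lo at hP hL
  unfold Hi at hN hθ
  linarith

/-- The closing step. -/
lemma dleafA_close {ρ p q ρ₂ m' e' Ps Ng : ℝ} (hρ0 : 0 < ρ) (hρ1 : ρ < 1) (hδ : 0 < 1 - p - q)
    (hRc : RT ρ₂ (m' + e') (m' - e') / (2 * e') ^ 2 ≤ RT ρ (1 - p) q / (1 - p - q) ^ 2)
    (hRT : RT ρ₂ (m' + e') (m' - e') = Ps - Ng)
    (hc : Ng / (2 * e') ^ 2 + thT ρ ≤ Ps / (2 * e') ^ 2
      + MMT ρ (1 - p) q / (1 - p - q) ^ 2 * UT ρ (1 - p) q) :
    0 ≤ TT ρ (1 - p) q := by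
  have hmain : thT ρ ≤ RT ρ (1 - p) q / (1 - p - q) ^ 2
      + MMT ρ (1 - p) q / (1 - p - q) ^ 2 * UT ρ (1 - p) q := by
    have e1 : RT ρ₂ (m' + e') (m' - e') / (2 * e') ^ 2 = Ps / (2 * e') ^ 2 - Ng / (2 * e') ^ 2 := by
      rw [hRT, sub_div]
    rw [e1] at hRc
    linarith
  rw [TT_regular hρ0 hρ1]
  apply mul_nonneg (by positivity)
  have h3 := mul_le_mul_of_nonneg_left hmain (sq_nonneg (1 - p - q))
  have e3 : (1 - p - q) ^ 2 * (RT ρ (1 - p) q / (1 - p - q) ^ 2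
      + MMT ρ (1 - p) q / (1 - p - q) ^ 2 * UT ρ (1 - p) q)
      = RT ρ (1 - p) q + MMT ρ (1 - p) q * UT ρ (1 - p) q := by
    field_simp
  rw [e3] at h3
  have e5 : 1 - p - q = 1 - p - q := rfl
  nlinarith

/-- The core of the soundness of the test with `R̃`. -/
lemma dleafA_core {R1 R2 P1 P2 Q1 Q2 Mh Dl : ℕ} {ρ p q : ℝ} (hd : dside R1 R2 P1 P2 Q1 Q2 = true)
    (hchk : Nat.add (divUp (rNeg R2 Mh Dl) (Nat.mul Dl Dl)) (thUp R1)
      ≤ Nat.add (divDn (rPos R2 Mh Dl) (Nat.mul Dl Dl))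
        (mulDn (mDn R2 P1 P2 Q1 Q2) (uDn (thUp R1) P1 P2 Q1 Q2)))
    (hDl : 0 < Dl) (hMh : Mh ≤ DP)
    (hρ1 : (R1 : ℝ) / DR ≤ ρ) (hρ2 : ρ ≤ (R2 : ℝ) / DR) (hρ0 : 0 < ρ)
    (hp1 : (P1 : ℝ) / DP ≤ p) (hp2 : p ≤ (P2 : ℝ) / DP) (hq1 : (Q1 : ℝ) / DP ≤ q)
    (hq2 : q ≤ (Q2 : ℝ) / DP) (hq0 : 0 < q) (hs : p + q < 1)
    (hDe : (Dl : ℝ) / DP2 ≤ (1 - p - q) / 2) (hMm : (1 - p + q) / 2 ≤ (Mh : ℝ) / DP2) :
    0 ≤ TT ρ (1 - p) q := by
  obtain ⟨hρ0', hρ1', hθ, hL⟩ := dcell_bounds hd hρ1 hρ2 hρ0 hp1 hp2 hq1 hq2 hq0 hs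
  obtain ⟨_, hR2, h0R, _, _, _, _, _, _⟩ := dside_spec hd
  have hS := FS_pos
  have hDR : (0 : ℝ) < (DR : ℝ) := by
    rw [DR_cast]
    norm_num
  have hD2 : (0 : ℝ) < (DP2 : ℝ) := by
    rw [DP2_cast]
    norm_num
  have hR0' : (0 : ℝ) < (R2 : ℝ) := by exact_mod_cast h0R
  have hρ₂0 : 0 < (R2 : ℝ) / DR := by positivity
  have hρ₂1 : (R2 : ℝ) / DR < 1 := by
    rw [div_lt_one hDR]
    exact_mod_cast hR2
  have hDl' : (0 : ℝ) < (Dl : ℝ) := by exact_mod_cast hDl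
  set m' := (Mh : ℝ) / DP2 with hm'
  set e' := (Dl : ℝ) / DP2 with he'
  have he'0 : 0 < e' := by
    rw [he']
    positivity
  have hm'2 : m' ≤ 1 / 2 := by
    rw [hm', DP2_cast]
    have : (Mh : ℝ) ≤ 4294967296 := by
      have h : (Mh : ℝ) ≤ (DP : ℝ) := by exact_mod_cast hMh
      rwa [DP_cast] at h
    rw [div_le_iff₀ (by norm_num)]
    linarith
  have hel : e' < m' := by linarith
  -- natural number facts
  have hDM : Dl ≤ Mh := by
    have h1 : (Dl : ℝ) / DP2 ≤ (Mh : ℝ) / DP2 := by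
      rw [← hm', ← he']
      exact hel.le
    have h2 : (Dl : ℝ) ≤ (Mh : ℝ) := (div_le_div_iff_of_pos_right hD2).mp h1
    exact_mod_cast h2
  have hMh2 : Mh ≤ DP2 := by
    have : DP ≤ DP2 := by
      unfold DP DP2
      norm_num
    omega
  have hsum : Mh + Dl ≤ DP2 := by
    have : 2 * DP = DP2 := by
      unfold DP DP2
      norm_num
    omega
  have hPos := rPos_lo hR2 h0R hMh hDM hsum
  have hNeg := rNeg_hi hR2 h0R hMh2 hDM hsum
  rw [← hm', ← he'] at hPos hNeg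
  -- the cell monotonicity
  set m := (1 - p + q) / 2 with hm
  set e := (1 - p - q) / 2 with he
  have hRc := dl_RT_cell hρ0 hρ2 hρ₂1 he'0 hDe (show e < m by rw [he, hm]; linarith) hMm hm'2
  have hmp : m + e = 1 - p := by rw [hm, he]; ring
  have hmq : m - e = q := by rw [hm, he]; ring
  rw [hmp, hmq] at hRc
  have h2e : 2 * e = 1 - p - q := by rw [he]; ring
  rw [h2e] at hRc
  have h2e' : (2 * e') ^ 2 = ((Nat.mul Dl Dl : ℕ) : ℝ) / FS := by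
    rw [he', cast_natMul, FS_cast, DP2_cast]
    field_simp
    ring
  have hdpos : 0 < (2 * e') ^ 2 := by positivity
  have hD2pos : 0 < Nat.mul Dl Dl := Nat.mul_pos hDl hDl
  -- the bounds divided by `d²`
  have hv : 0 ≤ m' - e' := by linarith
  have hu : m' + e' ≤ 1 := by linarith
  have hPsi0 := Psi_nonneg hρ₂0.le hρ₂1.le hv (show m' - e' ≤ m' + e' by linarith) hu
  have hP := Lo.div hPos (hi_of_eq h2e'.symm) hdpos (by positivity)
  have hN0 : 0 ≤ kN ((R2 : ℝ) / DR) * binEntropy m' / ((R2 : ℝ) / DR) ^ 2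
      + (binEntropy (m' + e') + binEntropy (m' - e')) / 2 := by
    have k0 := kN_pos hρ₂0 hρ₂1
    have k1 := binEntropy_nonneg (p := m') (by linarith) (by linarith)
    have k2 := binEntropy_nonneg (p := m' + e') (by linarith) hu
    have k3 := binEntropy_nonneg (p := m' - e') hv (by linarith)
    positivity
  have hN := Hi.div hNeg (lo_of_eq h2e'.symm) hD2pos hN0
  have hc' := chk_generic hP hN hθ hL hchk
  have hRT := RT_split (u := m' + e') (v := m' - e') hρ₂0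
  have e0 : (m' + e' + (m' - e')) / 2 = m' := by ring
  rw [e0] at hRT
  exact dleafA_close hρ0 hρ1' (by linarith) hRc hRT hc'

lemma nmin_spec (a b : ℕ) : nmin a b ≤ a ∧ nmin a b ≤ b ∧ (nmin a b = a ∨ nmin a b = b) := by
  unfold nmin
  cases h : Nat.ble a b
  · have hba : b ≤ a := by
      rcases Nat.le_total a b with hab | hba
      · have := Nat.ble_eq_true_of_le hab
        rw [h] at this
        exact absurd this (by decide)
      · exact hba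
    exact ⟨hba, le_refl _, Or.inr rfl⟩
  · exact ⟨le_refl _, ble_spec h, Or.inl rfl⟩

/-- Soundness of the D-cell test with the term `R̃`. -/
theorem dleafA_sound {S0 M1 R1 R2 P1 P2 Q1 Q2 : ℕ} (h : dleafA R1 R2 P1 P2 Q1 Q2 = true) :
    CovH S0 M1 R1 R2 P1 P2 Q1 Q2 := by
  have h1 := and_spec h
  have h2 := and_spec h1.2
  have h3 := and_spec h2.2
  have hDl : 0 < DL P2 Q2 := blt_spec h2.1
  have hPQ : Nat.add P2 Q2 ≤ DP := ble_spec h3.1
  have hchk := ble_spec h3.2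
  intro ρ p q hρ1 hρ2 hρ0 hp1 hp2 hq1 hq2 hq0 hqp hsum _ _
  obtain ⟨_, _, _, _, _, _, hP2D, _, hQ2D⟩ := dside_spec h1.1
  have hPQ' : P2 + Q2 ≤ DP := hPQ
  have hD : (0 : ℝ) < (DP : ℝ) := by
    rw [DP_cast]
    norm_num
  obtain ⟨hm1, hm2, hm3⟩ := nmin_spec (MM P1 Q2) DP
  have hD2e : (DP2 : ℝ) = 2 * (DP : ℝ) := by
    rw [DP2_cast, DP_cast]
    norm_num
  have hPr : (P2 : ℝ) + Q2 ≤ DP := by exact_mod_cast hPQ'
  have hDL : ((DL P2 Q2 : ℕ) : ℝ) = (DP : ℝ) - P2 - Q2 := by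
    unfold DL
    have h1 : Q2 ≤ Nat.sub DP P2 := by
      show Q2 ≤ DP - P2
      omega
    rw [cast_natSub h1, cast_natSub hP2D]
  refine dleafA_core (Mh := nmin (MM P1 Q2) DP) (Dl := DL P2 Q2) h1.1 hchk hDl hm2 hρ1 hρ2 hρ0 hp1 hp2
    hq1 hq2 hq0 hsum ?_ ?_
  · rw [hDL, hD2e]
    have e1 : ((DP : ℝ) - P2 - Q2) / (2 * DP) = (1 - (P2 : ℝ) / DP - (Q2 : ℝ) / DP) / 2 := by
      field_simp
    rw [e1]
    linarith
  · rcases hm3 with hm3 | hm3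
    · rw [hm3, hD2e]
      have hP1D : P1 ≤ DP := by
        obtain ⟨_, _, _, _, hP12, _, _, _, _⟩ := dside_spec h1.1
        exact le_trans hP12 hP2D
      have hMM : ((MM P1 Q2 : ℕ) : ℝ) = (DP : ℝ) - P1 + Q2 := by
        unfold MM
        rw [cast_natAdd, cast_natSub hP1D]
      rw [hMM]
      have e1 : ((DP : ℝ) - P1 + Q2) / (2 * DP) = (1 - (P1 : ℝ) / DP + (Q2 : ℝ) / DP) / 2 := by
        field_simp
      rw [e1]
      linarith
    · rw [hm3, hD2e]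
      have e1 : (DP : ℝ) / (2 * DP) = 1 / 2 := by
        field_simp
      rw [e1]
      linarith

end Vale.Agent.P322
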