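import Vale.Agent.P322.PPlane

/-!
The envelope `W(a) = k h(a) + Θ 4a(1-a)` of the relaxed induction for the Courtade-Kumar
inequality, and the two-point closure function `TT` (tangent plane at the point itself).
Here `ρ = 1 - 2ε`, `k = 1 - ρ²`, `Θ = h(ε) - k log 2`, all entropies in nats.
-/

namespace Vale.Agent.P322

open Real

/-- The entropy of the noise `ε = (1-ρ)/2`. -/
noncomputable def hN (ρ : ℝ) : ℝ := binEntropy ((1 - ρ) / 2)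

/-- `k = 1 - ρ² = 4ε(1-ε)`. -/
noncomputable def kN (ρ : ℝ) : ℝ := 1 - ρ ^ 2

/-- `Θ = h(ε) - k log 2`. -/
noncomputable def ThN (ρ : ℝ) : ℝ := hN ρ - kN ρ * log 2

/-- `w(a) = 4a(1-a)`. -/
noncomputable def wQ (a : ℝ) : ℝ := 4 * a * (1 - a)

/-- The envelope. -/
noncomputable def WW (ρ a : ℝ) : ℝ := kN ρ * binEntropy a + ThN ρ * wQ a

/-- The multiplier of the tangent plane at `(a₀,a₁)`:
`log((1-x)(1-y)) / log((1-a₀)(1-a₁))`, where `x, y` are the noised values. -/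
noncomputable def muT (ρ a₀ a₁ : ℝ) : ℝ :=
  log ((1 - ((a₀ + a₁) / 2 + ρ * (a₀ - a₁) / 2)) * (1 - ((a₀ + a₁) / 2 - ρ * (a₀ - a₁) / 2)))
    / log ((1 - a₀) * (1 - a₁))

/-- The closure function for the tangent plane at the point itself. -/
noncomputable def TT (ρ a₀ a₁ : ℝ) : ℝ :=
  Psi ρ a₀ a₁
    - muT ρ a₀ a₁ * ((binEntropy a₀ + binEntropy a₁) / 2 - (WW ρ a₀ + WW ρ a₁) / 2)
    - WW ρ ((a₀ + a₁) / 2)

/-- The closure statement at noise `ρ`. -/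
def TClosure (ρ : ℝ) : Prop :=
  ∀ a₀ a₁ : ℝ, 0 < a₁ → a₁ < a₀ → a₀ < 1 → a₀ + a₁ ≤ 1 → 0 ≤ TT ρ a₀ a₁

/-- `θ̃ = Θ/ρ² = log 2 - Ξ(ρ)/ρ²`. -/
noncomputable def thT (ρ : ℝ) : ℝ := log 2 - Xi ρ / ρ ^ 2

/-- The regular multiplier `ℳ = 1 - μ`. -/
noncomputable def MMT (ρ a₀ a₁ : ℝ) : ℝ := 1 - muT ρ a₀ a₁

/-- `U = (h(a₀)+h(a₁))/2 - θ̃ (w(a₀)+w(a₁))/2`. -/
noncomputable def UT (ρ a₀ a₁ : ℝ) : ℝ :=
  (binEntropy a₀ + binEntropy a₁) / 2 - thT ρ * ((wQ a₀ + wQ a₁) / 2)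

/-- `R̃ = J₀ - (h(m) - Ψ)/ρ²`, `J₀ = h(m) - (h(a₀)+h(a₁))/2`. -/
noncomputable def RT (ρ a₀ a₁ : ℝ) : ℝ :=
  (binEntropy ((a₀ + a₁) / 2) - (binEntropy a₀ + binEntropy a₁) / 2)
    - (binEntropy ((a₀ + a₁) / 2) - Psi ρ a₀ a₁) / ρ ^ 2

/-- `A = (Ψ - W(m))/ρ²`, in the corner coordinates `a₀ = 1-p`, `a₁ = q`. -/
noncomputable def AT (ρ p q : ℝ) : ℝ :=
  (Psi ρ (1 - p) q - WW ρ ((1 - p + q) / 2)) / ρ ^ 2

/-- A general (affine in `(m,q)`) plane below `Ψ` that closes the induction at a pair of means,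
for an arbitrary envelope `E`. -/
def PlaneClose (ρ : ℝ) (E : ℝ → ℝ) (a₀ a₁ : ℝ) : Prop :=
  ∃ c κ ν μ : ℝ, 0 ≤ μ ∧
    (∀ u v : ℝ, 0 < u → u < 1 → 0 < v → v < 1 →
      c + κ * ((u + v) / 2) + ν * (u - v) + μ * ((binEntropy u + binEntropy v) / 2) ≤ Psi ρ u v) ∧
    E ((a₀ + a₁) / 2) ≤ c + κ * ((a₀ + a₁) / 2) + ν * (a₀ - a₁) + μ * ((E a₀ + E a₁) / 2)

end Vale.Agent.P322
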