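import Vale.Agent.P322.HData.S0
import Vale.Agent.P322.HData.S1
import Vale.Agent.P322.HData.S2
import Vale.Agent.P322.HData.S3
import Vale.Agent.P322.HData.S4
import Vale.Agent.P322.HData.S5
import Vale.Agent.P322.HData.S6
import Vale.Agent.P322.HData.S7
import Vale.Agent.P322.HData.S8
import Vale.Agent.P322.HData.S9
import Vale.Agent.P322.HData.S10

/-!
The closure of the relaxed induction for all noise `ρ ≤ 0.73`, and the Courtade-Kumar inequality
for `ε ≥ 0.135`.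
-/

namespace Vale.Agent.P322

open Real

theorem closure_high {ρ : ℝ} (h0 : 0 < ρ) (h1 : ρ ≤ ((47842 : ℕ) : ℝ) / DR) : TClosure ρ := by
  rcases le_total ρ (((16384 : ℕ) : ℝ) / DR) with a1 | a1
  · exact hslab0 (by simp only [Nat.cast_zero, zero_div]; exact h0.le) a1 h0
  rcases le_total ρ ((26214 : ℕ) / DR : ℝ) with a2 | a2
  · exact hslab1 a1 a2 h0
  rcases le_total ρ ((32768 : ℕ) / DR : ℝ) with a3 | a3
  · exact hslab2 a2 a3 h0
  rcases le_total ρ ((36045 : ℕ) / DR : ℝ) with a4 | a4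
  · exact hslab3 a3 a4 h0
  rcases le_total ρ ((39322 : ℕ) / DR : ℝ) with a5 | a5
  · exact hslab4 a4 a5 h0
  rcases le_total ρ ((40960 : ℕ) / DR : ℝ) with a6 | a6
  · exact hslab5 a5 a6 h0
  rcases le_total ρ ((42599 : ℕ) / DR : ℝ) with a7 | a7
  · exact hslab6 a6 a7 h0
  rcases le_total ρ ((45056 : ℕ) / DR : ℝ) with a8 | a8
  · exact hslab7 a7 a8 h0
  rcases le_total ρ ((45876 : ℕ) / DR : ℝ) with a9 | a9
  · exact hslab8 a8 a9 h0
  rcases le_total ρ ((47186 : ℕ) / DR : ℝ) with a10 | a10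
  · exact hslab9 a9 a10 h0
  exact hslab10 a10 h1 h0

/-- The Courtade-Kumar inequality for all Boolean functions at noise `ε ≥ 0.135`. -/
theorem exact_high {ε : ℝ} (h0 : 27 / 200 ≤ ε) (h1 : ε ≤ 1 / 2) {n : ℕ} (f : Cube n → Bool) :
    mutualInfo ε f ≤ 1 - h2 ε := by
  rcases eq_or_lt_of_le h1 with h | h
  · rw [h]
    exact ck_half f
  have hρ0 : 0 < 1 - 2 * ε := by linarith
  have hρ1 : 1 - 2 * ε < 1 := by linarith
  have hle : 1 - 2 * ε ≤ ((47842 : ℕ) : ℝ) / DR := by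
    rw [DR_cast]
    norm_num
    linarith
  have hsize : 2 * ThN (1 - 2 * ε) ≤ (1 - 2 * ε) ^ 2 := by
    rw [ThN_eq hρ0 hρ1]
    have h2 := thT_le hρ0 hρ1
    have h3 := log_two_sub_half_lt
    have h4 : 0 ≤ (1 - 2 * ε) ^ 2 := sq_nonneg _
    nlinarith
  have key := ck_of_TClosure hρ0 hρ1 hsize (closure_high hρ0 hle) f
  have e : (1 - (1 - 2 * ε)) / 2 = ε := by ring
  rwa [e] at key

end Vale.Agent.P322
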