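import Vale.Agent.P322.HNum

/-!
Numeric functions for the cells of the high noise regime.  Grid: `p = P/2^32`, `q = Q/2^32`,
`ρ = R/2^16`.  All numbers are natural numbers in fixed point with scale `2^64`.
-/

namespace Vale.Agent.P322

/-- The denominator of `p` and `q`. -/
def DP : ℕ := 4294967296
/-- The denominator of `ρ`. -/
def DR : ℕ := 65536
/-- `2 DP`. -/
def DP2 : ℕ := 8589934592
/-- `2 DP DR`. -/
def DB : ℕ := 562949953421312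
/-- `DP^2`, equal to the fixed point scale. -/
def DPP : ℕ := 18446744073709551616

/-- `(a/2)` rounded down. -/
def halfDn (a : ℕ) : ℕ := Nat.shiftRight a 1
/-- `(a/2)` rounded up. -/
def halfUp (a : ℕ) : ℕ := Nat.succ (Nat.shiftRight a 1)

/-- The minimum. -/
def nmin (a b : ℕ) : ℕ := cond (Nat.ble a b) a b
/-- The maximum. -/
def nmax (a b : ℕ) : ℕ := cond (Nat.ble a b) b a

/-- `ρ²` in fixed point (exact). -/
def tF (R : ℕ) : ℕ := Nat.shiftLeft (Nat.mul R R) 32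
/-- `1 - ρ²` in fixed point (exact). -/
def kF (R : ℕ) : ℕ := Nat.shiftLeft (Nat.sub 4294967296 (Nat.mul R R)) 32
/-- `x = P/2^32` in fixed point (exact). -/
def xF (P : ℕ) : ℕ := Nat.shiftLeft P 32
/-- `1 - P/2^32` in fixed point (exact). -/
def cF (P : ℕ) : ℕ := Nat.shiftLeft (Nat.sub DP P) 32
/-- `w(P/2^32) = 4x(1-x)` in fixed point (exact). -/
def wF (P : ℕ) : ℕ := Nat.mul 4 (Nat.mul P (Nat.sub DP P))

/-- `2^33 m` where `m = (1-p+q)/2`. -/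
def MM (P Q : ℕ) : ℕ := Nat.add (Nat.sub DP P) Q
/-- `2^32 δ` where `δ = 1-p-q`. -/
def DL (P Q : ℕ) : ℕ := Nat.sub (Nat.sub DP P) Q
/-- `w(m)` in fixed point (exact). -/
def wM (P Q : ℕ) : ℕ := Nat.mul (MM P Q) (Nat.sub DP2 (MM P Q))

/-- Numerator of `m + ρδ/2` over `DB`. -/
def xN (R P Q : ℕ) : ℕ := Nat.add (Nat.mul (MM P Q) DR) (Nat.mul R (DL P Q))
/-- Numerator of `m - ρδ/2` over `DB`. -/
def yN (R P Q : ℕ) : ℕ := Nat.sub (Nat.mul (MM P Q) DR) (Nat.mul R (DL P Q))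

/-- Lower bound for `Ψ ρ (1-p) q`. -/
def psiDn (R P Q : ℕ) : ℕ := halfDn (Nat.add (entDn (xN R P Q) DB) (entDn (yN R P Q) DB))

/-- Upper bound for `h(ε)`, `ε = (1-ρ)/2`. -/
def hnUp (R : ℕ) : ℕ := entUp (Nat.sub DR R) 131072
/-- Lower bound for `h(ε)`, `ε = (1-ρ)/2`. -/
def hnDn (R : ℕ) : ℕ := entDn (Nat.sub DR R) 131072

/-- Upper bound for `Θ = h(ε) - (1-ρ²) log 2`. -/
def ThUp (R : ℕ) : ℕ := Nat.sub (hnUp R) (mulDn (kF R) L2D)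
/-- Lower bound for `Θ`. -/
def ThDn (R : ℕ) : ℕ := Nat.sub (hnDn R) (mulUp (kF R) L2U)

/-- Upper bound for `θ̃(ρ) = Θ/ρ²` at `ρ = R/2^16`, and for `log 2 - 1/2` when `R = 0`. -/
def thUp (R : ℕ) : ℕ :=
  cond (Nat.beq R 0) (Nat.sub L2U 9223372036854775808) (divUp (ThUp R) (tF R))
/-- Lower bound for `θ̃(ρ)`, `R > 0`. -/
def thDn (R : ℕ) : ℕ := divDn (ThDn R) (tF R)

/-- Upper bound for `W(m)`. -/
def wwUp (R Th P Q : ℕ) : ℕ :=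
  Nat.add (mulUp (kF R) (entUp (MM P Q) DP2)) (mulUp Th (wM P Q))

/-! ### The function `A` at a vertex -/

/-- Positive part of `A` at a vertex, for `R > 0`: lower bound for `Ψ/ρ²`. -/
def aPos1 (R P Q : ℕ) : ℕ := divDn (psiDn R P Q) (tF R)
/-- Negative part of `A` at a vertex, for `R > 0`: upper bound for `W(m)/ρ²`. -/
def aNeg1 (R Th P Q : ℕ) : ℕ := divUp (wwUp R Th P Q) (tF R)

/-- Positive part of `A0` at a vertex: `h(m) + (1-u²)/2`. -/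
def aPos0 (P Q : ℕ) : ℕ := Nat.add (entDn (MM P Q) DP2) (halfDn (wM P Q))
/-- Negative part of `A0` at a vertex: `δ²/(2(1-u²)) + log 2 (1-u²)`. -/
def aNeg0 (P Q : ℕ) : ℕ :=
  Nat.add (divUp (halfUp (Nat.mul (DL P Q) (DL P Q))) (wM P Q)) (mulUp L2U (wM P Q))

/-- Positive part of the function `A` of the cell. -/
def aPos (R P Q : ℕ) : ℕ := cond (Nat.beq R 0) (aPos0 P Q) (aPos1 R P Q)
/-- Negative part of the function `A` of the cell. -/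
def aNeg (R Th P Q : ℕ) : ℕ := cond (Nat.beq R 0) (aNeg0 P Q) (aNeg1 R Th P Q)

/-- `(p-q)²` in fixed point (exact). -/
def uSq (P Q : ℕ) : ℕ :=
  Nat.mul (Nat.add (Nat.sub P Q) (Nat.sub Q P)) (Nat.add (Nat.sub P Q) (Nat.sub Q P))

/-- Upper bound of `x log(1/c) + (1-x) log(1/(1-c)) - θ w(x)`. -/
def vUp (P Lc Lm th : ℕ) : ℕ :=
  Nat.sub (Nat.add (mulUp (xF P) Lc) (mulUp (cF P) Lm)) (mulDn th (wF P))

/-- The check at a vertex of a C-cell. -/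
def cvert (R Th gap mu th LcP LmP LcQ LmQ P Q : ℕ) : Bool :=
  Nat.ble (Nat.add (aNeg R Th P Q)
      (Nat.add (mulUp gap (uSq P Q))
        (mulUp mu (halfUp (Nat.add (vUp P LcP LmP th) (vUp Q LcQ LmQ th))))))
    (aPos R P Q)

/-- Upper bound for `log (1/Qn)`, `Qn = p₁(1-q₂)+k₂(1-p₁-q₂)²/4`. -/
def qnNum (R2 P1 Q2 : ℕ) : ℕ :=
  Nat.add (Nat.mul (Nat.mul (Nat.mul 4 P1) (Nat.sub DP Q2)) 4294967296)
    (Nat.mul (Nat.sub 4294967296 (Nat.mul R2 R2)) (Nat.mul (DL P1 Q2) (DL P1 Q2)))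

/-- The denominator of `Qn`: `4 DP² DR²`. -/
def qnDen : ℕ := 316912650057057350374175801344

/-- `p₂(1-q₁)` numerator over `DP²`. -/
def qxNum (P2 Q1 : ℕ) : ℕ := Nat.mul P2 (Nat.sub DP Q1)

/-- The check of a C-cell, given the bounds computed once. -/
def ccheck (R1 Th gap mu th LcP LmP LcQ LmQ P1 P2 Q1 Q2 : ℕ) : Bool :=
  and (cvert R1 Th gap mu th LcP LmP LcQ LmQ P1 Q1)
    (and (cvert R1 Th gap mu th LcP LmP LcQ LmQ P1 Q2)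
      (and (cvert R1 Th gap mu th LcP LmP LcQ LmQ P2 Q1)
        (cvert R1 Th gap mu th LcP LmP LcQ LmQ P2 Q2)))

/-- The side conditions of a C-cell. -/
def cside (R1 R2 P1 P2 Q1 Q2 : ℕ) : Bool :=
  and (Nat.ble R1 R2) (and (Nat.blt R2 DR) (and (Nat.blt 0 R2) (and (Nat.blt 0 P1) (and (Nat.blt P1 P2)
    (and (Nat.blt Q1 Q2) (and (Nat.ble (Nat.add P2 Q2) DP) (and (Nat.blt 0 (qnNum R2 P1 Q2))
    (and (Nat.ble (qnNum R2 P1 Q2) qnDen) (Nat.blt 0 (logDn DPP (qxNum P2 Q1)))))))))))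

/-- The test for a C-cell. -/
def cleaf (R1 R2 P1 P2 Q1 Q2 : ℕ) : Bool :=
  and (cside R1 R2 P1 P2 Q1 Q2)
    (ccheck R1 (ThUp R1) (Nat.sub (thUp R1) (thDn R2))
      (divUp (logUp qnDen (qnNum R2 P1 Q2)) (logDn DPP (qxNum P2 Q1))) (thDn R2)
      (logUp DP2 (Nat.add P1 P2)) (logUp DP2 (Nat.sub DP2 (Nat.add P1 P2)))
      (logUp DP2 (Nat.add Q1 Q2)) (logUp DP2 (Nat.sub DP2 (Nat.add Q1 Q2)))
      P1 P2 Q1 Q2)

/-! ### D-cells -/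

/-- The largest value of `w` on the interval `[P1/2^32, P2/2^32]`. -/
def wmax (P1 P2 : ℕ) : ℕ :=
  cond (and (Nat.ble P1 2147483648) (Nat.ble 2147483648 P2)) DPP (nmax (wF P1) (wF P2))

/-- Lower bound for `U` on the cell, given the upper bound `th` for `θ̃`. -/
def uDn (th P1 P2 Q1 Q2 : ℕ) : ℕ :=
  Nat.sub (halfDn (Nat.add (nmin (entDn P1 DP) (entDn P2 DP)) (nmin (entDn Q1 DP) (entDn Q2 DP))))
    (mulUp th (halfUp (Nat.add (wmax P1 P2) (wmax Q1 Q2))))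

/-- Lower bound for `ℳ/δ²` on the cell. -/
def mDn (R2 P1 P2 Q1 Q2 : ℕ) : ℕ :=
  divDn
    (logDn
      (Nat.add (Nat.mul 4294967296 (Nat.mul 4 (qxNum P2 Q1)))
        (Nat.mul (Nat.sub 4294967296 (Nat.mul R2 R2))
          (Nat.mul (Nat.sub (Nat.sub DP P1) Q1) (Nat.sub (Nat.sub DP P1) Q1))))
      (Nat.mul 4294967296 (Nat.mul 4 (qxNum P2 Q1))))
    (mulUp (Nat.mul (Nat.sub (Nat.sub DP P1) Q1) (Nat.sub (Nat.sub DP P1) Q1))
      (logUp DPP (Nat.mul P1 (Nat.sub DP Q2))))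

/-- The `m` of the lower bound for `R̃`: twice it over `DP`. -/
def mhi (P1 Q2 : ℕ) : ℕ := nmin (MM P1 Q2) DP

/-- Lower bound for the positive part of `R̃`. -/
def rPos (R2 Mh Dl : ℕ) : ℕ :=
  divDn
    (halfDn (Nat.add (entDn (Nat.add (Nat.mul Mh DR) (Nat.mul R2 Dl)) DB)
      (entDn (Nat.sub (Nat.mul Mh DR) (Nat.mul R2 Dl)) DB)))
    (tF R2)

/-- Upper bound for the negative part of `R̃`. -/
def rNeg (R2 Mh Dl : ℕ) : ℕ :=
  Nat.add (divUp (mulUp (kF R2) (entUp Mh DP2)) (tF R2))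
    (halfUp (Nat.add (entUp (Nat.add Mh Dl) DP2) (entUp (Nat.sub Mh Dl) DP2)))

/-- The side conditions of a D-cell. -/
def dside (R1 R2 P1 P2 Q1 Q2 : ℕ) : Bool :=
  and (Nat.ble R1 R2) (and (Nat.blt R2 DR) (and (Nat.blt 0 R2) (and (Nat.blt 0 P1) (and (Nat.ble P1 P2)
    (and (Nat.ble Q1 Q2) (and (Nat.ble P2 DP) (and (Nat.blt (Nat.add P1 Q1) DP) (Nat.blt Q2 DP))))))))

/-- The test for a D-cell without the term `R̃`. -/
def dleafB (R1 R2 P1 P2 Q1 Q2 : ℕ) : Bool :=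
  and (dside R1 R2 P1 P2 Q1 Q2)
    (Nat.ble (thUp R1) (mulDn (mDn R2 P1 P2 Q1 Q2) (uDn (thUp R1) P1 P2 Q1 Q2)))

/-- The test for a D-cell with the term `R̃`, where `Dl = 1-p₂-q₂ > 0`. -/
def dleafA (R1 R2 P1 P2 Q1 Q2 : ℕ) : Bool :=
  and (dside R1 R2 P1 P2 Q1 Q2)
    (and (Nat.blt 0 (DL P2 Q2)) (and (Nat.ble (Nat.add P2 Q2) DP)
      (Nat.ble (Nat.add (divUp (rNeg R2 (mhi P1 Q2) (DL P2 Q2)) (Nat.mul (DL P2 Q2) (DL P2 Q2))) (thUp R1))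
        (Nat.add (divDn (rPos R2 (mhi P1 Q2) (DL P2 Q2)) (Nat.mul (DL P2 Q2) (DL P2 Q2)))
          (mulDn (mDn R2 P1 P2 Q1 Q2) (uDn (thUp R1) P1 P2 Q1 Q2))))))

/-! ### What a cell certifies -/

/-- The closure on a box of the grid, outside the corner and the tail. -/
def CovH (S0 M1 R1 R2 P1 P2 Q1 Q2 : ℕ) : Prop :=
  ∀ ρ p q : ℝ, (R1 : ℝ) / DR ≤ ρ → ρ ≤ (R2 : ℝ) / DR → 0 < ρ →
    (P1 : ℝ) / DP ≤ p → p ≤ (P2 : ℝ) / DP → (Q1 : ℝ) / DP ≤ q → q ≤ (Q2 : ℝ) / DP → 0 < q → q ≤ p →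
    p + q < 1 → (S0 : ℝ) / DP ≤ p + q → (M1 : ℝ) / DP ≤ (1 - p + q) / 2 → 0 ≤ TT ρ (1 - p) q

end Vale.Agent.P322
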