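import Vale.Agent.P322.HDefs

/-!
Fixed point computations with natural numbers, scale `2^64`, written with the primitive operations
of `Nat` so that the kernel evaluates them quickly: directed bounds for logarithms and entropies.
-/

namespace Vale.Agent.P322

open Real

/-- The scale. -/
def FS : ℕ := 18446744073709551616

lemma FS_pos : (0 : ℝ) < (FS : ℝ) := by
  unfold FS
  norm_num

/-- `X / FS` is a lower bound of `x`. -/
def Lo (x : ℝ) (X : ℕ) : Prop := (X : ℝ) / FS ≤ x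

/-- `X / FS` is an upper bound of `x`. -/
def Hi (x : ℝ) (X : ℕ) : Prop := x ≤ (X : ℝ) / FS

/-- `a * b / FS`, rounded down. -/
def mulDn (a b : ℕ) : ℕ := Nat.shiftRight (Nat.mul a b) 64

/-- `a * b / FS`, rounded up. -/
def mulUp (a b : ℕ) : ℕ := Nat.succ (Nat.shiftRight (Nat.mul a b) 64)

/-- `a * FS / b`, rounded down. -/
def divDn (a b : ℕ) : ℕ := Nat.div (Nat.shiftLeft a 64) b

/-- `a * FS / b`, rounded up. -/
def divUp (a b : ℕ) : ℕ := Nat.succ (Nat.div (Nat.shiftLeft a 64) b)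

lemma shr64 (a : ℕ) : Nat.shiftRight a 64 = a / FS := by
  show a >>> 64 = _
  rw [Nat.shiftRight_eq_div_pow]
  rfl

lemma shl64 (a : ℕ) : Nat.shiftLeft a 64 = a * FS := by
  show a <<< 64 = _
  rw [Nat.shiftLeft_eq]
  rfl

lemma mulDn_eq (a b : ℕ) : mulDn a b = a * b / FS := by
  unfold mulDn
  rw [shr64]
  rfl

lemma mulUp_eq (a b : ℕ) : mulUp a b = a * b / FS + 1 := by
  unfold mulUp
  rw [Nat.succ_eq_add_one, shr64]
  rfl

lemma divDn_eq (a b : ℕ) : divDn a b = a * FS / b := by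
  unfold divDn
  rw [shl64]
  rfl

lemma divUp_eq (a b : ℕ) : divUp a b = a * FS / b + 1 := by
  unfold divUp
  rw [Nat.succ_eq_add_one, shl64]
  rfl

lemma natDiv_le (a b : ℕ) : ((a / b : ℕ) : ℝ) ≤ (a : ℝ) / b := Nat.cast_div_le

lemma le_natDiv_succ {a b : ℕ} (hb : 0 < b) : (a : ℝ) / b ≤ ((a / b + 1 : ℕ) : ℝ) := by
  have hb' : (0 : ℝ) < b := by exact_mod_cast hb
  rw [div_le_iff₀ hb']
  have h := Nat.lt_succ_self (a / b)
  have h1 := (Nat.div_lt_iff_lt_mul hb).mp h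
  have h2 : (a : ℝ) < (((a / b + 1) * b : ℕ) : ℝ) := by exact_mod_cast h1
  push_cast at h2 ⊢
  linarith

lemma FS_nat_pos : 0 < FS := by
  unfold FS
  norm_num

lemma Lo.add {x y : ℝ} {X Y : ℕ} (hx : Lo x X) (hy : Lo y Y) : Lo (x + y) (Nat.add X Y) := by
  unfold Lo at *
  show ((X + Y : ℕ) : ℝ) / FS ≤ x + y
  push_cast
  rw [add_div]
  linarith

lemma Hi.add {x y : ℝ} {X Y : ℕ} (hx : Hi x X) (hy : Hi y Y) : Hi (x + y) (Nat.add X Y) := by
  unfold Hi at *
  show x + y ≤ ((X + Y : ℕ) : ℝ) / FS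
  push_cast
  rw [add_div]
  linarith

lemma Lo.mul {x y : ℝ} {X Y : ℕ} (hx : Lo x X) (hy : Lo y Y) : Lo (x * y) (mulDn X Y) := by
  unfold Lo at *
  rw [mulDn_eq]
  have hS := FS_pos
  have h0 : (0 : ℝ) ≤ (X : ℝ) / FS := by positivity
  have h1 : (0 : ℝ) ≤ (Y : ℝ) / FS := by positivity
  have h2 := mul_le_mul hx hy h1 (le_trans h0 hx)
  have h3 := natDiv_le (X * Y) FS
  push_cast at h3
  have h4 : (((X * Y / FS : ℕ)) : ℝ) / FS ≤ (X : ℝ) * Y / FS / FS :=
    div_le_div_of_nonneg_right h3 hS.le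
  have e : (X : ℝ) * Y / FS / FS = (X : ℝ) / FS * ((Y : ℝ) / FS) := by
    field_simp
  rw [e] at h4
  linarith

lemma Hi.mul {x y : ℝ} {X Y : ℕ} (hx : Hi x X) (hy : Hi y Y) (hx0 : 0 ≤ x) (hy0 : 0 ≤ y) :
    Hi (x * y) (mulUp X Y) := by
  unfold Hi at *
  rw [mulUp_eq]
  have hS := FS_pos
  have h0 : (0 : ℝ) ≤ (X : ℝ) / FS := le_trans hx0 hx
  have h2 := mul_le_mul hx hy hy0 h0
  have h3 := le_natDiv_succ (a := X * Y) FS_nat_pos
  push_cast at h3
  have h4 : (X : ℝ) * Y / FS / FS ≤ (((X * Y / FS + 1 : ℕ)) : ℝ) / FS := by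
    push_cast
    exact div_le_div_of_nonneg_right h3 hS.le
  have e : (X : ℝ) * Y / FS / FS = (X : ℝ) / FS * ((Y : ℝ) / FS) := by
    field_simp
  rw [e] at h4
  linarith

/-- A truncated difference is a lower bound for a difference known to be nonnegative. -/
lemma Lo.sub {x y : ℝ} {X Y : ℕ} (hx : Lo x X) (hy : Hi y Y) (h : 0 ≤ x - y) :
    Lo (x - y) (Nat.sub X Y) := by
  unfold Lo Hi at *
  show ((X - Y : ℕ) : ℝ) / FS ≤ x - y
  rcases le_total Y X with hYX | hXY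
  · rw [Nat.cast_sub hYX, sub_div]
    linarith
  · rw [Nat.sub_eq_zero_of_le hXY]
    simpa using h

/-- A truncated difference is an upper bound for a difference. -/
lemma Hi.sub {x y : ℝ} {X Y : ℕ} (hx : Hi x X) (hy : Lo y Y) : Hi (x - y) (Nat.sub X Y) := by
  unfold Lo Hi at *
  show x - y ≤ ((X - Y : ℕ) : ℝ) / FS
  have hS := FS_pos
  rcases le_total Y X with hYX | hXY
  · rw [Nat.cast_sub hYX, sub_div]
    linarith
  · rw [Nat.sub_eq_zero_of_le hXY]
    have : (X : ℝ) ≤ Y := by exact_mod_cast hXY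
    have := div_le_div_of_nonneg_right this hS.le
    simp only [Nat.cast_zero, zero_div]
    linarith

lemma Lo.div {x y : ℝ} {X Y : ℕ} (hx : Lo x X) (hy : Hi y Y) (hy0 : 0 < y) (hx0 : 0 ≤ x) :
    Lo (x / y) (divDn X Y) := by
  unfold Lo Hi at *
  rw [divDn_eq]
  have hS := FS_pos
  have hY0 : (0 : ℝ) < (Y : ℝ) / FS := lt_of_lt_of_le hy0 hy
  have hY : (0 : ℝ) < (Y : ℝ) := by
    by_contra hn
    have h1 : (Y : ℝ) = 0 := le_antisymm (not_lt.mp hn) (Nat.cast_nonneg _)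
    rw [h1] at hY0
    simp at hY0
  have h3 := natDiv_le (X * FS) Y
  push_cast at h3
  have h4 : (((X * FS / Y : ℕ)) : ℝ) / FS ≤ (X : ℝ) * FS / Y / FS :=
    div_le_div_of_nonneg_right h3 hS.le
  have e : (X : ℝ) * FS / Y / FS = ((X : ℝ) / FS) / ((Y : ℝ) / FS) := by
    field_simp
  rw [e] at h4
  refine h4.trans ?_
  exact div_le_div₀ hx0 hx hy0 hy

lemma Hi.div {x y : ℝ} {X Y : ℕ} (hx : Hi x X) (hy : Lo y Y) (hY : 0 < Y) (hx0 : 0 ≤ x) :
    Hi (x / y) (divUp X Y) := by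
  unfold Lo Hi at *
  rw [divUp_eq]
  have hS := FS_pos
  have hY' : (0 : ℝ) < (Y : ℝ) := by exact_mod_cast hY
  have hY0 : (0 : ℝ) < (Y : ℝ) / FS := by positivity
  have h3 := le_natDiv_succ (a := X * FS) hY
  push_cast at h3
  have h4 : (X : ℝ) * FS / Y / FS ≤ (((X * FS / Y + 1 : ℕ)) : ℝ) / FS := by
    push_cast
    exact div_le_div_of_nonneg_right h3 hS.le
  have e : (X : ℝ) * FS / Y / FS = ((X : ℝ) / FS) / ((Y : ℝ) / FS) := by
    field_simp
  rw [e] at h4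
  refine le_trans ?_ h4
  have hX0 : (0 : ℝ) ≤ (X : ℝ) / FS := le_trans hx0 hx
  exact div_le_div₀ hX0 hx hY0 hy

/-- Exact fractions: lower bound. -/
lemma lo_frac {a b : ℕ} (hb : 0 < b) : Lo ((a : ℝ) / b) (divDn a b) := by
  unfold Lo
  rw [divDn_eq]
  have hS := FS_pos
  have h3 := natDiv_le (a * FS) b
  push_cast at h3
  have hb' : (0 : ℝ) < b := by exact_mod_cast hb
  have h4 : (((a * FS / b : ℕ)) : ℝ) / FS ≤ (a : ℝ) * FS / b / FS :=
    div_le_div_of_nonneg_right h3 hS.le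
  have e : (a : ℝ) * FS / b / FS = (a : ℝ) / b := by
    field_simp
  rwa [e] at h4

/-- Exact fractions: upper bound. -/
lemma hi_frac {a b : ℕ} (hb : 0 < b) : Hi ((a : ℝ) / b) (divUp a b) := by
  unfold Hi
  rw [divUp_eq]
  have hS := FS_pos
  have h3 := le_natDiv_succ (a := a * FS) hb
  push_cast at h3
  have hb' : (0 : ℝ) < b := by exact_mod_cast hb
  have h4 : (a : ℝ) * FS / b / FS ≤ (((a * FS / b + 1 : ℕ)) : ℝ) / FS := by
    push_cast
    exact div_le_div_of_nonneg_right h3 hS.le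
  have e : (a : ℝ) * FS / b / FS = (a : ℝ) / b := by
    field_simp
  rwa [e] at h4

/-! ### The series -/

/-- The polynomial `∑_{j<7} x^j / (2j+1)`. -/
noncomputable def gPoly (x : ℝ) : ℝ :=
  1 + x * (1 / 3 + x * (1 / 5 + x * (1 / 7 + x * (1 / 9 + x * (1 / 11 + x * (1 / 13))))))

/-- Lower Horner evaluation. -/
def hornDn (x : ℕ) : ℕ :=
  Nat.add 18446744073709551616 (mulDn x (Nat.add 6148914691236517205 (mulDn x (Nat.add 3689348814741910323
    (mulDn x (Nat.add 2635249153387078802 (mulDn x (Nat.add 2049638230412172401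
    (mulDn x (Nat.add 1676976733973595601 (mulDn x 1418980313362273201)))))))))))

/-- Upper Horner evaluation, with the bound for the tail of the series added. -/
def hornUp (x : ℕ) : ℕ :=
  Nat.add 18446744073746445105 (mulUp x (Nat.add 6148914691236517206 (mulUp x (Nat.add 3689348814741910324
    (mulUp x (Nat.add 2635249153387078803 (mulUp x (Nat.add 2049638230412172402
    (mulUp x (Nat.add 1676976733973595602 (mulUp x 1418980313362273202)))))))))))

lemma lo_const {c : ℝ} {C : ℕ} (h : (C : ℝ) / FS ≤ c) : Lo c C := h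
lemma hi_const {c : ℝ} {C : ℕ} (h : c ≤ (C : ℝ) / FS) : Hi c C := h

lemma hornDn_le {x : ℝ} {X : ℕ} (hX : Lo x X) : Lo (gPoly x) (hornDn X) := by
  unfold gPoly hornDn
  refine Lo.add (lo_const ?_) (Lo.mul hX (Lo.add (lo_const ?_) (Lo.mul hX (Lo.add (lo_const ?_)
    (Lo.mul hX (Lo.add (lo_const ?_) (Lo.mul hX (Lo.add (lo_const ?_)
    (Lo.mul hX (Lo.add (lo_const ?_) (Lo.mul hX (lo_const ?_)))))))))))) <;> unfold FS <;> norm_num

/-- The polynomial with the bound for the tail. -/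
noncomputable def gPolyT (x : ℝ) : ℝ :=
  1 + 2 / 1000000000000 + x * (1 / 3 + x * (1 / 5 + x * (1 / 7 + x * (1 / 9 + x * (1 / 11 + x * (1 / 13))))))

lemma le_hornUp {x : ℝ} {X : ℕ} (hX : Hi x X) (hx0 : 0 ≤ x) : Hi (gPolyT x) (hornUp X) := by
  unfold gPolyT hornUp
  have n1 : (0 : ℝ) ≤ 1 / 11 + x * (1 / 13) := by positivity
  have n2 : (0 : ℝ) ≤ 1 / 9 + x * (1 / 11 + x * (1 / 13)) := by positivity
  have n3 : (0 : ℝ) ≤ 1 / 7 + x * (1 / 9 + x * (1 / 11 + x * (1 / 13))) := by positivity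
  have n4 : (0 : ℝ) ≤ 1 / 5 + x * (1 / 7 + x * (1 / 9 + x * (1 / 11 + x * (1 / 13)))) := by positivity
  have n5 : (0 : ℝ) ≤ 1 / 3 + x * (1 / 5 + x * (1 / 7 + x * (1 / 9 + x * (1 / 11 + x * (1 / 13))))) := by positivity
  refine Hi.add (hi_const ?_) (Hi.mul hX (Hi.add (hi_const ?_) (Hi.mul hX (Hi.add (hi_const ?_)
    (Hi.mul hX (Hi.add (hi_const ?_) (Hi.mul hX (Hi.add (hi_const ?_)
    (Hi.mul hX (Hi.add (hi_const ?_) (Hi.mul hX (hi_const ?_) hx0 (by norm_num))) hx0 ?_)) hx0 ?_)) hx0 ?_)) hx0 ?_)) hx0 ?_)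
  all_goals first
    | positivity
    | (unfold FS; norm_num)

/-- The truncated series is a lower bound for `log ((1+z)/(1-z))`, and with the tail an upper bound. -/
lemma log_series_bounds {z : ℝ} (h0 : 0 ≤ z) (h1 : z ^ 2 ≤ 9 / 289) :
    2 * z * gPoly (z ^ 2) ≤ log (1 + z) - log (1 - z) ∧
    log (1 + z) - log (1 - z) ≤ 2 * z * gPolyT (z ^ 2) := by
  have hz1 : z < 1 := by nlinarith
  have habs : |z| < 1 := by rwa [abs_of_nonneg h0]
  have hS := Real.hasSum_log_sub_log_of_abs_lt_one habs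
  have hpart : ∑ k ∈ Finset.range 7, (2 : ℝ) * (1 / (2 * (k : ℝ) + 1)) * z ^ (2 * k + 1)
      = 2 * z * gPoly (z ^ 2) := by
    unfold gPoly
    simp only [Finset.sum_range_succ, Finset.sum_range_zero]
    norm_num
    ring
  constructor
  · rw [← hpart]
    apply sum_le_hasSum _ _ hS
    intro k _
    positivity
  · have hT := (hasSum_nat_add_iff' 7).mpr hS
    rw [hpart] at hT
    have hq0 : 0 ≤ z ^ 2 := sq_nonneg z
    have hq1 : z ^ 2 < 1 := by nlinarith
    have hG := (hasSum_geometric_of_lt_one hq0 hq1).mul_left (2 * z * (z ^ 2) ^ 7 * (1 / 15))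
    have hle : log (1 + z) - log (1 - z) - 2 * z * gPoly (z ^ 2)
        ≤ 2 * z * (z ^ 2) ^ 7 * (1 / 15) * (1 - z ^ 2)⁻¹ := by
      refine hasSum_le ?_ hT hG
      intro k
      have e : z ^ (2 * (k + 7) + 1) = z * (z ^ 2) ^ 7 * (z ^ 2) ^ k := by
        ring
      rw [e]
      have hp : 0 ≤ z * (z ^ 2) ^ 7 * (z ^ 2) ^ k := by positivity
      have hc : (1 : ℝ) / (2 * ((k + 7 : ℕ) : ℝ) + 1) ≤ 1 / 15 := by
        apply one_div_le_one_div_of_le (by norm_num)
        push_cast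
        have : (0 : ℝ) ≤ k := Nat.cast_nonneg k
        linarith
      have := mul_le_mul_of_nonneg_right hc hp
      nlinarith
    have hq7 : (z ^ 2) ^ 7 ≤ (9 / 289 : ℝ) ^ 7 := pow_le_pow_left₀ hq0 h1 7
    have hinv : (1 - z ^ 2)⁻¹ ≤ 289 / 280 := by
      rw [inv_le_comm₀ (by linarith) (by norm_num)]
      norm_num
      linarith
    have hinv0 : 0 ≤ (1 - z ^ 2)⁻¹ := by
      apply inv_nonneg.mpr
      linarith
    have hb : (z ^ 2) ^ 7 * (1 / 15) * (1 - z ^ 2)⁻¹ ≤ 2 / 1000000000000 := by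
      calc (z ^ 2) ^ 7 * (1 / 15) * (1 - z ^ 2)⁻¹
          ≤ (9 / 289 : ℝ) ^ 7 * (1 / 15) * (289 / 280) := by
            apply mul_le_mul _ hinv hinv0 (by positivity)
            exact mul_le_mul_of_nonneg_right hq7 (by norm_num)
        _ ≤ 2 / 1000000000000 := by norm_num
    have e2 : 2 * z * gPolyT (z ^ 2) = 2 * z * gPoly (z ^ 2) + 2 * z * (2 / 1000000000000) := by
      unfold gPolyT gPoly
      ring
    have h3 : 2 * z * (z ^ 2) ^ 7 * (1 / 15) * (1 - z ^ 2)⁻¹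
        = 2 * z * ((z ^ 2) ^ 7 * (1 / 15) * (1 - z ^ 2)⁻¹) := by ring
    rw [h3] at hle
    have h4 := mul_le_mul_of_nonneg_left hb (by positivity : (0 : ℝ) ≤ 2 * z)
    rw [e2]
    linarith

/-- Lower bound for `log (a/b)`, `b ≤ a`, by the series. -/
def serDn (a b : ℕ) : ℕ := serDnAux (divDn (Nat.sub a b) (Nat.add a b))
where
  /-- The evaluation from the fixed point value of `z`. -/
  serDnAux (z : ℕ) : ℕ := mulDn (Nat.mul 2 z) (hornDn (mulDn z z))

/-- Upper bound for `log (a/b)`, `b ≤ a`, `7a ≤ 10b`, by the series. -/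
def serUp (a b : ℕ) : ℕ := serUpAux (divUp (Nat.sub a b) (Nat.add a b))
where
  /-- The evaluation from the fixed point value of `z`. -/
  serUpAux (z : ℕ) : ℕ := mulUp (Nat.mul 2 z) (hornUp (mulUp z z))

lemma log_ratio_z {a b : ℕ} (hb : 0 < b) (ha0 : 0 < a) :
    log ((a : ℝ) / b) = log (1 + ((a : ℝ) - b) / (a + b)) - log (1 - ((a : ℝ) - b) / (a + b)) := by
  have hb' : (0 : ℝ) < b := by exact_mod_cast hb
  have ha' : (0 : ℝ) < a := by exact_mod_cast ha0
  have hab : (0 : ℝ) < (a : ℝ) + b := by positivity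
  have e1 : 1 + ((a : ℝ) - b) / (a + b) = 2 * a / (a + b) := by
    field_simp
    ring
  have e2 : 1 - ((a : ℝ) - b) / (a + b) = 2 * b / (a + b) := by
    field_simp
    ring
  rw [e1, e2, log_div (by positivity) hab.ne', log_div (by positivity) hab.ne',
    log_mul (by norm_num) ha'.ne', log_mul (by norm_num) hb'.ne', log_div ha'.ne' hb'.ne']
  ring

lemma serDn_le {a b : ℕ} (hb : 0 < b) (hab : b ≤ a) : Lo (log ((a : ℝ) / b)) (serDn a b) := by
  have hb' : (0 : ℝ) < b := by exact_mod_cast hb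
  have ha' : (b : ℝ) ≤ a := by exact_mod_cast hab
  set z : ℝ := ((a : ℝ) - b) / (a + b) with hz
  have hab0 : (0 : ℝ) < (a : ℝ) + b := by linarith
  have hz0 : 0 ≤ z := div_nonneg (by linarith) hab0.le
  have hz1 : z < 1 := by
    rw [hz, div_lt_one hab0]
    linarith
  have hzZ : Lo z (divDn (Nat.sub a b) (Nat.add a b)) := by
    have h := lo_frac (a := a - b) (b := a + b) (by omega)
    rw [Nat.cast_sub hab] at h
    push_cast at h
    exact h
  have hx := Lo.mul hzZ hzZ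
  rw [← pow_two] at hx
  have hh := hornDn_le hx
  have h2z : Lo (2 * z) (Nat.mul 2 (divDn (Nat.sub a b) (Nat.add a b))) := by
    unfold Lo at *
    show ((2 * divDn (Nat.sub a b) (Nat.add a b) : ℕ) : ℝ) / FS ≤ 2 * z
    push_cast
    rw [mul_div_assoc]
    linarith
  have hm := Lo.mul h2z hh
  rw [log_ratio_z hb (lt_of_lt_of_le hb hab)]
  -- the partial sum
  have hlow : 2 * z * gPoly (z ^ 2) ≤ log (1 + z) - log (1 - z) := by
    have habs : |z| < 1 := by rwa [abs_of_nonneg hz0]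
    have hS := Real.hasSum_log_sub_log_of_abs_lt_one habs
    have hpart : ∑ k ∈ Finset.range 7, (2 : ℝ) * (1 / (2 * (k : ℝ) + 1)) * z ^ (2 * k + 1)
        = 2 * z * gPoly (z ^ 2) := by
      unfold gPoly
      simp only [Finset.sum_range_succ, Finset.sum_range_zero]
      norm_num
      ring
    rw [← hpart]
    apply sum_le_hasSum _ _ hS
    intro k _
    positivity
  exact le_trans hm hlow

lemma le_serUp {a b : ℕ} (hb : 0 < b) (hab : b ≤ a) (h7 : 7 * a ≤ 10 * b) :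
    Hi (log ((a : ℝ) / b)) (serUp a b) := by
  have hb' : (0 : ℝ) < b := by exact_mod_cast hb
  have ha' : (b : ℝ) ≤ a := by exact_mod_cast hab
  have h7' : 7 * (a : ℝ) ≤ 10 * b := by exact_mod_cast h7
  set z : ℝ := ((a : ℝ) - b) / (a + b) with hz
  have hab0 : (0 : ℝ) < (a : ℝ) + b := by linarith
  have hz0 : 0 ≤ z := div_nonneg (by linarith) hab0.le
  have hz3 : z ≤ 3 / 17 := by
    rw [hz, div_le_iff₀ hab0]
    linarith
  have hz2 : z ^ 2 ≤ 9 / 289 := by nlinarith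
  have hzZ : Hi z (divUp (Nat.sub a b) (Nat.add a b)) := by
    have h := hi_frac (a := a - b) (b := a + b) (by omega)
    rw [Nat.cast_sub hab] at h
    push_cast at h
    exact h
  have hx := Hi.mul hzZ hzZ hz0 hz0
  rw [← pow_two] at hx
  have hh := le_hornUp hx (sq_nonneg z)
  have h2z : Hi (2 * z) (Nat.mul 2 (divUp (Nat.sub a b) (Nat.add a b))) := by
    unfold Hi at *
    show 2 * z ≤ ((2 * divUp (Nat.sub a b) (Nat.add a b) : ℕ) : ℝ) / FS
    push_cast
    rw [mul_div_assoc]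
    linarith
  have hg0 : 0 ≤ gPolyT (z ^ 2) := by
    unfold gPolyT
    positivity
  have hm := Hi.mul h2z hh (by linarith) hg0
  rw [log_ratio_z hb (lt_of_lt_of_le hb hab)]
  exact le_trans (log_series_bounds hz0 hz2).2 hm

/-- The lower bound for `log 2`. -/
def L2D : ℕ := 12786308645184615169

/-- The upper bound for `log 2`. -/
def L2U : ℕ := 12786308645209934237

lemma log_two_split : log 2 = log (((10 : ℕ) : ℝ) / (7 : ℕ)) + log (((7 : ℕ) : ℝ) / (5 : ℕ)) := by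
  rw [← log_mul (by norm_num) (by norm_num)]
  norm_num

lemma L2D_le : Lo (log 2) L2D := by
  rw [log_two_split]
  have h1 := serDn_le (a := 10) (b := 7) (by norm_num) (by norm_num)
  have h2 := serDn_le (a := 7) (b := 5) (by norm_num) (by norm_num)
  have h := Lo.add h1 h2
  have e : Nat.add (serDn 10 7) (serDn 7 5) = L2D := by decide +kernel
  rwa [e] at h

lemma le_L2U : Hi (log 2) L2U := by
  rw [log_two_split]
  have h1 := le_serUp (a := 10) (b := 7) (by norm_num) (by norm_num) (by norm_num)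
  have h2 := le_serUp (a := 7) (b := 5) (by norm_num) (by norm_num) (by norm_num)
  have h := Hi.add h1 h2
  have e : Nat.add (serUp 10 7) (serUp 7 5) = L2U := by decide +kernel
  rwa [e] at h

/-! ### Logarithms of arbitrary fractions -/

/-- Lower bound, from the normalisation `B = b 2^e`. -/
def logDn2 (a B e : ℕ) : ℕ :=
  cond (Nat.ble (Nat.mul 5 a) (Nat.mul 7 B))
    (cond (Nat.ble B a) (Nat.add (Nat.mul e L2D) (serDn a B)) 0)
    (cond (Nat.ble a (Nat.mul 2 B)) (Nat.sub (Nat.mul (Nat.succ e) L2D) (serUp (Nat.mul 2 B) a)) 0)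

/-- A lower bound for `log (a/b)`, `b ≤ a`, `0 < b`. -/
def logDn (a b : ℕ) : ℕ :=
  logDn2Aux a b (Nat.log2 (Nat.div a b))
where
  /-- Computing the normalisation. -/
  logDn2Aux (a b e : ℕ) : ℕ := logDn2 a (Nat.shiftLeft b e) e

/-- Upper bound, from the normalisation `B = b 2^e`. -/
def logUp2 (a b B e : ℕ) : ℕ :=
  cond (Nat.ble (Nat.mul 5 a) (Nat.mul 7 B))
    (cond (Nat.ble B a) (Nat.add (Nat.mul e L2U) (serUp a B)) (divUp (Nat.sub a b) b))
    (cond (Nat.ble a (Nat.mul 2 B)) (Nat.sub (Nat.mul (Nat.succ e) L2U) (serDn (Nat.mul 2 B) a))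
      (divUp (Nat.sub a b) b))

/-- An upper bound for `log (a/b)`, `b ≤ a`, `0 < b`. -/
def logUp (a b : ℕ) : ℕ :=
  logUp2Aux a b (Nat.log2 (Nat.div a b))
where
  /-- Computing the normalisation. -/
  logUp2Aux (a b e : ℕ) : ℕ := logUp2 a b (Nat.shiftLeft b e) e

lemma log_nonneg_frac {a b : ℕ} (hb : 0 < b) (hab : b ≤ a) : 0 ≤ log ((a : ℝ) / b) := by
  have hb' : (0 : ℝ) < b := by exact_mod_cast hb
  have ha' : (b : ℝ) ≤ a := by exact_mod_cast hab
  apply log_nonneg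
  rw [le_div_iff₀ hb']
  linarith

lemma lo_zero {x : ℝ} (h : 0 ≤ x) : Lo x 0 := by
  unfold Lo
  simpa using h

lemma lo_nat_mul {x : ℝ} {X : ℕ} (e : ℕ) (hx : Lo x X) : Lo ((e : ℝ) * x) (Nat.mul e X) := by
  unfold Lo at *
  show ((e * X : ℕ) : ℝ) / FS ≤ (e : ℝ) * x
  push_cast
  rw [mul_div_assoc]
  exact mul_le_mul_of_nonneg_left hx (Nat.cast_nonneg e)

lemma hi_nat_mul {x : ℝ} {X : ℕ} (e : ℕ) (hx : Hi x X) : Hi ((e : ℝ) * x) (Nat.mul e X) := by
  unfold Hi at *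
  show (e : ℝ) * x ≤ ((e * X : ℕ) : ℝ) / FS
  push_cast
  rw [mul_div_assoc]
  exact mul_le_mul_of_nonneg_left hx (Nat.cast_nonneg e)

lemma log_split {a b e : ℕ} (hb : 0 < b) (ha : 0 < a) :
    log ((a : ℝ) / b) = (e : ℝ) * log 2 + log ((a : ℝ) / ((b <<< e : ℕ) : ℝ)) := by
  have hb' : (0 : ℝ) < b := by exact_mod_cast hb
  have ha' : (0 : ℝ) < a := by exact_mod_cast ha
  have h2 : (0 : ℝ) < 2 ^ e := by positivity
  rw [Nat.shiftLeft_eq]
  push_cast
  rw [log_div ha'.ne' hb'.ne', log_div ha'.ne' (by positivity), log_mul hb'.ne' h2.ne', log_pow]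
  ring

lemma log_split2 {a b e : ℕ} (hb : 0 < b) (ha : 0 < a) :
    log ((a : ℝ) / b) = ((Nat.succ e : ℕ) : ℝ) * log 2 - log (((Nat.mul 2 (b <<< e) : ℕ) : ℝ) / (a : ℝ)) := by
  have hb' : (0 : ℝ) < b := by exact_mod_cast hb
  have ha' : (0 : ℝ) < a := by exact_mod_cast ha
  have h2 : (0 : ℝ) < 2 ^ e := by positivity
  rw [Nat.shiftLeft_eq]
  show log ((a : ℝ) / b) = ((e + 1 : ℕ) : ℝ) * log 2 - log (((2 * (b * 2 ^ e) : ℕ) : ℝ) / (a : ℝ))
  push_cast
  rw [log_div ha'.ne' hb'.ne', log_div (by positivity) ha'.ne', log_mul (by norm_num) (by positivity),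
    log_mul hb'.ne' h2.ne', log_pow]
  ring

lemma Lo_cond {x : ℝ} {c : Bool} {A B : ℕ} (hA : c = true → Lo x A) (hB : c = false → Lo x B) :
    Lo x (cond c A B) := by
  cases c
  · exact hB rfl
  · exact hA rfl

lemma Hi_cond {x : ℝ} {c : Bool} {A B : ℕ} (hA : c = true → Hi x A) (hB : c = false → Hi x B) :
    Hi x (cond c A B) := by
  cases c
  · exact hB rfl
  · exact hA rfl

lemma logDn2_le {a b e B : ℕ} (hb : 0 < b) (ha : 0 < a) (hB : B = b <<< e)
    (hnn : 0 ≤ log ((a : ℝ) / b)) : Lo (log ((a : ℝ) / b)) (logDn2 a B e) := by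
  have hB0 : 0 < B := by
    rw [hB, Nat.shiftLeft_eq]
    positivity
  unfold logDn2
  refine Lo_cond (fun h5 => ?_) (fun h5 => ?_)
  · refine Lo_cond (fun h3 => ?_) (fun _ => lo_zero hnn)
    have h3' : B ≤ a := Nat.le_of_ble_eq_true h3
    have hs1 := serDn_le hB0 h3'
    have hl := lo_nat_mul e L2D_le
    have h4 := Lo.add hl hs1
    have e1 := log_split (e := e) hb ha
    rw [← hB] at e1
    rw [← e1] at h4
    exact h4
  · refine Lo_cond (fun h2 => ?_) (fun _ => lo_zero hnn)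
    have h2' : a ≤ Nat.mul 2 B := Nat.le_of_ble_eq_true h2
    have h5' : ¬ 5 * a ≤ 7 * B := fun h => by
      have h6 : Nat.ble (Nat.mul 5 a) (Nat.mul 7 B) = true := Nat.ble_eq_true_of_le h
      rw [h5] at h6
      exact Bool.noConfusion h6
    have h7 : 7 * (Nat.mul 2 B) ≤ 10 * a := by
      show 7 * (2 * B) ≤ 10 * a
      omega
    have hu := le_serUp (a := Nat.mul 2 B) (b := a) ha h2' h7
    have hl := lo_nat_mul (Nat.succ e) L2D_le
    have e1 := log_split2 (e := e) hb ha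
    rw [← hB] at e1
    have hsub := Lo.sub (y := log (((Nat.mul 2 B : ℕ) : ℝ) / (a : ℝ))) hl hu (by
      rw [← e1]
      exact hnn)
    rw [← e1] at hsub
    exact hsub

lemma logDn_le {a b : ℕ} (hb : 0 < b) (hab : b ≤ a) : Lo (log ((a : ℝ) / b)) (logDn a b) :=
  logDn2_le hb (lt_of_lt_of_le hb hab) rfl (log_nonneg_frac hb hab)

lemma logUp2_le {a b e B : ℕ} (hb : 0 < b) (ha : 0 < a) (hB : B = b <<< e) (hab : b ≤ a) :
    Hi (log ((a : ℝ) / b)) (logUp2 a b B e) := by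
  have hb' : (0 : ℝ) < b := by exact_mod_cast hb
  have ha' : (0 : ℝ) < a := by exact_mod_cast ha
  have hfall : Hi (log ((a : ℝ) / b)) (divUp (Nat.sub a b) b) := by
    have h := hi_frac (a := a - b) (b := b) hb
    rw [Nat.cast_sub hab] at h
    unfold Hi at *
    refine le_trans ?_ h
    have h1 := log_le_sub_one_of_pos (div_pos ha' hb')
    have e : ((a : ℝ) - b) / b = (a : ℝ) / b - 1 := by
      field_simp
    rw [e]
    exact h1
  have hB0 : 0 < B := by
    rw [hB, Nat.shiftLeft_eq]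
    positivity
  unfold logUp2
  refine Hi_cond (fun h5 => ?_) (fun h5 => ?_)
  · refine Hi_cond (fun h3 => ?_) (fun _ => hfall)
    have h3' : B ≤ a := Nat.le_of_ble_eq_true h3
    have h5' : 5 * a ≤ 7 * B := Nat.le_of_ble_eq_true h5
    have h7 : 7 * a ≤ 10 * B := by omega
    have hs1 := le_serUp hB0 h3' h7
    have hl := hi_nat_mul e le_L2U
    have h4 := Hi.add hl hs1
    have e1 := log_split (e := e) hb ha
    rw [← hB] at e1
    rw [← e1] at h4
    exact h4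
  · refine Hi_cond (fun h2 => ?_) (fun _ => hfall)
    have h2' : a ≤ Nat.mul 2 B := Nat.le_of_ble_eq_true h2
    have hu := serDn_le (a := Nat.mul 2 B) (b := a) ha h2'
    have hl := hi_nat_mul (Nat.succ e) le_L2U
    have hsub := Hi.sub hl hu
    have e1 := log_split2 (e := e) hb ha
    rw [← hB] at e1
    rw [← e1] at hsub
    exact hsub

lemma le_logUp {a b : ℕ} (hb : 0 < b) (hab : b ≤ a) : Hi (log ((a : ℝ) / b)) (logUp a b) :=
  logUp2_le hb (lt_of_lt_of_le hb hab) rfl hab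

/-! ### Entropy of fractions -/

/-- The entropy bound from the two logarithm bounds. -/
def entDnAux (a b L₁ L₂ : ℕ) : ℕ :=
  Nat.div (Nat.add (Nat.mul a L₁) (Nat.mul (Nat.sub b a) L₂)) b

/-- The entropy bound from the two logarithm bounds. -/
def entUpAux (a b L₁ L₂ : ℕ) : ℕ :=
  Nat.succ (Nat.div (Nat.add (Nat.mul a L₁) (Nat.mul (Nat.sub b a) L₂)) b)

/-- A lower bound for the entropy of `a/b`, `a ≤ b`. -/
def entDn (a b : ℕ) : ℕ := entDnAux a b (logDn b a) (logDn b (Nat.sub b a))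

/-- An upper bound for the entropy of `a/b`, `a ≤ b`. -/
def entUp (a b : ℕ) : ℕ := entUpAux a b (logUp b a) (logUp b (Nat.sub b a))

lemma entropy_frac2 {a b : ℕ} (hb : 0 < b) (hab : a ≤ b) :
    binEntropy ((a : ℝ) / b) = ((a : ℝ) * log ((b : ℝ) / a)
      + ((b - a : ℕ) : ℝ) * log ((b : ℝ) / ((b - a : ℕ) : ℝ))) / b := by
  have hb' : (0 : ℝ) < b := by exact_mod_cast hb
  rw [binEntropy_eq, Nat.cast_sub hab]
  rcases Nat.eq_zero_or_pos a with rfl | ha
  · simp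
  rcases Nat.lt_or_ge a b with hlt | hge
  · have ha' : (0 : ℝ) < a := by exact_mod_cast ha
    have hlt' : (a : ℝ) < b := by exact_mod_cast hlt
    have hc : (0 : ℝ) < (b : ℝ) - a := by linarith
    have e1 : 1 - (a : ℝ) / b = ((b : ℝ) - a) / b := by
      field_simp
    rw [e1, log_div ha'.ne' hb'.ne', log_div hc.ne' hb'.ne', log_div hb'.ne' ha'.ne',
      log_div hb'.ne' hc.ne']
    field_simp
    ring
  · have : a = b := le_antisymm hab hge
    subst this
    have ha' : (a : ℝ) ≠ 0 := hb'.ne'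
    simp [div_self ha']

lemma entDnAux_le {a b L₁ L₂ : ℕ} (hb : 0 < b) (hab : a ≤ b)
    (h₁ : 0 < a → Lo (log ((b : ℝ) / a)) L₁)
    (h₂ : 0 < b - a → Lo (log ((b : ℝ) / ((b - a : ℕ) : ℝ))) L₂) :
    Lo (binEntropy ((a : ℝ) / b)) (entDnAux a b L₁ L₂) := by
  have hb' : (0 : ℝ) < b := by exact_mod_cast hb
  have hS := FS_pos
  rw [entropy_frac2 hb hab]
  unfold Lo entDnAux
  have hbound : ∀ c L : ℕ, (0 < c → Lo (log ((b : ℝ) / c)) L) →
      ((c * L : ℕ) : ℝ) / FS ≤ (c : ℝ) * log ((b : ℝ) / c) := by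
    intro c L hL
    rcases Nat.eq_zero_or_pos c with rfl | hc0
    · simp
    have := hL hc0
    unfold Lo at this
    push_cast
    rw [mul_div_assoc]
    exact mul_le_mul_of_nonneg_left this (Nat.cast_nonneg c)
  have h1 := hbound a L₁ h₁
  have h2 := hbound (b - a) L₂ h₂
  show (((a * L₁ + (b - a) * L₂) / b : ℕ) : ℝ) / FS ≤ _
  have h3 := natDiv_le (a * L₁ + (b - a) * L₂) b
  have h4 : (((a * L₁ + (b - a) * L₂) / b : ℕ) : ℝ) / FS
      ≤ ((a * L₁ + (b - a) * L₂ : ℕ) : ℝ) / b / FS := div_le_div_of_nonneg_right h3 hS.le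
  refine h4.trans ?_
  have h5 : ((a * L₁ + (b - a) * L₂ : ℕ) : ℝ) / FS ≤ (a : ℝ) * log ((b : ℝ) / a)
      + ((b - a : ℕ) : ℝ) * log ((b : ℝ) / ((b - a : ℕ) : ℝ)) := by
    rw [Nat.cast_add, add_div]
    linarith
  have e : ((a * L₁ + (b - a) * L₂ : ℕ) : ℝ) / b / FS
      = ((a * L₁ + (b - a) * L₂ : ℕ) : ℝ) / FS / b := by ring
  rw [e]
  exact div_le_div_of_nonneg_right h5 hb'.le

lemma le_entUpAux {a b L₁ L₂ : ℕ} (hb : 0 < b) (hab : a ≤ b)
    (h₁ : 0 < a → Hi (log ((b : ℝ) / a)) L₁)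
    (h₂ : 0 < b - a → Hi (log ((b : ℝ) / ((b - a : ℕ) : ℝ))) L₂) :
    Hi (binEntropy ((a : ℝ) / b)) (entUpAux a b L₁ L₂) := by
  have hb' : (0 : ℝ) < b := by exact_mod_cast hb
  have hS := FS_pos
  rw [entropy_frac2 hb hab]
  unfold Hi entUpAux
  have hbound : ∀ c L : ℕ, (0 < c → Hi (log ((b : ℝ) / c)) L) →
      (c : ℝ) * log ((b : ℝ) / c) ≤ ((c * L : ℕ) : ℝ) / FS := by
    intro c L hL
    rcases Nat.eq_zero_or_pos c with rfl | hc0
    · simp
    have := hL hc0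
    unfold Hi at this
    push_cast
    rw [mul_div_assoc]
    exact mul_le_mul_of_nonneg_left this (Nat.cast_nonneg c)
  have h1 := hbound a L₁ h₁
  have h2 := hbound (b - a) L₂ h₂
  show _ ≤ (((a * L₁ + (b - a) * L₂) / b + 1 : ℕ) : ℝ) / FS
  have h3 := le_natDiv_succ (a := a * L₁ + (b - a) * L₂) hb
  have h4 : ((a * L₁ + (b - a) * L₂ : ℕ) : ℝ) / b / FS
      ≤ (((a * L₁ + (b - a) * L₂) / b + 1 : ℕ) : ℝ) / FS := div_le_div_of_nonneg_right h3 hS.le
  refine le_trans ?_ h4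
  have h5 : (a : ℝ) * log ((b : ℝ) / a)
      + ((b - a : ℕ) : ℝ) * log ((b : ℝ) / ((b - a : ℕ) : ℝ)) ≤ ((a * L₁ + (b - a) * L₂ : ℕ) : ℝ) / FS := by
    rw [Nat.cast_add, add_div]
    linarith
  have e : ((a * L₁ + (b - a) * L₂ : ℕ) : ℝ) / b / FS
      = ((a * L₁ + (b - a) * L₂ : ℕ) : ℝ) / FS / b := by ring
  rw [e]
  exact div_le_div_of_nonneg_right h5 hb'.le

lemma entDn_le {a b : ℕ} (hb : 0 < b) (hab : a ≤ b) : Lo (binEntropy ((a : ℝ) / b)) (entDn a b) :=
  entDnAux_le hb hab (fun h => logDn_le h hab) (fun h => logDn_le h (Nat.sub_le b a))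

lemma le_entUp {a b : ℕ} (hb : 0 < b) (hab : a ≤ b) : Hi (binEntropy ((a : ℝ) / b)) (entUp a b) :=
  le_entUpAux hb hab (fun h => le_logUp h hab) (fun h => le_logUp h (Nat.sub_le b a))

end Vale.Agent.P322
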