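import Vale.Agent.P322.HWalk
import Vale.Agent.P322.HTail

/-!
The numeric checks of the corner and of the tail on a range of `ρ`, and the closure on that range.
-/

namespace Vale.Agent.P322

open Real

/-! ### The corner -/

/-- An upper bound for `2785/10000 + 1` in fixed point. -/
def C0U : ℕ := 23584162298237661742

/-- The numerator of `(1-ρ₂²)(1-s₀)²/4` over `qnDen`. -/
def cNk (R2 S0 : ℕ) : ℕ :=
  Nat.mul (Nat.sub 4294967296 (Nat.mul R2 R2)) (Nat.mul (Nat.sub DP S0) (Nat.sub DP S0))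

/-- The upper bound `B` of the corner lemma. -/
def cornerB (R2 S0 : ℕ) : ℕ :=
  halfUp (mulUp (logUp qnDen (cNk R2 S0))
    (Nat.add FS (divUp (Nat.sub C0U (Nat.mul 4 (mulDn (thDn R2) (cF S0)))) (logDn DP S0))))

/-- The numeric check of the corner. -/
def cornerCheck (R1 R2 H S0 : ℕ) : Bool :=
  and (Nat.ble R1 R2) (and (Nat.blt R2 DR) (and (Nat.blt 0 R2) (and (Nat.blt 0 H)
    (and (Nat.beq S0 (Nat.add H H)) (and (Nat.ble (Nat.mul 4 S0) DP) (and (Nat.blt 0 (logDn DP S0))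
    (and (Nat.ble (Nat.add (aNeg R1 (ThUp R1) S0 0)
        (Nat.add (mulUp (Nat.sub (thUp R1) (thDn R2)) (uSq S0 0)) (mulUp (cornerB R2 S0) (xF S0))))
        (aPos R1 S0 0))
      (Nat.ble (Nat.add (aNeg R1 (ThUp R1) H H) (mulUp (cornerB R2 S0) (xF S0))) (aPos R1 H H)))))))))

lemma corner_real {l l₂ y y₂ : ℝ} (hl : l ≤ l₂) (hl0 : 0 ≤ l) (hy : y ≤ y₂) (hy2 : 0 ≤ y₂) :
    (1 / 2) * l * y ≤ l₂ * y₂ / 2 := by
  have h1 : l * y ≤ l * y₂ := mul_le_mul_of_nonneg_left hy hl0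
  have h2 : l * y₂ ≤ l₂ * y₂ := mul_le_mul_of_nonneg_right hl hy2
  linarith

lemma cornerB_ge {ρ : ℝ} {R2 S0 : ℕ} (h2 : ρ ≤ (R2 : ℝ) / DR) (h0 : 0 < ρ) (hR2 : R2 < DR)
    (hR20 : 0 < R2) (hS0 : 0 < S0) (hS1 : S0 < DP) (hL : 0 < logDn DP S0) :
    (1 / 2) * log (4 / ((1 - ρ ^ 2) * (1 - (S0 : ℝ) / DP) ^ 2))
        * (1 + (2785 / 10000 + 1 - 4 * thT ρ * (1 - (S0 : ℝ) / DP)) / log (1 / ((S0 : ℝ) / DP)))
      ≤ ((cornerB R2 S0 : ℕ) : ℝ) / FS := by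
  have hDP : (0 : ℝ) < (DP : ℝ) := by rw [DP_cast]; norm_num
  have hS := FS_pos
  have hr₂1 : (R2 : ℝ) / DR < 1 := rho_lt hR2
  have hρ1 : ρ < 1 := lt_of_le_of_lt h2 hr₂1
  have hs0 : 0 < (S0 : ℝ) / DP := by
    have : (0 : ℝ) < S0 := by exact_mod_cast hS0
    positivity
  have hs1 : (S0 : ℝ) / DP < 1 := by
    rw [div_lt_one hDP]
    exact_mod_cast hS1
  have hk₂ : 0 < 1 - ((R2 : ℝ) / DR) ^ 2 := by
    have := rho_pos hR20
    nlinarith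
  have hk : 1 - ((R2 : ℝ) / DR) ^ 2 ≤ 1 - ρ ^ 2 := by nlinarith
  have hc : 0 < (1 - (S0 : ℝ) / DP) ^ 2 := by
    have : 0 < 1 - (S0 : ℝ) / DP := by linarith
    positivity
  have hc1 : (1 - (S0 : ℝ) / DP) ^ 2 ≤ 1 := by nlinarith
  -- the first logarithm
  have hNk : ((cNk R2 S0 : ℕ) : ℝ) / qnDen
      = (1 - ((R2 : ℝ) / DR) ^ 2) * (1 - (S0 : ℝ) / DP) ^ 2 / 4 := by
    have hR2s : R2 * R2 ≤ 4294967296 := by
      have : R2 ≤ 65536 := hR2.le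
      nlinarith
    have hN : ((cNk R2 S0 : ℕ) : ℝ) = (4294967296 - (R2 : ℝ) * R2) * (((DP : ℝ) - S0) * ((DP : ℝ) - S0)) := by
      show (((4294967296 - R2 * R2) * ((DP - S0) * (DP - S0)) : ℕ) : ℝ) = _
      rw [Nat.cast_mul, Nat.cast_mul, Nat.cast_sub hR2s, Nat.cast_sub hS1.le, Nat.cast_mul]
      push_cast
      ring
    have hqd : (qnDen : ℝ) = 316912650057057350374175801344 := by
      unfold qnDen
      norm_num
    rw [hN, hqd, DR_cast, DP_cast]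
    field_simp
    ring
  have hqd0 : (0 : ℝ) < (qnDen : ℝ) := by
    unfold qnDen
    norm_num
  have hNk0 : 0 < ((cNk R2 S0 : ℕ) : ℝ) := by
    have h1 : 0 < ((cNk R2 S0 : ℕ) : ℝ) / qnDen := by
      rw [hNk]
      positivity
    have := (div_pos_iff_of_pos_right hqd0).mp h1
    exact this
  have hNk1 : cNk R2 S0 ≤ qnDen := by
    have h1 : ((cNk R2 S0 : ℕ) : ℝ) / qnDen ≤ 1 := by
      rw [hNk]
      have : 1 - ((R2 : ℝ) / DR) ^ 2 ≤ 1 := by nlinarith [sq_nonneg ((R2 : ℝ) / DR)]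
      have : (1 - ((R2 : ℝ) / DR) ^ 2) * (1 - (S0 : ℝ) / DP) ^ 2 ≤ 1 * 1 :=
        mul_le_mul this hc1 hc.le (by norm_num)
      linarith
    have h2' := (div_le_one hqd0).mp h1
    exact_mod_cast h2'
  have hNk0' : 0 < cNk R2 S0 := by exact_mod_cast hNk0
  have hl := le_logUp hNk0' hNk1
  have hl0 : 0 ≤ log (4 / ((1 - ρ ^ 2) * (1 - (S0 : ℝ) / DP) ^ 2)) := by
    apply log_nonneg
    have h1 : (1 - ρ ^ 2) * (1 - (S0 : ℝ) / DP) ^ 2 ≤ 1 * 1 := by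
      apply mul_le_mul _ hc1 hc.le (by norm_num)
      nlinarith [sq_nonneg ρ]
    have h2' : 0 < (1 - ρ ^ 2) * (1 - (S0 : ℝ) / DP) ^ 2 := by
      have : 0 < 1 - ρ ^ 2 := by linarith
      positivity
    rw [le_div_iff₀ h2']
    linarith
  -- the second factor
  have hth1 : ((thDn R2 : ℕ) : ℝ) / FS ≤ thT ρ :=
    le_trans (thDn_le hR20 hR2) (hc_thT_antitone h0 h2 hr₂1)
  have hth2 : ((thDn R2 : ℕ) : ℝ) / FS ≤ log 2 - 1 / 2 := le_trans hth1 (hc_thT_le h0 hρ1)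
  have hth3 := log_two_sub_half_lt
  have hcF : Lo (1 - (S0 : ℝ) / DP) (cF S0) := lo_exact (cF_exact hS1.le)
  have hprod : Lo (((thDn R2 : ℕ) : ℝ) / FS * (1 - (S0 : ℝ) / DP)) (mulDn (thDn R2) (cF S0)) :=
    Lo.mul (lo_self _) hcF
  have h4 : Lo (((4 : ℕ) : ℝ) * (((thDn R2 : ℕ) : ℝ) / FS * (1 - (S0 : ℝ) / DP)))
      (Nat.mul 4 (mulDn (thDn R2) (cF S0))) := lo_nat_mul 4 hprod
  have hC : Hi (2785 / 10000 + 1 : ℝ) C0U := by
    apply hi_const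
    rw [FS_cast]
    unfold C0U
    norm_num
  have hX := Hi.sub hC h4
  have hth0 : 0 ≤ ((thDn R2 : ℕ) : ℝ) / FS := div_nonneg (Nat.cast_nonneg _) hS.le
  have hx0 : 0 ≤ (2785 / 10000 + 1 : ℝ) - ((4 : ℕ) : ℝ) * (((thDn R2 : ℕ) : ℝ) / FS * (1 - (S0 : ℝ) / DP)) := by
    have h5 : ((thDn R2 : ℕ) : ℝ) / FS * (1 - (S0 : ℝ) / DP) ≤ ((thDn R2 : ℕ) : ℝ) / FS * 1 :=
      mul_le_mul_of_nonneg_left (by linarith) hth0
    push_cast
    linarith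
  have hLo := logDn_le (a := DP) (b := S0) hS0 hS1.le
  have hL0' : 0 < log (1 / ((S0 : ℝ) / DP)) := by
    rw [log_one_div_frac]
    have h6 : 0 < ((logDn DP S0 : ℕ) : ℝ) / FS := by
      have : (0 : ℝ) < ((logDn DP S0 : ℕ) : ℝ) := by exact_mod_cast hL
      positivity
    exact lt_of_lt_of_le h6 hLo
  have hdiv := Hi.div hX hLo hL hx0
  have hone : Hi (1 : ℝ) FS := by
    apply hi_const
    rw [div_self hS.ne']
  have hy := Hi.add hone hdiv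
  have hy0 : 0 ≤ 1 + ((2785 / 10000 + 1 : ℝ)
      - ((4 : ℕ) : ℝ) * (((thDn R2 : ℕ) : ℝ) / FS * (1 - (S0 : ℝ) / DP))) / log (((DP : ℕ) : ℝ) / (S0 : ℕ)) := by
    have : 0 ≤ ((2785 / 10000 + 1 : ℝ)
      - ((4 : ℕ) : ℝ) * (((thDn R2 : ℕ) : ℝ) / FS * (1 - (S0 : ℝ) / DP))) / log (((DP : ℕ) : ℝ) / (S0 : ℕ)) := by
      rw [log_one_div_frac] at hL0'
      exact div_nonneg hx0 hL0'.le
    linarith
  have hfin := (Hi.mul hl hy (log_nonneg_frac hNk0' hNk1) hy0).half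
  unfold cornerB
  refine le_trans ?_ hfin
  -- compare
  have e1 : (2785 / 10000 + 1 - 4 * thT ρ * (1 - (S0 : ℝ) / DP)) / log (1 / ((S0 : ℝ) / DP))
      ≤ ((2785 / 10000 + 1 : ℝ)
      - ((4 : ℕ) : ℝ) * (((thDn R2 : ℕ) : ℝ) / FS * (1 - (S0 : ℝ) / DP))) / log (((DP : ℕ) : ℝ) / (S0 : ℕ)) := by
    rw [log_one_div_frac] at hL0' ⊢
    apply div_le_div_of_nonneg_right _ hL0'.le
    have : ((thDn R2 : ℕ) : ℝ) / FS * (1 - (S0 : ℝ) / DP) ≤ thT ρ * (1 - (S0 : ℝ) / DP) :=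
      mul_le_mul_of_nonneg_right hth1 (by linarith)
    push_cast
    linarith
  have hlogs : log (4 / ((1 - ρ ^ 2) * (1 - (S0 : ℝ) / DP) ^ 2)) ≤ log (((qnDen : ℕ) : ℝ) / ((cNk R2 S0 : ℕ) : ℝ)) := by
    have hk0 : 0 < 1 - ρ ^ 2 := by nlinarith
    apply log_le_log (div_pos (by norm_num) (mul_pos hk0 hc))
    have e : ((qnDen : ℕ) : ℝ) / ((cNk R2 S0 : ℕ) : ℝ) = 1 / (((cNk R2 S0 : ℕ) : ℝ) / qnDen) := by
      rw [one_div_div]
    rw [e, hNk]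
    have h1 : (1 - ((R2 : ℝ) / DR) ^ 2) * (1 - (S0 : ℝ) / DP) ^ 2 ≤ (1 - ρ ^ 2) * (1 - (S0 : ℝ) / DP) ^ 2 :=
      mul_le_mul_of_nonneg_right hk hc.le
    rw [one_div_div]
    exact div_le_div_of_nonneg_left (by norm_num) (by positivity) h1
  exact corner_real hlogs hl0 (add_le_add le_rfl e1) hy0

/-- The corner on a range of `ρ`. -/
theorem corner_ok {R1 R2 H S0 : ℕ} (h : cornerCheck R1 R2 H S0 = true) {ρ : ℝ} (h1 : (R1 : ℝ) / DR ≤ ρ)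
    (h2 : ρ ≤ (R2 : ℝ) / DR) (h0 : 0 < ρ) {p q : ℝ} (hq : 0 < q) (hqp : q ≤ p)
    (hs : p + q ≤ (S0 : ℝ) / DP) : 0 ≤ TT ρ (1 - p) q := by
  obtain ⟨c1, h⟩ := and_split h
  obtain ⟨c2, h⟩ := and_split h
  obtain ⟨c3, h⟩ := and_split h
  obtain ⟨c4, h⟩ := and_split h
  obtain ⟨c5, h⟩ := and_split h
  obtain ⟨c6, h⟩ := and_split h
  obtain ⟨c7, h⟩ := and_split h
  obtain ⟨c8, c9⟩ := and_split h
  have hR12 := ble_le c1
  have hR2 := blt_lt c2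
  have hR20 := blt_lt c3
  have hH0 := blt_lt c4
  have hSH : S0 = H + H := Nat.eq_of_beq_eq_true c5
  have hS4 : 4 * S0 ≤ DP := ble_le c6
  have hL := blt_lt c7
  have hS0 : 0 < S0 := by omega
  have hS1 : S0 < DP := by omega
  have hR1 : R1 < DR := by omega
  have hDP : (0 : ℝ) < (DP : ℝ) := by rw [DP_cast]; norm_num
  have hSF := FS_pos
  have hr₂1 : (R2 : ℝ) / DR < 1 := rho_lt hR2
  have hρ1 : ρ < 1 := lt_of_le_of_lt h2 hr₂1
  have hs0 : 0 < (S0 : ℝ) / DP := by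
    have : (0 : ℝ) < S0 := by exact_mod_cast hS0
    positivity
  have hs1 : (S0 : ℝ) / DP ≤ 1 / 4 := by
    rw [div_le_iff₀ hDP]
    have : (4 : ℝ) * S0 ≤ DP := by exact_mod_cast hS4
    linarith
  have hHs : (H : ℝ) / DP = (S0 : ℝ) / DP / 2 := by
    rw [hSH]
    push_cast
    ring
  have e0 : ((0 : ℕ) : ℝ) / DP = 0 := by simp
  have hB0 : 0 ≤ ((cornerB R2 S0 : ℕ) : ℝ) / FS := div_nonneg (Nat.cast_nonneg _) hSF.le
  have hBs : Hi (((cornerB R2 S0 : ℕ) : ℝ) / FS * ((S0 : ℝ) / DP)) (mulUp (cornerB R2 S0) (xF S0)) :=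
    Hi.mul1 (hi_self _) (hi_exact (xF_exact S0)) hB0
  refine hcorner h0 hρ1 hs0 hs1 (B := ((cornerB R2 S0 : ℕ) : ℝ) / FS) ?_ ?_ ?_ hq hqp hs
  · -- the first vertex
    have hA := ATb_mono (R₁ := R1) (p := (S0 : ℝ) / DP) (q := 0) h1 h0 h2 hr₂1 hs0.le le_rfl
      (by linarith) (by linarith) (by norm_num)
    obtain ⟨Ap, An, e, hAp, hAn⟩ := ATb_split (R := R1) (P := S0) (Q := 0) hR1 (by omega) hS1 (by unfold DP; norm_num)
    rw [e0] at e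
    have hgap : Hi (thb R1 - thT ((R2 : ℝ) / DR)) (Nat.sub (thUp R1) (thDn R2)) :=
      Hi.sub (thUp_ge hR1) (thDn_le hR20 hR2)
    have hu : Hi (((S0 : ℝ) / DP - 0) ^ 2) (uSq S0 0) := by
      have := uSq_exact (P := S0) (Q := 0)
      rw [e0] at this
      exact hi_exact this
    have hG0 : 0 ≤ ((Nat.sub (thUp R1) (thDn R2) : ℕ) : ℝ) / FS := div_nonneg (Nat.cast_nonneg _) hSF.le
    have hg := Hi.mul1 (hi_self _) hu hG0
    have hg' := mul_le_mul_of_nonneg_right hgap (sq_nonneg ((S0 : ℝ) / DP - 0))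
    have hall := ble_true_cast c8
    have hall2 := Hi.add hAn (Hi.add hg hBs)
    unfold Hi at hall2
    unfold Lo at hAp
    rw [e] at hA
    linarith
  · -- the second vertex
    have hA := ATb_mono (R₁ := R1) (p := (S0 : ℝ) / DP / 2) (q := (S0 : ℝ) / DP / 2) h1 h0 h2 hr₂1
      (by linarith) (by linarith) (by linarith) (by linarith) (by linarith)
    obtain ⟨Ap, An, e, hAp, hAn⟩ := ATb_split (R := R1) (P := H) (Q := H) hR1 (by omega) (by omega) (by omega)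
    rw [hHs] at e
    have hall := ble_true_cast c9
    have hall2 := Hi.add hAn hBs
    unfold Hi at hall2
    unfold Lo at hAp
    rw [e] at hA
    have e2 : ((S0 : ℝ) / DP / 2 - (S0 : ℝ) / DP / 2) ^ 2 = 0 := by ring
    rw [e2] at hA
    linarith
  · exact cornerB_ge h2 h0 hR2 hR20 hS0 hS1 hL

/-! ### The tail -/

/-- `1 - 2 m₁` over `DP`. -/
def tD (M1 : ℕ) : ℕ := Nat.sub DP (Nat.mul 2 M1)

/-- The numeric check of the tail. -/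
def tailCheck (R1 R2 M1 : ℕ) : Bool :=
  and (Nat.ble R1 R2) (and (Nat.blt R2 DR) (and (Nat.blt 0 M1) (and (Nat.ble (Nat.mul 8 M1) DP)
    (and (Nat.ble (Nat.mul 4 (thUp R1)) (logDn DP (Nat.mul 2 M1)))
      (Nat.ble
        (mulUp (thUp R1) (Nat.mul 8 (Nat.add FS
          (divUp (Nat.mul M1 M1) (Nat.mul 2 (Nat.mul (tD M1) (tD M1)))))))
        (mulDn (mulDn (kF R2) (xF (tD M1)))
          (Nat.sub (logDn DP (Nat.mul 2 M1)) (Nat.mul 4 (thUp R1)))))))))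

lemma tail_real {θ θ' k k₂ d L A : ℝ} (hθ1 : θ ≤ θ') (hA0 : 0 ≤ A) (hk2 : k₂ ≤ k) (hk20 : 0 ≤ k₂)
    (hd : 0 ≤ d) (hL4 : 0 ≤ L - 4 * θ') (hX : θ' * A ≤ k₂ * d * (L - 4 * θ')) :
    θ * A ≤ k * d * (L - 4 * θ) := by
  have h1 : θ * A ≤ θ' * A := mul_le_mul_of_nonneg_right hθ1 hA0
  have h2 : k₂ * d * (L - 4 * θ') ≤ k * d * (L - 4 * θ) := by
    apply mul_le_mul _ (by linarith) hL4 (mul_nonneg (le_trans hk20 hk2) hd)
    exact mul_le_mul_of_nonneg_right hk2 hd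
  linarith

lemma tail_log {M1 : ℕ} (hM : 0 < M1) :
    log (((DP : ℕ) : ℝ) / ((Nat.mul 2 M1 : ℕ) : ℝ)) = log (1 / (2 * ((M1 : ℝ) / DP))) := by
  have h0 : (0 : ℝ) < M1 := by exact_mod_cast hM
  have h1 : ((Nat.mul 2 M1 : ℕ) : ℝ) = 2 * (M1 : ℝ) := by
    show ((2 * M1 : ℕ) : ℝ) = _
    push_cast
    ring
  have e : ((DP : ℕ) : ℝ) / ((Nat.mul 2 M1 : ℕ) : ℝ) = 1 / (2 * ((M1 : ℝ) / DP)) := by
    rw [h1, DP_cast]
    field_simp
  rw [e]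

lemma tail_tD {M1 : ℕ} (h2M : 2 * M1 ≤ DP) : ((tD M1 : ℕ) : ℝ) / DP = 1 - 2 * ((M1 : ℝ) / DP) := by
  have hDP : (0 : ℝ) < (DP : ℝ) := by rw [DP_cast]; norm_num
  show ((DP - 2 * M1 : ℕ) : ℝ) / _ = _
  rw [Nat.cast_sub h2M]
  push_cast
  field_simp

/-- The left side of the condition of the tail. -/
lemma tail_lhs {M1 : ℕ} (Th : ℕ) (hM0 : 0 < M1) (hM8 : 8 * M1 ≤ DP) :
    Hi (((Th : ℕ) : ℝ) / FS * (8 * (1 + ((M1 : ℝ) / DP) ^ 2 / (2 * (1 - 2 * ((M1 : ℝ) / DP)) ^ 2))))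
      (mulUp Th (Nat.mul 8 (Nat.add FS
        (divUp (Nat.mul M1 M1) (Nat.mul 2 (Nat.mul (tD M1) (tD M1))))))) := by
  have hDP : (0 : ℝ) < (DP : ℝ) := by rw [DP_cast]; norm_num
  have hSF := FS_pos
  have h2M : 2 * M1 ≤ DP := by omega
  have htD := tail_tD h2M
  set m := (M1 : ℝ) / DP with hmdef
  have hm0 : 0 < m := by
    have : (0 : ℝ) < M1 := by exact_mod_cast hM0
    rw [hmdef]
    positivity
  have hmsq : ((Nat.mul M1 M1 : ℕ) : ℝ) / FS = m ^ 2 := by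
    show ((M1 * M1 : ℕ) : ℝ) / _ = _
    rw [hmdef, FS_cast, DP_cast]
    push_cast
    ring
  have hdsq : ((Nat.mul 2 (Nat.mul (tD M1) (tD M1)) : ℕ) : ℝ) / FS = 2 * (1 - 2 * m) ^ 2 := by
    show ((2 * (tD M1 * tD M1) : ℕ) : ℝ) / _ = _
    rw [← htD, FS_cast, DP_cast]
    push_cast
    ring
  have htDn : 0 < tD M1 := by
    show 0 < DP - 2 * M1
    unfold DP at hM8 ⊢
    omega
  have hdsq0 : 0 < Nat.mul 2 (Nat.mul (tD M1) (tD M1)) := by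
    show 0 < 2 * (tD M1 * tD M1)
    positivity
  have hfrac : Hi (m ^ 2 / (2 * (1 - 2 * m) ^ 2)) (divUp (Nat.mul M1 M1) (Nat.mul 2 (Nat.mul (tD M1) (tD M1)))) :=
    Hi.div (hi_exact hmsq) (lo_exact hdsq) hdsq0 (by positivity)
  have hone : Hi (1 : ℝ) FS := by
    apply hi_const
    rw [div_self hSF.ne']
  have hsum := hi_nat_mul 8 (Hi.add hone hfrac)
  have e48 : ((8 : ℕ) : ℝ) = 8 := by norm_num
  rw [e48] at hsum
  have hA0 : 0 ≤ (8 : ℝ) * (1 + m ^ 2 / (2 * (1 - 2 * m) ^ 2)) := by positivity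
  exact Hi.mul (hi_self _) hsum (div_nonneg (Nat.cast_nonneg _) hSF.le) hA0

/-- The right side of the condition of the tail. -/
lemma tail_rhs {R2 M1 Th : ℕ} (hR2 : R2 < DR) (hM0 : 0 < M1) (hM8 : 8 * M1 ≤ DP)
    (hth4 : Nat.mul 4 Th ≤ logDn DP (Nat.mul 2 M1)) :
    0 ≤ log (1 / (2 * ((M1 : ℝ) / DP))) - 4 * ((Th : ℝ) / FS) ∧
    Lo ((1 - ((R2 : ℝ) / DR) ^ 2) * (1 - 2 * ((M1 : ℝ) / DP))
        * (log (1 / (2 * ((M1 : ℝ) / DP))) - 4 * ((Th : ℝ) / FS)))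
      (mulDn (mulDn (kF R2) (xF (tD M1))) (Nat.sub (logDn DP (Nat.mul 2 M1)) (Nat.mul 4 Th))) := by
  have hSF := FS_pos
  have h2M : 2 * M1 ≤ DP := by omega
  have hM2pos : 0 < Nat.mul 2 M1 := by
    show 0 < 2 * M1
    omega
  have hM2le : Nat.mul 2 M1 ≤ DP := h2M
  have hk := kF_exact hR2.le
  have hx := xF_exact (tD M1)
  rw [tail_tD h2M] at hx
  have hLo := logDn_le (a := DP) (b := Nat.mul 2 M1) hM2pos hM2le
  rw [tail_log hM0] at hLo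
  have h4th : Hi (((4 : ℕ) : ℝ) * ((Th : ℝ) / FS)) (Nat.mul 4 Th) := hi_nat_mul 4 (hi_self _)
  have e44 : ((4 : ℕ) : ℝ) = 4 := by norm_num
  rw [e44] at h4th
  have hcmp : ((Nat.mul 4 Th : ℕ) : ℝ) / FS ≤ ((logDn DP (Nat.mul 2 M1) : ℕ) : ℝ) / FS := by
    apply div_le_div_of_nonneg_right _ hSF.le
    exact_mod_cast hth4
  have hL4 : 0 ≤ log (1 / (2 * ((M1 : ℝ) / DP))) - 4 * ((Th : ℝ) / FS) := by
    have : (4 : ℝ) * ((Th : ℝ) / FS) = ((Nat.mul 4 Th : ℕ) : ℝ) / FS := by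
      show _ = ((4 * Th : ℕ) : ℝ) / _
      push_cast
      ring
    rw [this]
    unfold Lo at hLo
    linarith
  refine ⟨hL4, ?_⟩
  exact Lo.mul (Lo.mul (lo_exact hk) (lo_exact hx)) (Lo.sub hLo h4th hL4)

/-- The tail on a range of `ρ`. -/
theorem tail_ok {R1 R2 M1 : ℕ} (h : tailCheck R1 R2 M1 = true) {ρ : ℝ} (h1 : (R1 : ℝ) / DR ≤ ρ)
    (h2 : ρ ≤ (R2 : ℝ) / DR) (h0 : 0 < ρ) {a₀ a₁ : ℝ} (ha1 : 0 < a₁) (hlt : a₁ < a₀)
    (hm : (a₀ + a₁) / 2 ≤ (M1 : ℝ) / DP) : 0 ≤ TT ρ a₀ a₁ := by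
  obtain ⟨c1, h⟩ := and_split h
  obtain ⟨c2, h⟩ := and_split h
  obtain ⟨c3, h⟩ := and_split h
  obtain ⟨c4, h⟩ := and_split h
  obtain ⟨c5, c6⟩ := and_split h
  have hR12 := ble_le c1
  have hR2 := blt_lt c2
  have hM0 := blt_lt c3
  have hM8 : 8 * M1 ≤ DP := ble_le c4
  have hth4 : Nat.mul 4 (thUp R1) ≤ logDn DP (Nat.mul 2 M1) := ble_le c5
  have hR1 : R1 < DR := by omega
  have hDP : (0 : ℝ) < (DP : ℝ) := by rw [DP_cast]; norm_num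
  have hSF := FS_pos
  have hr₂1 : (R2 : ℝ) / DR < 1 := rho_lt hR2
  have hρ1 : ρ < 1 := lt_of_le_of_lt h2 hr₂1
  have hm0 : 0 < (M1 : ℝ) / DP := by
    have : (0 : ℝ) < M1 := by exact_mod_cast hM0
    positivity
  have hm1 : (M1 : ℝ) / DP ≤ 1 / 8 := by
    rw [div_le_iff₀ hDP]
    have : (8 : ℝ) * M1 ≤ DP := by exact_mod_cast hM8
    linarith
  refine htail h0 hρ1 hm0 hm1 ?_ ha1 hlt hm
  have hθ := thUp_ge hR1
  have hθ1 : thT ρ ≤ ((thUp R1 : ℕ) : ℝ) / FS := le_trans (thb_ge_of h1 h0 hρ1) hθ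
  have hlhs := tail_lhs (thUp R1) hM0 hM8
  obtain ⟨hL4, hrhs⟩ := tail_rhs (R2 := R2) hR2 hM0 hM8 hth4
  have hall := ble_true_cast c6
  unfold Hi at hlhs
  unfold Lo at hrhs
  have hk2 : 1 - ((R2 : ℝ) / DR) ^ 2 ≤ 1 - ρ ^ 2 := by nlinarith
  have hr20 : 0 ≤ (R2 : ℝ) / DR := div_nonneg (Nat.cast_nonneg _) (by rw [DR_cast]; norm_num)
  have hk20 : 0 ≤ 1 - ((R2 : ℝ) / DR) ^ 2 := by nlinarith
  have hd0 : 0 ≤ 1 - 2 * ((M1 : ℝ) / DP) := by linarith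
  have hA0 : 0 ≤ 8 * (1 + ((M1 : ℝ) / DP) ^ 2 / (2 * (1 - 2 * ((M1 : ℝ) / DP)) ^ 2)) := by positivity
  exact tail_real hθ1 hA0 hk2 hk20 hd0 hL4 (le_trans hlhs (le_trans hall hrhs))

/-! ### The closure on a range of `ρ` -/

/-- The closure on a range of `ρ`, from the corner, the tail and the walker. -/
theorem slab_closure {R1 R2 H S0 M1 PL : ℕ} (hc : cornerCheck R1 R2 H S0 = true)
    (ht : tailCheck R1 R2 M1 = true) (hPL : Nat.ble PL H = true)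
    (hcov : CovW S0 M1 R1 R2 PL 4294967296 0 2147483648) {ρ : ℝ} (h1 : (R1 : ℝ) / DR ≤ ρ)
    (h2 : ρ ≤ (R2 : ℝ) / DR) (h0 : 0 < ρ) : TClosure ρ := by
  intro a₀ a₁ ha1 hlt ha0 hs
  have hDP : (0 : ℝ) < (DP : ℝ) := by rw [DP_cast]; norm_num
  have e : (1 - (1 - a₀)) = a₀ := by ring
  by_cases hS : (S0 : ℝ) / DP ≤ (1 - a₀) + a₁
  · by_cases hM : (M1 : ℝ) / DP ≤ (1 - (1 - a₀) + a₁) / 2
    · have hcheck := hcov ρ (1 - a₀) a₁ h1 h2 h0 ?_ ?_ ?_ ?_ ha1 (by linarith) (by linarith) hS hM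
      · rwa [e] at hcheck
      · -- the lower bound of `p`
        obtain ⟨_, hc⟩ := and_split hc
        obtain ⟨_, hc⟩ := and_split hc
        obtain ⟨_, hc⟩ := and_split hc
        obtain ⟨_, hc⟩ := and_split hc
        obtain ⟨c5, _⟩ := and_split hc
        have hSH : S0 = H + H := Nat.eq_of_beq_eq_true c5
        have hPH := ble_le hPL
        have h3 : (PL : ℝ) ≤ H := by exact_mod_cast hPH
        have h4 : (S0 : ℝ) = 2 * H := by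
          rw [hSH]
          push_cast
          ring
        rw [h4, mul_div_assoc] at hS
        have h5 : (PL : ℝ) / DP ≤ (H : ℝ) / DP := div_le_div_of_nonneg_right h3 hDP.le
        linarith
      · rw [DP_cast]
        norm_num
        linarith
      · rw [DP_cast]
        norm_num
        exact ha1.le
      · rw [DP_cast]
        norm_num
        linarith
    · push Not at hM
      have hm : (a₀ + a₁) / 2 ≤ (M1 : ℝ) / DP := by linarith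
      exact tail_ok ht h1 h2 h0 ha1 hlt hm
  · push Not at hS
    have := corner_ok hc h1 h2 h0 (p := 1 - a₀) (q := a₁) ha1 (by linarith) hS.le
    rwa [e] at this

end Vale.Agent.P322
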