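import Vale.Agent.P322.HCLeaf

/-!
The walker of the high noise regime: a binary tree of cells, coded by a natural number in base 8,
is checked by a structural recursion on the depth.
-/

namespace Vale.Agent.P322

open Real

/-- The closure on a half open box of the grid, outside the corner and the tail. -/
def CovW (S0 M1 R1 R2 P1 P2 Q1 Q2 : ℕ) : Prop :=
  ∀ ρ p q : ℝ, (R1 : ℝ) / DR ≤ ρ → ρ ≤ (R2 : ℝ) / DR → 0 < ρ →
    (P1 : ℝ) / DP ≤ p → p < (P2 : ℝ) / DP → (Q1 : ℝ) / DP ≤ q → q < (Q2 : ℝ) / DP → 0 < q → q ≤ p →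
    p + q < 1 → (S0 : ℝ) / DP ≤ p + q → (M1 : ℝ) / DP ≤ (1 - p + q) / 2 → 0 ≤ TT ρ (1 - p) q

lemma CovW.of_covH {S0 M1 R1 R2 P1 P2 Q1 Q2 : ℕ} (h : CovH S0 M1 R1 R2 P1 P2 Q1 Q2) :
    CovW S0 M1 R1 R2 P1 P2 Q1 Q2 := by
  intro ρ p q h1 h2 h3 h4 h5 h6 h7 h8 h9 h10 h11 h12
  exact h ρ p q h1 h2 h3 h4 h5.le h6 h7.le h8 h9 h10 h11 h12

lemma CovW.split_p {S0 M1 R1 R2 P1 P2 Q1 Q2 : ℕ} (M : ℕ) (h1 : CovW S0 M1 R1 R2 P1 M Q1 Q2)
    (h2 : CovW S0 M1 R1 R2 M P2 Q1 Q2) : CovW S0 M1 R1 R2 P1 P2 Q1 Q2 := by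
  intro ρ p q a1 a2 a3 a4 a5 a6 a7 a8 a9 a10 a11 a12
  rcases lt_or_ge p ((M : ℝ) / DP) with hm | hm
  · exact h1 ρ p q a1 a2 a3 a4 hm a6 a7 a8 a9 a10 a11 a12
  · exact h2 ρ p q a1 a2 a3 hm a5 a6 a7 a8 a9 a10 a11 a12

lemma CovW.split_q {S0 M1 R1 R2 P1 P2 Q1 Q2 : ℕ} (M : ℕ) (h1 : CovW S0 M1 R1 R2 P1 P2 Q1 M)
    (h2 : CovW S0 M1 R1 R2 P1 P2 M Q2) : CovW S0 M1 R1 R2 P1 P2 Q1 Q2 := by
  intro ρ p q a1 a2 a3 a4 a5 a6 a7 a8 a9 a10 a11 a12
  rcases lt_or_ge q ((M : ℝ) / DP) with hm | hm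
  · exact h1 ρ p q a1 a2 a3 a4 a5 a6 hm a8 a9 a10 a11 a12
  · exact h2 ρ p q a1 a2 a3 a4 a5 hm a7 a8 a9 a10 a11 a12

lemma CovW.split_r {S0 M1 R1 R2 P1 P2 Q1 Q2 : ℕ} (M : ℕ) (h1 : CovW S0 M1 R1 M P1 P2 Q1 Q2)
    (h2 : CovW S0 M1 M R2 P1 P2 Q1 Q2) : CovW S0 M1 R1 R2 P1 P2 Q1 Q2 := by
  intro ρ p q a1 a2 a3 a4 a5 a6 a7 a8 a9 a10 a11 a12
  rcases le_total ρ ((M : ℝ) / DR) with hm | hm
  · exact h1 ρ p q a1 hm a3 a4 a5 a6 a7 a8 a9 a10 a11 a12
  · exact h2 ρ p q hm a2 a3 a4 a5 a6 a7 a8 a9 a10 a11 a12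

/-- The test for a box without points of the region. -/
def skipT (S0 M1 P1 P2 Q1 Q2 : ℕ) : Bool :=
  or (Nat.ble P2 Q1) (or (Nat.ble DP (Nat.add P1 Q1))
    (or (Nat.ble (Nat.add P2 Q2) S0) (Nat.ble (Nat.add (Nat.sub DP P1) Q2) (Nat.mul 2 M1))))

lemma CovW.of_skip {S0 M1 R1 R2 P1 P2 Q1 Q2 : ℕ} (h : skipT S0 M1 P1 P2 Q1 Q2 = true) :
    CovW S0 M1 R1 R2 P1 P2 Q1 Q2 := by
  intro ρ p q _ _ _ a4 a5 a6 a7 _ a9 a10 a11 a12
  exfalso
  have hD : (0 : ℝ) < (DP : ℝ) := by rw [DP_cast]; norm_num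
  rw [div_le_iff₀ hD] at a4 a6 a11
  rw [lt_div_iff₀ hD] at a5 a7
  rw [div_le_iff₀ hD] at a12
  unfold skipT at h
  simp only [Bool.or_eq_true] at h
  rcases h with h | h | h | h
  · have h1 : (P2 : ℝ) ≤ Q1 := by exact_mod_cast Nat.le_of_ble_eq_true h
    nlinarith
  · have h1 : DP ≤ P1 + Q1 := Nat.le_of_ble_eq_true h
    have h2 : (DP : ℝ) ≤ (P1 : ℝ) + Q1 := by exact_mod_cast h1
    nlinarith
  · have h1 : P2 + Q2 ≤ S0 := Nat.le_of_ble_eq_true h
    have h2 : (P2 : ℝ) + Q2 ≤ S0 := by exact_mod_cast h1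
    nlinarith
  · have h1 : (DP - P1) + Q2 ≤ 2 * M1 := Nat.le_of_ble_eq_true h
    have h2 : ((DP - P1 : ℕ) : ℝ) + Q2 ≤ 2 * (M1 : ℝ) := by exact_mod_cast h1
    have h3 : (DP : ℝ) - P1 ≤ ((DP - P1 : ℕ) : ℝ) := by
      have : (DP : ℝ) ≤ ((DP - P1 + P1 : ℕ) : ℝ) := by
        have : DP ≤ DP - P1 + P1 := by omega
        exact_mod_cast this
      push_cast at this
      linarith
    nlinarith

/-- The walker: a tree in base 8, digits `0,1,2` split `p,q,ρ`, `3` skips, `4,5,6` are the tests of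
the leaves. -/
def walk (S0 M1 : ℕ) : ℕ → ℕ → ℕ → ℕ → ℕ → ℕ → ℕ → ℕ → Option ℕ
  | 0, _, _, _, _, _, _, _ => none
  | Nat.succ f, R1, R2, P1, P2, Q1, Q2, c =>
    cond (Nat.ble 3 (Nat.land c 7))
      (cond (Nat.ble (Nat.land c 7) 3)
        (cond (skipT S0 M1 P1 P2 Q1 Q2) (some (Nat.shiftRight c 3)) none)
        (cond (Nat.ble (Nat.land c 7) 4)
          (cond (cleaf R1 R2 P1 P2 Q1 Q2) (some (Nat.shiftRight c 3)) none)
          (cond (Nat.ble (Nat.land c 7) 5)
            (cond (dleafA R1 R2 P1 P2 Q1 Q2) (some (Nat.shiftRight c 3)) none)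
            (cond (dleafB R1 R2 P1 P2 Q1 Q2) (some (Nat.shiftRight c 3)) none))))
      (cond (Nat.ble (Nat.land c 7) 0)
        (match walk S0 M1 f R1 R2 P1 (Nat.shiftRight (Nat.add P1 P2) 1) Q1 Q2 (Nat.shiftRight c 3) with
          | none => none
          | some c' => walk S0 M1 f R1 R2 (Nat.shiftRight (Nat.add P1 P2) 1) P2 Q1 Q2 c')
        (cond (Nat.ble (Nat.land c 7) 1)
          (match walk S0 M1 f R1 R2 P1 P2 Q1 (Nat.shiftRight (Nat.add Q1 Q2) 1) (Nat.shiftRight c 3) with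
            | none => none
            | some c' => walk S0 M1 f R1 R2 P1 P2 (Nat.shiftRight (Nat.add Q1 Q2) 1) Q2 c')
          (match walk S0 M1 f R1 (Nat.shiftRight (Nat.add R1 R2) 1) P1 P2 Q1 Q2 (Nat.shiftRight c 3) with
            | none => none
            | some c' => walk S0 M1 f (Nat.shiftRight (Nat.add R1 R2) 1) R2 P1 P2 Q1 Q2 c')))

theorem walk_sound {S0 M1 : ℕ} : ∀ (f R1 R2 P1 P2 Q1 Q2 c c' : ℕ),
    walk S0 M1 f R1 R2 P1 P2 Q1 Q2 c = some c' → CovW S0 M1 R1 R2 P1 P2 Q1 Q2 := by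
  intro f
  induction f with
  | zero =>
    intro R1 R2 P1 P2 Q1 Q2 c c' h
    simp [walk] at h
  | succ f ih =>
    intro R1 R2 P1 P2 Q1 Q2 c c' h
    rw [walk] at h
    cases h1 : Nat.ble 3 (Nat.land c 7) with
    | true =>
      rw [h1] at h
      simp only [cond_true] at h
      cases h2 : Nat.ble (Nat.land c 7) 3 with
      | true =>
        rw [h2] at h
        simp only [cond_true] at h
        cases h3 : skipT S0 M1 P1 P2 Q1 Q2 with
        | true => exact CovW.of_skip h3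
        | false =>
          rw [h3] at h
          simp at h
      | false =>
        rw [h2] at h
        simp only [cond_false] at h
        cases h3 : Nat.ble (Nat.land c 7) 4 with
        | true =>
          rw [h3] at h
          simp only [cond_true] at h
          cases h4 : cleaf R1 R2 P1 P2 Q1 Q2 with
          | true => exact CovW.of_covH (cleaf_sound h4)
          | false =>
            rw [h4] at h
            simp at h
        | false =>
          rw [h3] at h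
          simp only [cond_false] at h
          cases h4 : Nat.ble (Nat.land c 7) 5 with
          | true =>
            rw [h4] at h
            simp only [cond_true] at h
            cases h5 : dleafA R1 R2 P1 P2 Q1 Q2 with
            | true => exact CovW.of_covH (dleafA_sound h5)
            | false =>
              rw [h5] at h
              simp at h
          | false =>
            rw [h4] at h
            simp only [cond_false] at h
            cases h5 : dleafB R1 R2 P1 P2 Q1 Q2 with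
            | true => exact CovW.of_covH (dleafB_sound h5)
            | false =>
              rw [h5] at h
              simp at h
    | false =>
      rw [h1] at h
      simp only [cond_false] at h
      cases h2 : Nat.ble (Nat.land c 7) 0 with
      | true =>
        rw [h2] at h
        simp only [cond_true] at h
        split at h
        · simp at h
        · next c1 h3 => exact CovW.split_p _ (ih _ _ _ _ _ _ _ _ h3) (ih _ _ _ _ _ _ _ _ h)
      | false =>
        rw [h2] at h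
        simp only [cond_false] at h
        cases h3 : Nat.ble (Nat.land c 7) 1 with
        | true =>
          rw [h3] at h
          simp only [cond_true] at h
          split at h
          · simp at h
          · next c1 h4 => exact CovW.split_q _ (ih _ _ _ _ _ _ _ _ h4) (ih _ _ _ _ _ _ _ _ h)
        | false =>
          rw [h3] at h
          simp only [cond_false] at h
          split at h
          · simp at h
          · next c1 h4 => exact CovW.split_r _ (ih _ _ _ _ _ _ _ _ h4) (ih _ _ _ _ _ _ _ _ h)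

/-- What a data module checks. -/
def walkOK (S0 M1 f R1 R2 P1 P2 Q1 Q2 c : ℕ) : Bool :=
  match walk S0 M1 f R1 R2 P1 P2 Q1 Q2 c with
  | none => false
  | some _ => true

theorem walkOK_sound {S0 M1 f R1 R2 P1 P2 Q1 Q2 c : ℕ} (h : walkOK S0 M1 f R1 R2 P1 P2 Q1 Q2 c = true) :
    CovW S0 M1 R1 R2 P1 P2 Q1 Q2 := by
  unfold walkOK at h
  split at h
  · simp at h
  · next c' h2 => exact walk_sound _ _ _ _ _ _ _ _ _ h2

end Vale.Agent.P322
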