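import Vale.Agent.P322.Power

/-!
The mutual information as a difference of binary entropies.
-/

namespace Vale.Agent.P322

open Finset

/-- The indicator of the event `f = true`. -/
noncomputable def indicator {n : ℕ} (f : Cube n → Bool) (x : Cube n) : ℝ :=
  if f x = true then 1 else 0

lemma avg_const {n : ℕ} (c : ℝ) : avg (fun _ : Cube n => c) = c := by
  unfold avg
  simp [Finset.card_univ]

/-- The noise operator fixes constants. -/
lemma noise_const {ε : ℝ} : ∀ {n : ℕ} (c : ℝ) (y : Cube n), noise ε (fun _ => c) y = c := by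
  intro n
  induction n with
  | zero =>
    intro c y
    rw [noise_zero_dim]
  | succ n ih =>
    intro c y
    obtain ⟨b, y', rfl⟩ : ∃ b y', y = Fin.cons b y' :=
      ⟨y 0, Fin.tail y, (Fin.cons_self_tail y).symm⟩
    cases b
    · rw [noise_cons_false, ih]
      ring
    · rw [noise_cons_true, ih]
      ring

lemma noise_sub {ε : ℝ} {n : ℕ} (g : Cube n → ℝ) (y : Cube n) :
    noise ε (fun x => 1 - g x) y = 1 - noise ε g y := by
  have h := noise_const (ε := ε) (1 : ℝ) y
  unfold noise at *
  simp only [mul_sub, mul_one, sum_sub_distrib] at *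
  rw [h]

lemma joint_true {n : ℕ} (ε : ℝ) (f : Cube n → Bool) (y : Cube n) :
    joint ε f true y = (1 / 2 ^ n) * noise ε (indicator f) y := by
  unfold joint noise indicator
  rw [mul_sum]
  refine sum_congr rfl fun x _ => ?_
  split_ifs <;> ring

lemma joint_false {n : ℕ} (ε : ℝ) (f : Cube n → Bool) (y : Cube n) :
    joint ε f false y = (1 / 2 ^ n) * (1 - noise ε (indicator f) y) := by
  rw [← noise_sub]
  unfold joint noise indicator
  rw [mul_sum]
  refine sum_congr rfl fun x _ => ?_
  cases hfx : f x <;> simp [hfx]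

lemma indicator_mem {n : ℕ} (f : Cube n → Bool) (x : Cube n) :
    0 ≤ indicator f x ∧ indicator f x ≤ 1 := by
  unfold indicator
  split_ifs <;> norm_num

/-- The inner sum in the mutual information. -/
lemma avg_mul_logb_div {n : ℕ} (P : Cube n → ℝ) (hP : ∀ y, 0 ≤ P y) :
    ∑ y, (1 / 2 ^ n) * P y * Real.logb 2 ((1 / 2 ^ n) * P y / (avg P * (1 / 2 ^ n))) =
      avg (fun y => P y * Real.logb 2 (P y)) - avg P * Real.logb 2 (avg P) := by
  have hpos : (2 : ℝ) ^ n ≠ 0 := by positivity
  have hkey : ∀ y, (1 / 2 ^ n) * P y * Real.logb 2 ((1 / 2 ^ n) * P y / (avg P * (1 / 2 ^ n))) =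
      (1 / 2 ^ n) * (P y * Real.logb 2 (P y) - P y * Real.logb 2 (avg P)) := by
    intro y
    by_cases h0 : P y = 0
    · simp [h0]
    by_cases ha : avg P = 0
    · exfalso
      have hy : 0 < P y := lt_of_le_of_ne (hP y) (Ne.symm h0)
      have : 0 < ∑ y, P y := sum_pos' (fun y _ => hP y) ⟨y, mem_univ y, hy⟩
      have h3 : 0 < avg P := by
        unfold avg
        positivity
      linarith
    have e : (1 / 2 ^ n) * P y / (avg P * (1 / 2 ^ n)) = P y / avg P := by
      field_simp
    rw [e, Real.logb_div h0 ha]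
    ring
  simp only [hkey]
  rw [← mul_sum, sum_sub_distrib, ← sum_mul]
  unfold avg
  field_simp

/-- Mutual information in terms of the binary entropy. -/
theorem mutualInfo_eq {ε : ℝ} (h0 : 0 ≤ ε) (h1 : ε ≤ 1) {n : ℕ} (f : Cube n → Bool) :
    mutualInfo ε f = h2 (avg (indicator f)) - avg (fun y => h2 (noise ε (indicator f) y)) := by
  set p := noise ε (indicator f) with hp
  have hp01 := noise_mem h0 h1 (indicator f) (indicator_mem f)
  have hpos : (2 : ℝ) ^ n ≠ 0 := by positivity
  have hsum_y : ∀ y, ∑ b', joint ε f b' y = 1 / 2 ^ n := by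
    intro y
    rw [Fintype.sum_bool, joint_true, joint_false]
    ring
  have havg : avg p = avg (indicator f) := avg_noise _
  have hsum_t : ∑ y', joint ε f true y' = avg p := by
    simp only [joint_true]
    unfold avg
    rw [← mul_sum]
    ring
  have hsum_f : ∑ y', joint ε f false y' = avg (fun y => 1 - p y) := by
    simp only [joint_false]
    unfold avg
    rw [← mul_sum]
    ring
  have hcompl : avg (fun y => 1 - p y) = 1 - avg p := by
    have : (fun y => 1 - p y) = fun y => 1 + (-1) * p y := by
      funext y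
      ring
    rw [this, avg_add, avg_const_mul, avg_const]
    ring
  unfold mutualInfo
  rw [Fintype.sum_bool]
  simp only [hsum_y, hsum_t, hsum_f]
  simp only [joint_true, joint_false]
  have e1 := avg_mul_logb_div p (fun y => (hp01 y).1)
  have e2 := avg_mul_logb_div (fun y => 1 - p y) (fun y => by linarith [(hp01 y).2])
  rw [e1, e2, hcompl, havg]
  unfold h2
  have e3 : avg (fun y => -p y * Real.logb 2 (p y) - (1 - p y) * Real.logb 2 (1 - p y)) =
      -(avg (fun y => p y * Real.logb 2 (p y)) +
        avg (fun y => (1 - p y) * Real.logb 2 (1 - p y))) := by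
    unfold avg
    rw [← add_div, ← neg_div, ← sum_add_distrib, ← sum_neg_distrib]
    congr 1
    refine sum_congr rfl fun y _ => ?_
    ring
  rw [e3]
  ring

/-- `h2` in terms of Mathlib's binary entropy in nats. -/
lemma h2_eq (p : ℝ) : h2 p = Real.binEntropy p / Real.log 2 := by
  unfold h2 Real.binEntropy Real.logb
  rw [Real.log_inv, Real.log_inv]
  ring

lemma avg_div {n : ℕ} (F : Cube n → ℝ) (c : ℝ) : avg (fun y => F y / c) = avg F / c := by
  unfold avg
  rw [← sum_div]
  ring

/-- The bound `log 2 * (1 - I) = log 2 - h(a) + E h(p)` in nats. -/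
lemma one_sub_mutualInfo {ε : ℝ} (h0 : 0 ≤ ε) (h1 : ε ≤ 1) {n : ℕ} (f : Cube n → Bool) :
    Real.log 2 * (1 - mutualInfo ε f) =
      Real.log 2 - Real.binEntropy (avg (indicator f))
        + avg (fun y => Real.binEntropy (noise ε (indicator f) y)) := by
  have hl : Real.log 2 ≠ 0 := (Real.log_pos (by norm_num)).ne'
  rw [mutualInfo_eq h0 h1]
  simp only [h2_eq]
  rw [avg_div]
  field_simp
  ring

end Vale.Agent.P322
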