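import Vale.Agent.P322.HCorner
import Vale.Agent.P322.PEnv

/-!
The corner lemma for the symmetric plane: near the corner `(1,0)`, the plane with symmetric contact
`(1/2 + τ/2, 1/2 - τ/2)`, `τ = 1 - 2 lam s`, closes the induction for the envelope `W`.
-/

namespace Vale.Agent.P322

open Real

lemma kc_ThN_nonneg {ρ : ℝ} (h0 : 0 < ρ) (h1 : ρ < 1) : 0 ≤ ThN ρ := by
  rw [hc_ThN_eq h0 h1]
  exact mul_nonneg (by positivity) (hc_thT_nonneg h0 h1)

lemma kc_kN_pos {ρ : ℝ} (h0 : 0 < ρ) (h1 : ρ < 1) : 0 < kN ρ := by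
  unfold kN
  nlinarith

lemma kc_kN_le {ρ : ℝ} : kN ρ ≤ 1 := by
  unfold kN
  nlinarith [sq_nonneg ρ]

/-- The entropy is subadditive. -/
lemma kc_entropy_subadd {p q : ℝ} (hp : 0 ≤ p) (hq : 0 ≤ q) (hs : p + q ≤ 1) :
    binEntropy (p + q) ≤ binEntropy p + binEntropy q := by
  rcases eq_or_lt_of_le (add_nonneg hp hq) with h | h
  · have hp0 : p = 0 := by linarith
    have hq0 : q = 0 := by linarith
    subst hp0 hq0
    simp
  have hconc := Real.strictConcave_binEntropy.concaveOn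
  have key : ∀ x : ℝ, 0 ≤ x → x ≤ p + q → (x / (p + q)) * binEntropy (p + q) ≤ binEntropy x := by
    intro x hx0 hx
    have h1 : 0 ≤ x / (p + q) := by positivity
    have h2 : x / (p + q) ≤ 1 := by
      rw [div_le_one h]
      exact hx
    have := hconc.2 (x := p + q) (y := 0) ⟨by linarith, hs⟩ ⟨le_refl _, by norm_num⟩ h1
      (by linarith : 0 ≤ 1 - x / (p + q)) (by ring)
    simp only [smul_eq_mul, mul_zero, add_zero, binEntropy_zero] at this
    rwa [show x / (p + q) * (p + q) = x by field_simp] at this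
  have h1 := key p hp (by linarith)
  have h2 := key q hq (by linarith)
  have e : p / (p + q) + q / (p + q) = 1 := by
    field_simp
  calc binEntropy (p + q) = (p / (p + q) + q / (p + q)) * binEntropy (p + q) := by rw [e, one_mul]
    _ = p / (p + q) * binEntropy (p + q) + q / (p + q) * binEntropy (p + q) := by ring
    _ ≤ _ := add_le_add h1 h2

lemma kc_WW_subadd {ρ p q : ℝ} (h0 : 0 < ρ) (h1 : ρ < 1) (hp : 0 ≤ p) (hq : 0 ≤ q)
    (hs : p + q ≤ 1) : WW ρ (p + q) ≤ WW ρ p + WW ρ q := by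
  unfold WW wQ
  have h2 := kc_entropy_subadd hp hq hs
  have h3 := kc_ThN_nonneg h0 h1
  have h4 := kc_kN_pos h0 h1
  have h5 : kN ρ * binEntropy (p + q) ≤ kN ρ * (binEntropy p + binEntropy q) :=
    mul_le_mul_of_nonneg_left h2 h4.le
  have h6 : ThN ρ * (4 * (p + q) * (1 - (p + q))) ≤ ThN ρ * (4 * p * (1 - p) + 4 * q * (1 - q)) := by
    apply mul_le_mul_of_nonneg_left _ h3
    nlinarith [mul_nonneg hp hq]
  nlinarith

lemma kc_WW_le {ρ a : ℝ} (h0 : 0 < ρ) (h1 : ρ < 1) : WW ρ a ≤ hN ρ := by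
  unfold WW
  have h3 := kc_ThN_nonneg h0 h1
  have h4 := kc_kN_pos h0 h1
  have h5 : binEntropy a ≤ log 2 := binEntropy_le_log_two
  have h6 : wQ a ≤ 1 := by
    unfold wQ
    nlinarith [sq_nonneg (2 * a - 1)]
  have h7 : kN ρ * binEntropy a ≤ kN ρ * log 2 := mul_le_mul_of_nonneg_left h5 h4.le
  have h8 : ThN ρ * wQ a ≤ ThN ρ * 1 := mul_le_mul_of_nonneg_left h6 h3
  have e : hN ρ = ThN ρ + kN ρ * log 2 := by
    unfold ThN
    ring
  rw [e]
  linarith

/-- `h(s) ≥ s log(1/s) + s(1-s)`. -/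
lemma kc_entropy_ge {s : ℝ} (h0 : 0 < s) (h1 : s < 1) :
    s * log (1 / s) + s * (1 - s) ≤ binEntropy s := by
  rw [binEntropy_eq]
  have e : log (1 / s) = -log s := by
    rw [one_div, log_inv]
  rw [e]
  have h2 : log (1 - s) ≤ -s := by
    have := log_le_sub_one_of_pos (by linarith : 0 < 1 - s)
    linarith
  have h3 : 0 < 1 - s := by linarith
  nlinarith [mul_le_mul_of_nonneg_left h2 h3.le]

/-- The first corner inequality. -/
lemma kc_Z {ρ lam s₀ s : ℝ} (h0 : 0 < ρ) (h1 : ρ < 1) (hl0 : 0 < lam) (hl1 : lam ≤ kN ρ / 2)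
    (hs0 : s₀ < 1)
    (hZ : lam * (log (1 / lam) + 1) - (1 / 2) * (kN ρ + 4 * ThN ρ) * (1 - 2 * lam * s₀)
      ≤ (kN ρ / 2 - lam) * log (1 / s₀))
    (hs : 0 < s) (hss : s ≤ s₀) :
    (1 - s) * binEntropy (lam * s) ≤ (1 / 2) * WW ρ s * (1 - 2 * lam * s) := by
  have hk0 := kc_kN_pos h0 h1
  have hk1 : kN ρ ≤ 1 := kc_kN_le
  have hT := kc_ThN_nonneg h0 h1
  have hl2 : lam ≤ 1 / 2 := by linarith
  have hs1 : s < 1 := by linarith
  have hs00 : 0 < s₀ := by linarith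
  have hls : 0 < lam * s := by positivity
  have hls1 : lam * s < 1 := by nlinarith
  have hP0 : 0 ≤ log (1 / s₀) := by
    apply log_nonneg
    rw [le_div_iff₀ (by linarith)]
    linarith
  have hPP : log (1 / s₀) ≤ log (1 / s) := by
    apply log_le_log (by positivity)
    exact one_div_le_one_div_of_le hs hss
  have e1 : log (1 / (lam * s)) = log (1 / lam) + log (1 / s) := by
    have : 1 / (lam * s) = (1 / lam) * (1 / s) := by
      field_simp
    rw [this, log_mul (by positivity) (by positivity)]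
  have up := hc_entropy_le hls hls1
  rw [e1] at up
  have lowb := kc_entropy_ge hs hs1
  set P := log (1 / s) with hP
  set P₀ := log (1 / s₀) with hP₀
  set L := log (1 / lam) + 1 with hL
  set C := kN ρ + 4 * ThN ρ with hC
  set d := kN ρ / 2 - lam with hd
  have hd0 : 0 ≤ d := by rw [hd]; linarith
  have hC0 : 0 ≤ C := by rw [hC]; linarith
  have hW : s * (kN ρ * P + C * (1 - s)) ≤ WW ρ s := by
    unfold WW wQ
    have := mul_le_mul_of_nonneg_left lowb hk0.le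
    rw [hC]
    have e : s * (kN ρ * P + (kN ρ + 4 * ThN ρ) * (1 - s))
        = kN ρ * (s * P + s * (1 - s)) + ThN ρ * (4 * s * (1 - s)) := by ring
    rw [e]
    linarith
  have hτ : 0 < 1 - 2 * lam * s := by nlinarith
  have hc : d ≤ (1 / 2) * kN ρ * (1 - 2 * lam * s) - (1 - s) * lam := by
    rw [hd]
    have : 0 ≤ lam * s * (1 - kN ρ) := mul_nonneg hls.le (by linarith)
    nlinarith
  have hcP : d * P₀ ≤ ((1 / 2) * kN ρ * (1 - 2 * lam * s) - (1 - s) * lam) * P := by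
    apply mul_le_mul hc hPP hP0
    exact le_trans hd0 hc
  have hB : (1 / 2) * C * (1 - 2 * lam * s₀) - lam * L ≤ (1 / 2) * C * (1 - 2 * lam * s) - lam * L := by
    have : (1 / 2) * C * (1 - 2 * lam * s₀) ≤ (1 / 2) * C * (1 - 2 * lam * s) := by
      apply mul_le_mul_of_nonneg_left _ (by positivity)
      nlinarith
    linarith
  have hdP : 0 ≤ d * P₀ := mul_nonneg hd0 hP0
  have hB2 : -(d * P₀) ≤ (1 - s) * ((1 / 2) * C * (1 - 2 * lam * s) - lam * L) := by
    set B := (1 / 2) * C * (1 - 2 * lam * s) - lam * L with hBdef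
    have hB3 : -(d * P₀) ≤ B := by
      have : lam * L - (1 / 2) * C * (1 - 2 * lam * s₀) ≤ d * P₀ := hZ
      linarith
    rcases le_total 0 B with hB4 | hB4
    · have : 0 ≤ (1 - s) * B := mul_nonneg (by linarith) hB4
      linarith
    · have : B ≤ (1 - s) * B := by nlinarith
      linarith
  have main : 0 ≤ ((1 / 2) * kN ρ * (1 - 2 * lam * s) - (1 - s) * lam) * P
      + (1 - s) * ((1 / 2) * C * (1 - 2 * lam * s) - lam * L) := by linarith
  have hup2 : (1 - s) * binEntropy (lam * s) ≤ (1 - s) * (lam * s * (L + P)) := by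
    apply mul_le_mul_of_nonneg_left _ (by linarith)
    rw [hL]
    linarith [up]
  have hlow2 : (1 / 2) * (s * (kN ρ * P + C * (1 - s))) * (1 - 2 * lam * s)
      ≤ (1 / 2) * WW ρ s * (1 - 2 * lam * s) := by
    apply mul_le_mul_of_nonneg_right _ hτ.le
    linarith
  have hfin : (1 - s) * (lam * s * (L + P))
      ≤ (1 / 2) * (s * (kN ρ * P + C * (1 - s))) * (1 - 2 * lam * s) := by
    have := mul_le_mul_of_nonneg_left main hs.le
    have key : (1 / 2) * (s * (kN ρ * P + C * (1 - s))) * (1 - 2 * lam * s)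
        - (1 - s) * (lam * s * (L + P))
        = s * (((1 / 2) * kN ρ * (1 - 2 * lam * s) - (1 - s) * lam) * P
          + (1 - s) * ((1 / 2) * C * (1 - 2 * lam * s) - lam * L)) := by ring
    rw [mul_zero] at this
    linarith
  linarith

/-- The second corner inequality. -/
lemma kc_F {ε r lam s₀ s E : ℝ} (hl1 : lam ≤ 1 / 2) (hs0 : s₀ < 1) (hE : 0 ≤ E)
    (hEq : E = binEntropy ε) (hr0 : 0 ≤ r) (hl0 : 0 ≤ lam)
    (hε0 : 0 ≤ ε) (hεr : ε + r * lam * s₀ ≤ 1)
    (hF : E * (1 - 2 * lam * s₀) ≤ (1 - s₀) * binEntropy (ε + r * lam * s₀))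
    (hs : 0 < s) (hss : s ≤ s₀) :
    E * (1 - 2 * lam * s) ≤ (1 - s) * binEntropy (ε + r * lam * s) := by
  have hs00 : 0 < s₀ := by linarith
  set f1 := binEntropy (ε + r * lam * s₀) with hf1
  set t := s / s₀ with ht
  have ht0 : 0 ≤ t := by positivity
  have ht1 : t ≤ 1 := by
    rw [ht, div_le_one hs00]
    exact hss
  have es : s = t * s₀ := by
    rw [ht]
    field_simp
  have hconc := Real.strictConcave_binEntropy.concaveOn
  have hx0 : ε ∈ Set.Icc (0 : ℝ) 1 := by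
    constructor
    · exact hε0
    · have : 0 ≤ r * lam * s₀ := by positivity
      linarith
  have hx1 : ε + r * lam * s₀ ∈ Set.Icc (0 : ℝ) 1 := by
    constructor
    · have : 0 ≤ r * lam * s₀ := by positivity
      linarith
    · exact hεr
  have hc := hconc.2 hx0 hx1 (by linarith : 0 ≤ 1 - t) ht0 (by ring)
  simp only [smul_eq_mul] at hc
  have earg : (1 - t) * ε + t * (ε + r * lam * s₀) = ε + r * lam * s := by
    rw [es]
    ring
  rw [earg, ← hEq, ← hf1] at hc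
  -- `f1 ≥ E`
  have hτ0 : 1 - s₀ ≤ 1 - 2 * lam * s₀ := by nlinarith
  have hτ1 : 0 < 1 - s₀ := by linarith
  have hf1E : E ≤ f1 := by
    have h2 : E * (1 - s₀) ≤ (1 - s₀) * f1 := by
      have : E * (1 - s₀) ≤ E * (1 - 2 * lam * s₀) := mul_le_mul_of_nonneg_left hτ0 hE
      linarith [hF]
    have h3 : (1 - s₀) * E ≤ (1 - s₀) * f1 := by linarith
    exact le_of_mul_le_mul_left h3 hτ1
  have hs1 : 0 < 1 - s := by linarith
  have h4 : (1 - s) * ((1 - t) * E + t * f1) ≤ (1 - s) * binEntropy (ε + r * lam * s) :=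
    mul_le_mul_of_nonneg_left hc hs1.le
  have h5 : t * (E * (1 - 2 * lam * s₀)) ≤ t * ((1 - s₀) * f1) :=
    mul_le_mul_of_nonneg_left hF ht0
  have h6 : t * (1 - t) * s₀ * E ≤ t * (1 - t) * s₀ * f1 :=
    mul_le_mul_of_nonneg_left hf1E (by positivity [mul_nonneg ht0 (sub_nonneg.2 ht1)])
  rw [es] at h4 ⊢
  nlinarith

/-- The symmetric plane has no mean term. -/
lemma kc_pKap_self {ρ a : ℝ} (P : PData ρ a a) : pKap ρ a a = 0 := by
  unfold pKap
  have := P.mu_mul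
  rw [this]
  ring

/-- The corner lemma for the symmetric plane. -/
theorem kcorner {ρ lam s₀ : ℝ} (h0 : 0 < ρ) (h1 : ρ < 1) (hl0 : 0 < lam) (hl1 : lam ≤ kN ρ / 2)
    (hs1 : s₀ < 1)
    (hZ : lam * (log (1 / lam) + 1) - (1 / 2) * (kN ρ + 4 * ThN ρ) * (1 - 2 * lam * s₀)
      ≤ (kN ρ / 2 - lam) * log (1 / s₀))
    (hF : hN ρ * (1 - 2 * lam * s₀) ≤ (1 - s₀) * binEntropy ((1 - ρ) / 2 + ρ * lam * s₀))
    {p q : ℝ} (hp : 0 < p) (hq : 0 < q) (hs : p + q ≤ s₀) : PlaneClose ρ (WW ρ) (1 - p) q := by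
  have hk0 := kc_kN_pos h0 h1
  have hk1 : kN ρ ≤ 1 := kc_kN_le
  have hl2 : lam ≤ 1 / 2 := by linarith
  set s := p + q with hsdef
  have hs0 : 0 < s := by positivity
  have hs11 : s < 1 := by linarith
  have hs00 : 0 < s₀ := by linarith
  set e := lam * s with he
  have he0 : 0 < e := by positivity
  have he1 : e < 1 / 2 := by
    rw [he]
    nlinarith
  set τ := 1 - 2 * e with hτdef
  have hτ0 : 0 < τ := by rw [hτdef]; linarith
  have hτ1 : τ < 1 := by rw [hτdef]; linarith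
  have hA1 : 2 * (1 / 2) / τ = 1 / τ := by ring
  have hA2 : 2 * (1 - 1 / 2) / τ = 1 / τ := by ring
  have P : PData ρ (1 / τ) (1 / τ) := by
    refine ⟨h0, h1.le, ?_, le_rfl⟩
    rw [one_lt_div hτ0]
    exact hτ1
  have P' : PData ρ (2 * (1 / 2) / τ) (2 * (1 - 1 / 2) / τ) := by
    rw [hA1, hA2]
    exact P
  have heq := plane_eq P' hτ0 (by linarith) (by linarith)
  rw [hA1, hA2, kc_pKap_self P, zero_mul, zero_add] at heq
  -- the values of the entropies
  have e1 : binEntropy ((1 : ℝ) / 2 + τ / 2) = binEntropy e := by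
    rw [← binEntropy_one_sub]
    congr 1
    rw [hτdef]
    ring
  have e2 : binEntropy ((1 : ℝ) / 2 - τ / 2) = binEntropy e := by
    congr 1
    rw [hτdef]
    ring
  have e3 : binEntropy ((1 : ℝ) / 2 - ρ * τ / 2) = binEntropy ((1 - ρ) / 2 + ρ * lam * s) := by
    congr 1
    rw [hτdef, he]
    ring
  have e4 : binEntropy ((1 : ℝ) / 2 + ρ * τ / 2) = binEntropy ((1 - ρ) / 2 + ρ * lam * s) := by
    rw [← binEntropy_one_sub]
    congr 1
    rw [hτdef, he]
    ring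
  rw [e1, e2, e3, e4] at heq
  set f := binEntropy ((1 - ρ) / 2 + ρ * lam * s) with hf
  set μ := pMu ρ (1 / τ) (1 / τ) with hμ
  set ν := pNu ρ (1 / τ) (1 / τ) with hν
  have hμ0 : 0 ≤ μ := P.mu_nonneg
  have hid : ν * τ + μ * binEntropy e = f := by
    linarith
  have hκ := kc_pKap_self P
  have hZs := kc_Z h0 h1 hl0 hl1 hs1 hZ hs0 hs
  have hFs : hN ρ * (1 - 2 * lam * s) ≤ (1 - s) * f := by
    have hε0 : 0 ≤ (1 - ρ) / 2 := by linarith
    refine kc_F hl2 hs1 ?_ rfl h0.le hl0.le hε0 ?_ hF hs0 hs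
    · exact binEntropy_nonneg (by linarith) (by linarith)
    · have : lam * s₀ ≤ 1 / 2 := by nlinarith
      nlinarith
  refine ⟨0, pKap ρ (1 / τ) (1 / τ), ν, μ, hμ0, ?_, ?_⟩
  · intro u v hu hu' hv hv'
    have := P.plane hu hu' hv hv'
    have e : pMu ρ (1 / τ) (1 / τ) * (binEntropy u + binEntropy v) / 2
        = pMu ρ (1 / τ) (1 / τ) * ((binEntropy u + binEntropy v) / 2) := by ring
    rw [e] at this
    linarith
  · rw [hκ, WW_one_sub]
    have hτs : 1 - 2 * lam * s = τ := by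
      rw [hτdef, he]
      ring
    rw [hτs] at hZs hFs
    have hsub := kc_WW_subadd h0 h1 hp.le hq.le (by linarith)
    rw [← hsdef] at hsub
    have hWm := kc_WW_le (a := (1 - p + q) / 2) h0 h1
    have hdiff : 1 - p - q = 1 - s := by
      rw [hsdef]
      ring
    rw [hdiff]
    set sb := (WW ρ p + WW ρ q) / 2 with hsb
    have hsb2 : (1 / 2) * WW ρ s ≤ sb := by
      rw [hsb]
      linarith
    have h3 : (1 - s) * binEntropy e ≤ sb * τ := by
      have : (1 / 2) * WW ρ s * τ ≤ sb * τ := mul_le_mul_of_nonneg_right hsb2 hτ0.le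
      linarith
    -- multiply by `τ`
    have h4 : τ * WW ρ ((1 - p + q) / 2) ≤ τ * (ν * (1 - s) + μ * sb) := by
      have h5 : τ * (ν * (1 - s) + μ * sb) = (1 - s) * (ν * τ) + μ * (sb * τ) := by ring
      rw [h5]
      have h6 : (1 - s) * (ν * τ) = (1 - s) * f - μ * ((1 - s) * binEntropy e) := by
        rw [← hid]
        ring
      rw [h6]
      have h7 : μ * ((1 - s) * binEntropy e) ≤ μ * (sb * τ) := mul_le_mul_of_nonneg_left h3 hμ0
      have h8 : τ * WW ρ ((1 - p + q) / 2) ≤ τ * hN ρ := mul_le_mul_of_nonneg_left hWm hτ0.le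
      linarith
    have h5 := le_of_mul_le_mul_left h4 hτ0
    have e5 : (1 - p + q) / 2 = (1 - p + q) / 2 := rfl
    linarith

/-- The block form of the corner lemma: a fixed `lam, s₀` for all `ρ` in an interval. -/
theorem kcorner_block {ρ₁ ρ ρ₂ lam s₀ C₀ : ℝ} (h0 : 0 < ρ₁) (h1 : ρ₁ ≤ ρ) (h2 : ρ ≤ ρ₂) (h3 : ρ₂ < 1)
    (hl0 : 0 < lam) (hl1 : lam ≤ (1 - ρ₂ ^ 2) / 2) (hs0 : 0 < s₀) (hs1 : s₀ < 1)
    (hC : C₀ ≤ 1 - ρ₂ ^ 2 ∨ C₀ ≤ (1 - ρ₂ ^ 2) + 4 * (hN ρ₂ - (1 - ρ₁ ^ 2) * log 2))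
    (hZ : lam * (log (1 / lam) + 1) - (1 / 2) * C₀ * (1 - 2 * lam * s₀)
      ≤ ((1 - ρ₂ ^ 2) / 2 - lam) * log (1 / s₀))
    (hF : hN ρ₁ * (1 - 2 * lam * s₀)
      ≤ (1 - s₀) * binEntropy (1 / 2 - ρ₂ * (1 / 2 - lam * s₀)))
    {p q : ℝ} (hp : 0 < p) (hq : 0 < q) (hs : p + q ≤ s₀) : PlaneClose ρ (WW ρ) (1 - p) q := by
  have hρ0 : 0 < ρ := by linarith
  have hρ1 : ρ < 1 := by linarith
  have hk12 : 1 - ρ₂ ^ 2 ≤ kN ρ := by
    unfold kN
    nlinarith
  have hk21 : kN ρ ≤ 1 - ρ₁ ^ 2 := by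
    unfold kN
    nlinarith
  have hρ₂0 : 0 < ρ₂ := by linarith
  have hlt : lam * s₀ < 1 / 2 := by
    have : 1 - ρ₂ ^ 2 ≤ 1 := by nlinarith [sq_nonneg ρ₂]
    nlinarith
  have hmono : ∀ {x y : ℝ}, 0 ≤ x → x ≤ y → y ≤ 1 / 2 → binEntropy x ≤ binEntropy y := by
    intro x y hx hxy hy
    have hy' : y ≤ 2⁻¹ := by
      rw [show (2 : ℝ)⁻¹ = 1 / 2 by norm_num]
      exact hy
    exact Real.binEntropy_strictMonoOn.monotoneOn ⟨hx, hxy.trans hy'⟩ ⟨hx.trans hxy, hy'⟩ hxy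
  have hh2 : hN ρ₂ ≤ hN ρ := by
    unfold hN
    apply hmono (by linarith) (by linarith) (by linarith)
  have hh1 : hN ρ ≤ hN ρ₁ := by
    unfold hN
    apply hmono (by linarith) (by linarith) (by linarith)
  have hT := kc_ThN_nonneg hρ0 hρ1
  have hlog : 0 < log 2 := log_pos (by norm_num)
  have hτs0 : 0 ≤ 1 - 2 * lam * s₀ := by nlinarith
  have hCC : C₀ ≤ kN ρ + 4 * ThN ρ := by
    rcases hC with h | h
    · linarith
    · have : hN ρ₂ - (1 - ρ₁ ^ 2) * log 2 ≤ ThN ρ := by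
        unfold ThN
        have := mul_le_mul_of_nonneg_right hk21 hlog.le
        linarith
      linarith
  have hP0 : 0 ≤ log (1 / s₀) := by
    apply log_nonneg
    rw [le_div_iff₀ hs0]
    linarith
  refine kcorner hρ0 hρ1 hl0 (by linarith) hs1 ?_ ?_ hp hq hs
  · have h5 : (1 / 2) * C₀ * (1 - 2 * lam * s₀) ≤ (1 / 2) * (kN ρ + 4 * ThN ρ) * (1 - 2 * lam * s₀) := by
      apply mul_le_mul_of_nonneg_right _ hτs0
      linarith
    have h6 : ((1 - ρ₂ ^ 2) / 2 - lam) * log (1 / s₀) ≤ (kN ρ / 2 - lam) * log (1 / s₀) := by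
      apply mul_le_mul_of_nonneg_right _ hP0
      linarith
    linarith
  · have hx : (1 - ρ) / 2 + ρ * lam * s₀ = 1 / 2 - ρ * (1 / 2 - lam * s₀) := by ring
    rw [hx]
    have h5 : binEntropy (1 / 2 - ρ₂ * (1 / 2 - lam * s₀))
        ≤ binEntropy (1 / 2 - ρ * (1 / 2 - lam * s₀)) := by
      have h6 : ρ * (1 / 2 - lam * s₀) ≤ ρ₂ * (1 / 2 - lam * s₀) :=
        mul_le_mul_of_nonneg_right h2 (by linarith)
      have h7 : 0 ≤ ρ * (1 / 2 - lam * s₀) := mul_nonneg hρ0.le (by linarith)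
      have h8 : ρ₂ * (1 / 2 - lam * s₀) ≤ 1 / 2 := by
        have : ρ₂ * (1 / 2 - lam * s₀) ≤ 1 * (1 / 2 - lam * s₀) :=
          mul_le_mul_of_nonneg_right h3.le (by linarith)
        have h9 : 0 ≤ lam * s₀ := by positivity
        linarith
      apply hmono (by linarith) (by linarith) (by linarith)
    have h6 : hN ρ * (1 - 2 * lam * s₀) ≤ hN ρ₁ * (1 - 2 * lam * s₀) :=
      mul_le_mul_of_nonneg_right hh1 hτs0
    have h7 : (1 - s₀) * binEntropy (1 / 2 - ρ₂ * (1 / 2 - lam * s₀))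
        ≤ (1 - s₀) * binEntropy (1 / 2 - ρ * (1 / 2 - lam * s₀)) :=
      mul_le_mul_of_nonneg_left h5 (by linarith)
    linarith

end Vale.Agent.P322
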