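import Vale.Agent.P322.Entropy

/-!
The midpoint formula for the binary entropy, and the two basic estimates on the function
`Om z = (1+z) log (1+z) + (1-z) log (1-z)`:  `Om z - Om (ρ z) ≥ (1-ρ²) z²` and
`Om z ≤ 2 log 2 · z²`.
-/

namespace Vale.Agent.P322

open Real

/-- The function `(1+z) log (1+z) + (1-z) log (1-z)`. -/
noncomputable def Om (z : ℝ) : ℝ := (1 + z) * log (1 + z) + (1 - z) * log (1 - z)

lemma Om_neg (z : ℝ) : Om (-z) = Om z := by
  unfold Om
  rw [show (1 + -z) = 1 - z by ring, show (1 - -z) = 1 + z by ring]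
  ring

lemma Om_zero : Om 0 = 0 := by simp [Om]

lemma Om_one : Om 1 = 2 * log 2 := by
  unfold Om
  norm_num

lemma Om_continuous : Continuous Om := by
  unfold Om
  exact ((continuous_const.add continuous_id).mul_log).add
    ((continuous_const.sub continuous_id).mul_log)

lemma Om_hasDerivAt {z : ℝ} (h0 : -1 < z) (h1 : z < 1) :
    HasDerivAt Om (log (1 + z) - log (1 - z)) z := by
  have h3 : HasDerivAt (fun x : ℝ => 1 + x) 1 z := by
    simpa using (hasDerivAt_id z).const_add 1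
  have h4 : HasDerivAt (fun x : ℝ => 1 - x) (-1) z := by
    simpa using (hasDerivAt_id z).const_sub 1
  have hp : (1 + z) ≠ 0 := by linarith
  have hq : (1 - z) ≠ 0 := by linarith
  have h5 := (h3.mul (h3.log hp)).add (h4.mul (h4.log hq))
  refine h5.congr_deriv ?_
  field_simp
  ring

/-- `log (1+z) - log (1-z) ≥ 2 z`. -/
lemma log_ratio_ge {z : ℝ} (h0 : 0 ≤ z) (h1 : z < 1) : 2 * z ≤ log (1 + z) - log (1 - z) := by
  have h := pinsker_aux (a := (1 + z) / 2) (by linarith) (by linarith)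
  have e : 1 - (1 + z) / 2 = (1 - z) / 2 := by ring
  rw [e, log_div (by linarith) (by norm_num), log_div (by linarith) (by norm_num)] at h
  linarith

lemma Om_sub_sq_mono : MonotoneOn (fun z => Om z - z ^ 2) (Set.Icc 0 1) := by
  apply monotoneOn_of_deriv_nonneg (convex_Icc _ _)
  · exact (Om_continuous.sub (continuous_id.pow 2)).continuousOn
  · intro z hz
    rw [interior_Icc] at hz
    exact ((Om_hasDerivAt (by linarith [hz.1]) hz.2).sub
      (hasDerivAt_pow 2 z)).differentiableAt.differentiableWithinAt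
  · intro z hz
    rw [interior_Icc] at hz
    have hd : HasDerivAt (fun z => Om z - z ^ 2) (log (1 + z) - log (1 - z) - 2 * z) z := by
      refine ((Om_hasDerivAt (by linarith [hz.1]) hz.2).sub (hasDerivAt_pow 2 z)).congr_deriv ?_
      simp
    rw [hd.deriv]
    linarith [log_ratio_ge hz.1.le hz.2]

lemma Om_gap_aux {ρ z : ℝ} (hρ0 : 0 ≤ ρ) (hρ1 : ρ ≤ 1) (hz0 : 0 ≤ z) (hz1 : z ≤ 1) :
    (1 - ρ ^ 2) * z ^ 2 ≤ Om z - Om (ρ * z) := by
  have hmem : ρ * z ∈ Set.Icc (0 : ℝ) 1 :=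
    ⟨mul_nonneg hρ0 hz0, by nlinarith⟩
  have hle : ρ * z ≤ z := by nlinarith
  have := Om_sub_sq_mono hmem ⟨hz0, hz1⟩ hle
  simp only at this
  nlinarith

lemma Om_abs (z : ℝ) : Om |z| = Om z := by
  rcases abs_cases z with ⟨h, _⟩ | ⟨h, _⟩
  · rw [h]
  · rw [h, Om_neg]

/-- `Om z - Om (ρ z) ≥ (1-ρ²) z²` for `|z| ≤ 1`, `0 ≤ ρ ≤ 1`. -/
lemma Om_gap {ρ z : ℝ} (hρ0 : 0 ≤ ρ) (hρ1 : ρ ≤ 1) (hz : |z| ≤ 1) :
    (1 - ρ ^ 2) * z ^ 2 ≤ Om z - Om (ρ * z) := by
  have h := Om_gap_aux hρ0 hρ1 (abs_nonneg z) hz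
  rw [sq_abs, Om_abs, ← Om_abs (ρ * z), abs_mul, abs_of_nonneg hρ0] at *
  exact h

/-- `log (1+z) - log (1-z) ≤ 2 z / (1-z²)` on `[0,1)`. -/
lemma log_ratio_le {z : ℝ} (h0 : 0 ≤ z) (h1 : z < 1) :
    log (1 + z) - log (1 - z) ≤ 2 * z / (1 - z ^ 2) := by
  have hd : ∀ x ∈ Set.Ico (0 : ℝ) 1,
      HasDerivAt (fun x => 2 * x / (1 - x ^ 2) - (log (1 + x) - log (1 - x)))
        (4 * x ^ 2 / (1 - x ^ 2) ^ 2) x := by
    intro x hx
    have hp : (1 + x) ≠ 0 := by linarith [hx.1]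
    have hq : (1 - x) ≠ 0 := by linarith [hx.2]
    have hr : (1 - x ^ 2) ≠ 0 := by
      have : 1 - x ^ 2 = (1 + x) * (1 - x) := by ring
      rw [this]; exact mul_ne_zero hp hq
    have h3 : HasDerivAt (fun x : ℝ => 1 + x) 1 x := by
      simpa using (hasDerivAt_id x).const_add 1
    have h4 : HasDerivAt (fun x : ℝ => 1 - x) (-1) x := by
      simpa using (hasDerivAt_id x).const_sub 1
    have h5 : HasDerivAt (fun x : ℝ => 1 - x ^ 2) (-(2 * x)) x := by
      simpa using (hasDerivAt_pow 2 x).const_sub 1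
    have h6 : HasDerivAt (fun x : ℝ => 2 * x) 2 x := by
      simpa using (hasDerivAt_id x).const_mul 2
    have h7 := (h6.div h5 hr).sub ((h3.log hp).sub (h4.log hq))
    refine h7.congr_deriv ?_
    have hr2 : 1 - x ^ 2 = (1 + x) * (1 - x) := by ring
    rw [hr2]
    field_simp
    ring
  have hmono : MonotoneOn (fun x => 2 * x / (1 - x ^ 2) - (log (1 + x) - log (1 - x)))
      (Set.Ico (0 : ℝ) 1) := by
    apply monotoneOn_of_deriv_nonneg (convex_Ico _ _)
    · exact fun x hx => (hd x hx).continuousAt.continuousWithinAt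
    · exact fun x hx => (hd x (interior_subset hx)).differentiableAt.differentiableWithinAt
    · intro x hx
      rw [(hd x (interior_subset hx)).deriv]
      positivity
  have := hmono (⟨le_refl _, by norm_num⟩ : (0 : ℝ) ∈ Set.Ico (0 : ℝ) 1) ⟨h0, h1⟩ h0
  simp only [mul_zero, zero_div, add_zero, sub_zero, log_one, sub_self] at this
  linarith

/-- `(2+z) log (1+z) + (2-z) log (1-z) ≤ 0` on `[0,1)`. -/
lemma P_nonpos {z : ℝ} (h0 : 0 ≤ z) (h1 : z < 1) :
    (2 + z) * log (1 + z) + (2 - z) * log (1 - z) ≤ 0 := by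
  have hd : ∀ x ∈ Set.Ico (0 : ℝ) 1,
      HasDerivAt (fun x => (2 + x) * log (1 + x) + (2 - x) * log (1 - x))
        (log (1 + x) - log (1 - x) - 2 * x / (1 - x ^ 2)) x := by
    intro x hx
    have hp : (1 + x) ≠ 0 := by linarith [hx.1]
    have hq : (1 - x) ≠ 0 := by linarith [hx.2]
    have h3 : HasDerivAt (fun x : ℝ => 1 + x) 1 x := by
      simpa using (hasDerivAt_id x).const_add 1
    have h4 : HasDerivAt (fun x : ℝ => 1 - x) (-1) x := by
      simpa using (hasDerivAt_id x).const_sub 1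
    have h3' : HasDerivAt (fun x : ℝ => 2 + x) 1 x := by
      simpa using (hasDerivAt_id x).const_add 2
    have h4' : HasDerivAt (fun x : ℝ => 2 - x) (-1) x := by
      simpa using (hasDerivAt_id x).const_sub 2
    have h5 := (h3'.mul (h3.log hp)).add (h4'.mul (h4.log hq))
    refine h5.congr_deriv ?_
    have hr2 : 1 - x ^ 2 = (1 + x) * (1 - x) := by ring
    rw [hr2]
    field_simp
    ring
  have hanti : AntitoneOn (fun x => (2 + x) * log (1 + x) + (2 - x) * log (1 - x))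
      (Set.Ico (0 : ℝ) 1) := by
    apply antitoneOn_of_deriv_nonpos (convex_Ico _ _)
    · exact fun x hx => (hd x hx).continuousAt.continuousWithinAt
    · exact fun x hx => (hd x (interior_subset hx)).differentiableAt.differentiableWithinAt
    · intro x hx
      have hx' := interior_subset hx
      rw [(hd x hx').deriv]
      linarith [log_ratio_le hx'.1 hx'.2]
  have := hanti (⟨le_refl _, by norm_num⟩ : (0 : ℝ) ∈ Set.Ico (0 : ℝ) 1) ⟨h0, h1⟩ h0
  simp only [add_zero, sub_zero, log_one, mul_zero] at this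
  linarith

/-- `Om z / z²` increases on `(0,1]`. -/
lemma Om_ratio_mono : MonotoneOn (fun z => Om z / z ^ 2) (Set.Ioc (0 : ℝ) 1) := by
  have hne : ∀ x ∈ Set.Ioc (0 : ℝ) 1, x ^ 2 ≠ 0 := fun x hx => pow_ne_zero 2 hx.1.ne'
  have hd : ∀ x ∈ Set.Ioo (0 : ℝ) 1, HasDerivAt (fun z => Om z / z ^ 2)
      (-((2 + x) * log (1 + x) + (2 - x) * log (1 - x)) / x ^ 3) x := by
    intro x hx
    have h1 := Om_hasDerivAt (z := x) (by linarith [hx.1]) hx.2
    have h2 : HasDerivAt (fun z : ℝ => z ^ 2) (2 * x) x := by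
      simpa using hasDerivAt_pow 2 x
    have h3 := h1.div h2 (pow_ne_zero 2 hx.1.ne')
    refine h3.congr_deriv ?_
    have hx0 : x ≠ 0 := hx.1.ne'
    unfold Om
    field_simp
    ring
  apply monotoneOn_of_deriv_nonneg (convex_Ioc _ _)
  · exact (Om_continuous.continuousOn).div (continuous_id.pow 2).continuousOn hne
  · intro x hx
    rw [interior_Ioc] at hx
    exact (hd x hx).differentiableAt.differentiableWithinAt
  · intro x hx
    rw [interior_Ioc] at hx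
    rw [(hd x hx).deriv]
    have := P_nonpos hx.1.le hx.2
    have hx3 : 0 < x ^ 3 := pow_pos hx.1 3
    exact div_nonneg (by linarith) hx3.le

/-- `Om z ≤ 2 log 2 · z²` for `|z| ≤ 1`. -/
lemma Om_le {z : ℝ} (hz : |z| ≤ 1) : Om z ≤ 2 * log 2 * z ^ 2 := by
  rw [← Om_abs, ← sq_abs z]
  rcases eq_or_lt_of_le (abs_nonneg z) with h | h
  · rw [← h, Om_zero]; simp
  · have := Om_ratio_mono ⟨h, hz⟩ (⟨one_pos, le_refl _⟩ : (1 : ℝ) ∈ Set.Ioc (0 : ℝ) 1) hz
    simp only [Om_one, one_pow, div_one] at this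
    rwa [div_le_iff₀ (pow_pos h 2)] at this

lemma Om_eq_negMulLog (z : ℝ) : Om z = -negMulLog (1 + z) - negMulLog (1 - z) := by
  unfold Om negMulLog
  ring

/-- The midpoint formula. -/
lemma midpoint_formula {c δ : ℝ} (hc : c ≠ 0) (hc' : 1 - c ≠ 0) :
    binEntropy (c + δ) + binEntropy (c - δ) =
      2 * binEntropy c - c * Om (δ / c) - (1 - c) * Om (δ / (1 - c)) := by
  rw [binEntropy_eq_negMulLog_add_negMulLog_one_sub, binEntropy_eq_negMulLog_add_negMulLog_one_sub,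
    binEntropy_eq_negMulLog_add_negMulLog_one_sub, Om_eq_negMulLog, Om_eq_negMulLog]
  have e1 : c + δ = c * (1 + δ / c) := by field_simp
  have e2 : c - δ = c * (1 - δ / c) := by field_simp
  have e3 : 1 - (c + δ) = (1 - c) * (1 - δ / (1 - c)) := by field_simp; ring
  have e4 : 1 - (c - δ) = (1 - c) * (1 + δ / (1 - c)) := by field_simp; ring
  rw [e3, e4, e1, e2, negMulLog_mul, negMulLog_mul, negMulLog_mul, negMulLog_mul]
  ring

/-- The sum `S(u,w) = h(αu+βw) + h(βu+αw)`. -/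
noncomputable def SS (ε u w : ℝ) : ℝ :=
  binEntropy ((1 - ε) * u + ε * w) + binEntropy (ε * u + (1 - ε) * w)

lemma SS_comm (ε u w : ℝ) : SS ε u w = SS ε w u := by
  unfold SS
  rw [add_comm (binEntropy ((1 - ε) * u + ε * w)), add_comm (ε * u), add_comm (ε * w)]

/-- `S(u,w) ≥ h(u) + h(w)` by concavity. -/
lemma SS_ge {ε u w : ℝ} (h0 : 0 ≤ ε) (h1 : ε ≤ 1) (hu : u ∈ Set.Icc (0 : ℝ) 1)
    (hw : w ∈ Set.Icc (0 : ℝ) 1) : binEntropy u + binEntropy w ≤ SS ε u w := by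
  have hc := strictConcave_binEntropy.concaveOn
  have h2 : 0 ≤ 1 - ε := by linarith
  have h3 := hc.2 hu hw h2 h0 (by ring)
  have h4 := hc.2 hu hw h0 h2 (by ring)
  simp only [smul_eq_mul] at h3 h4
  unfold SS
  nlinarith

/-- The basic lower bound: `Δ(u,w) φ(c) ≥ ε(1-ε) t²`. -/
lemma key_lower {ε u w : ℝ} (h0 : 0 ≤ ε) (h1 : ε ≤ 1 / 2) (hu : u ∈ Set.Icc (0 : ℝ) 1)
    (hw : w ∈ Set.Icc (0 : ℝ) 1) :
    ε * (1 - ε) * (u - w) ^ 2 ≤
      (SS ε u w - binEntropy u - binEntropy w) * ((u + w) / 2 * (1 - (u + w) / 2)) := by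
  obtain ⟨hu0, hu1⟩ := hu
  obtain ⟨hw0, hw1⟩ := hw
  set c := (u + w) / 2 with hc
  rcases eq_or_lt_of_le (show 0 ≤ c by rw [hc]; positivity) with hc0 | hc0
  · have hu' : u = 0 := by linarith
    have hw' : w = 0 := by linarith
    rw [← hc0]
    simp [hu', hw']
  rcases eq_or_lt_of_le (show c ≤ 1 by rw [hc]; linarith) with hc1 | hc1
  · have hu' : u = 1 := by linarith
    have hw' : w = 1 := by linarith
    rw [hc1]
    simp [hu', hw']
  set τ := (u - w) / 2 with hτ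
  set ρ := 1 - 2 * ε with hρ
  have hρ0 : 0 ≤ ρ := by rw [hρ]; linarith
  have hρ1 : ρ ≤ 1 := by rw [hρ]; linarith
  have hc1' : 0 < 1 - c := by linarith
  have eu : u = c + τ := by rw [hc, hτ]; ring
  have ew : w = c - τ := by rw [hc, hτ]; ring
  have e1 : (1 - ε) * u + ε * w = c + ρ * τ := by rw [hc, hτ, hρ]; ring
  have e2 : ε * u + (1 - ε) * w = c - ρ * τ := by rw [hc, hτ, hρ]; ring
  have m1 := midpoint_formula (δ := τ) hc0.ne' hc1'.ne'
  have m2 := midpoint_formula (δ := ρ * τ) hc0.ne' hc1'.ne'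
  have hz1 : |τ / c| ≤ 1 := by
    rw [abs_div, abs_of_pos hc0, div_le_one hc0, abs_le, hτ, hc]
    constructor <;> linarith
  have hz2 : |τ / (1 - c)| ≤ 1 := by
    rw [abs_div, abs_of_pos hc1', div_le_one hc1', abs_le, hτ, hc]
    constructor <;> linarith
  have g1 := Om_gap hρ0 hρ1 hz1
  have g2 := Om_gap hρ0 hρ1 hz2
  have r1 : ρ * τ / c = ρ * (τ / c) := by ring
  have r2 : ρ * τ / (1 - c) = ρ * (τ / (1 - c)) := by ring
  have eS : SS ε u w - binEntropy u - binEntropy w =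
      c * (Om (τ / c) - Om (ρ * (τ / c))) + (1 - c) * (Om (τ / (1 - c)) - Om (ρ * (τ / (1 - c)))) := by
    unfold SS
    rw [e1, e2, m2, r1, r2]
    rw [← eu, ← ew] at m1
    linarith
  rw [eS]
  have g1' := mul_le_mul_of_nonneg_left g1 (mul_nonneg hc0.le (mul_nonneg hc0.le hc1'.le))
  have g2' := mul_le_mul_of_nonneg_left g2
    (mul_nonneg hc1'.le (mul_nonneg hc0.le hc1'.le))
  have q1 : c * (c * (1 - c)) * ((1 - ρ ^ 2) * (τ / c) ^ 2) = (1 - c) * ((1 - ρ ^ 2) * τ ^ 2) := by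
    field_simp
  have q2 : (1 - c) * (c * (1 - c)) * ((1 - ρ ^ 2) * (τ / (1 - c)) ^ 2)
      = c * ((1 - ρ ^ 2) * τ ^ 2) := by
    field_simp
  rw [q1] at g1'
  rw [q2] at g2'
  have q3 : ε * (1 - ε) * (u - w) ^ 2 = (1 - ρ ^ 2) * τ ^ 2 := by
    rw [hτ, hρ]; ring
  rw [q3]
  nlinarith

/-- Consequence of `key_lower`: the gap `Δ` dominates `A (2 y |t| - y² φ(c))` for every `y`. -/
lemma gap_ge {ε u w : ℝ} (h0 : 0 ≤ ε) (h1 : ε ≤ 1 / 2) (hu : u ∈ Set.Icc (0 : ℝ) 1)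
    (hw : w ∈ Set.Icc (0 : ℝ) 1) (y : ℝ) :
    ε * (1 - ε) * (2 * y * |u - w| - y ^ 2 * ((u + w) / 2 * (1 - (u + w) / 2))) ≤
      SS ε u w - binEntropy u - binEntropy w := by
  have hk := key_lower h0 h1 hu hw
  have hge := SS_ge h0 (by linarith) hu hw
  obtain ⟨hu0, hu1⟩ := hu
  obtain ⟨hw0, hw1⟩ := hw
  set φ := (u + w) / 2 * (1 - (u + w) / 2) with hφ
  set t := u - w with ht
  have hA : 0 ≤ ε * (1 - ε) := mul_nonneg h0 (by linarith)
  have hφ0 : 0 ≤ φ := by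
    rw [hφ]
    exact mul_nonneg (by linarith) (by linarith)
  rcases eq_or_lt_of_le hφ0 with hφz | hφpos
  · -- `φ = 0` forces `t = 0`
    have ht0 : t = 0 := by
      have hor : (u + w) / 2 = 0 ∨ 1 - (u + w) / 2 = 0 := by
        apply mul_eq_zero.mp
        rw [← hφ]; exact hφz.symm
      rw [ht]
      rcases hor with h | h <;> linarith
    rw [ht0, ← hφz]
    simp
    linarith
  · have hsq : φ * (2 * y * |t| - y ^ 2 * φ) ≤ t ^ 2 := by
      have := sq_nonneg (|t| - y * φ)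
      rw [sub_sq, sq_abs] at this
      nlinarith
    have : ε * (1 - ε) * (2 * y * |t| - y ^ 2 * φ) * φ ≤ (SS ε u w - binEntropy u - binEntropy w) * φ := by
      calc ε * (1 - ε) * (2 * y * |t| - y ^ 2 * φ) * φ
          = ε * (1 - ε) * (φ * (2 * y * |t| - y ^ 2 * φ)) := by ring
        _ ≤ ε * (1 - ε) * t ^ 2 := mul_le_mul_of_nonneg_left hsq hA
        _ ≤ _ := hk
    exact le_of_mul_le_mul_right this hφpos

/-- Upper bound for the entropy defect at a midpoint. -/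
lemma J_bound {a₁ a₂ : ℝ} (h1 : a₁ ∈ Set.Icc (0 : ℝ) 1) (h2 : a₂ ∈ Set.Icc (0 : ℝ) 1) :
    (binEntropy ((a₁ + a₂) / 2) - (binEntropy a₁ + binEntropy a₂) / 2) *
        ((a₁ + a₂) / 2 * (1 - (a₁ + a₂) / 2)) ≤ log 2 / 4 * (a₁ - a₂) ^ 2 := by
  obtain ⟨h10, h11⟩ := h1
  obtain ⟨h20, h21⟩ := h2
  have hl : 0 < log 2 := log_pos (by norm_num)
  set c := (a₁ + a₂) / 2 with hc
  rcases eq_or_lt_of_le (show 0 ≤ c by rw [hc]; positivity) with hc0 | hc0
  · rw [← hc0]
    simp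
    positivity
  rcases eq_or_lt_of_le (show c ≤ 1 by rw [hc]; linarith) with hc1 | hc1
  · rw [hc1]
    simp
    positivity
  set τ := (a₁ - a₂) / 2 with hτ
  have hc1' : 0 < 1 - c := by linarith
  have eu : a₁ = c + τ := by rw [hc, hτ]; ring
  have ew : a₂ = c - τ := by rw [hc, hτ]; ring
  have m1 := midpoint_formula (δ := τ) hc0.ne' hc1'.ne'
  rw [← eu, ← ew] at m1
  have hz1 : |τ / c| ≤ 1 := by
    rw [abs_div, abs_of_pos hc0, div_le_one hc0, abs_le, hτ, hc]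
    constructor <;> linarith
  have hz2 : |τ / (1 - c)| ≤ 1 := by
    rw [abs_div, abs_of_pos hc1', div_le_one hc1', abs_le, hτ, hc]
    constructor <;> linarith
  have g1 := mul_le_mul_of_nonneg_left (Om_le hz1) (mul_nonneg hc0.le (mul_nonneg hc0.le hc1'.le))
  have g2 := mul_le_mul_of_nonneg_left (Om_le hz2) (mul_nonneg hc1'.le (mul_nonneg hc0.le hc1'.le))
  have q1 : c * (c * (1 - c)) * (2 * log 2 * (τ / c) ^ 2) = (1 - c) * (2 * log 2 * τ ^ 2) := by
    field_simp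
  have q2 : (1 - c) * (c * (1 - c)) * (2 * log 2 * (τ / (1 - c)) ^ 2) = c * (2 * log 2 * τ ^ 2) := by
    field_simp
  rw [q1] at g1
  rw [q2] at g2
  have e : binEntropy c - (binEntropy a₁ + binEntropy a₂) / 2 =
      (c * Om (τ / c) + (1 - c) * Om (τ / (1 - c))) / 2 := by
    rw [m1]; ring
  rw [e]
  have q3 : log 2 / 4 * (a₁ - a₂) ^ 2 = log 2 * τ ^ 2 := by
    rw [hτ]; ring
  rw [q3]
  nlinarith

end Vale.Agent.P322
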