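import Vale.Agent.P322.PTangent

/-!
The sign of `κ` in the plane theorem.
-/

namespace Vale.Agent.P322

open Real

/-- `m² log(1/m) ≤ (1-m)² log(1/(1-m))` for `m ≤ 1/2`. -/
theorem key_sq_log {m : ℝ} (h0 : 0 < m) (h1 : m ≤ 1 / 2) :
    m ^ 2 * (-log m) ≤ (1 - m) ^ 2 * (-log (1 - m)) := by
  let G : ℝ → ℝ := fun x => x * (x * log x) - (1 - x) ^ 2 * log (1 - x)
  have hcont : Continuous G := by
    have h2 : Continuous fun x : ℝ => x * log x := continuous_mul_log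
    have h3 : Continuous fun x : ℝ => (1 - x) * log (1 - x) :=
      h2.comp (continuous_const.sub continuous_id)
    have e : G = fun x => x * (x * log x) - (1 - x) * ((1 - x) * log (1 - x)) := by
      funext x
      simp only [G]
      ring
    rw [e]
    exact (continuous_id.mul h2).sub ((continuous_const.sub continuous_id).mul h3)
  have hd : ∀ x ∈ Set.Ioo (0 : ℝ) (1 / 2), HasDerivAt G (1 - 2 * binEntropy x) x := by
    intro x hx
    have hx0 : x ≠ 0 := hx.1.ne'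
    have hx1 : 1 - x ≠ 0 := by linarith [hx.2]
    have h3 : HasDerivAt (fun x : ℝ => 1 - x) (-1) x := by
      simpa using (hasDerivAt_id x).const_sub 1
    have h4 := (hasDerivAt_id' x).fun_mul ((hasDerivAt_id' x).fun_mul (hasDerivAt_log hx0))
    have h5 := (h3.fun_pow 2).fun_mul (h3.log hx1)
    refine (h4.fun_sub h5).congr_deriv ?_
    unfold binEntropy
    rw [log_inv, log_inv]
    push_cast
    field_simp
    ring
  have hconc : ConcaveOn ℝ (Set.Icc (0 : ℝ) (1 / 2)) G := by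
    apply AntitoneOn.concaveOn_of_deriv (convex_Icc _ _) hcont.continuousOn
    · rw [interior_Icc]
      exact fun x hx => (hd x hx).differentiableAt.differentiableWithinAt
    · rw [interior_Icc]
      intro x hx y hy hxy
      rw [(hd x hx).deriv, (hd y hy).deriv]
      have hm := binEntropy_strictMonoOn.monotoneOn
        (show x ∈ Set.Icc (0 : ℝ) 2⁻¹ from ⟨hx.1.le, by linarith [hx.2]⟩)
        (show y ∈ Set.Icc (0 : ℝ) 2⁻¹ from ⟨hy.1.le, by linarith [hy.2]⟩) hxy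
      linarith
  have hG0 : G 0 = 0 := by simp [G]
  have hG1 : G (1 / 2) = 0 := by
    simp only [G]
    norm_num
    ring
  have h2 := hconc.2 (show (1 / 2 : ℝ) ∈ Set.Icc (0 : ℝ) (1 / 2) by norm_num)
    (show (0 : ℝ) ∈ Set.Icc (0 : ℝ) (1 / 2) by norm_num)
    (show 0 ≤ 2 * m by positivity) (show 0 ≤ 1 - 2 * m by linarith) (by ring)
  simp only [smul_eq_mul, hG0, hG1, mul_zero, add_zero] at h2
  have e : 2 * m * (1 / 2) = m := by ring
  rw [e] at h2
  simp only [G] at h2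
  nlinarith

/-- Concavity of `y ↦ log(1 - r + r e^y)`; comparison of two logarithms. -/
theorem log_ratio_cmp {A B e E : ℝ} (hA : 0 < A) (hAB : A ≤ B) (he : 0 ≤ e) (heE : e ≤ E)
    (hE : 0 < E) :
    log (1 + e / B) * log (1 + E / A) ≤ log (1 + e / A) * log (1 + E / B) := by
  have hB : 0 < B := lt_of_lt_of_le hA hAB
  set r := B / A with hr
  have hr1 : 1 ≤ r := (one_le_div hA).mpr hAB
  let φ : ℝ → ℝ := fun y => log (1 - r + r * exp y)
  have hpos : ∀ y : ℝ, 0 ≤ y → 0 < 1 - r + r * exp y := by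
    intro y hy
    have : 1 ≤ exp y := one_le_exp hy
    nlinarith
  have hd : ∀ y : ℝ, 0 ≤ y → HasDerivAt φ (r * exp y / (1 - r + r * exp y)) y := by
    intro y hy
    have h1 : HasDerivAt (fun y => 1 - r + r * exp y) (r * exp y) y := by
      simpa using ((hasDerivAt_exp y).const_mul r).const_add (1 - r)
    exact h1.log (hpos y hy).ne'
  have hconc : ConcaveOn ℝ (Set.Ici (0 : ℝ)) φ := by
    apply AntitoneOn.concaveOn_of_deriv (convex_Ici _)
    · exact fun y hy => (hd y hy).continuousAt.continuousWithinAt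
    · rw [interior_Ici]
      exact fun y hy => (hd y (le_of_lt hy)).differentiableAt.differentiableWithinAt
    · rw [interior_Ici]
      intro x hx y hy hxy
      have hx' : 0 ≤ x := le_of_lt hx
      have hy' : 0 ≤ y := le_of_lt hy
      rw [(hd x hx').deriv, (hd y hy').deriv]
      rw [div_le_div_iff₀ (hpos y hy') (hpos x hx')]
      have h3 : exp x ≤ exp y := exp_le_exp.mpr hxy
      have h4 := exp_pos x
      have h5 := exp_pos y
      nlinarith [mul_nonneg (sub_nonneg.mpr hr1) (sub_nonneg.mpr h3),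
        mul_le_mul_of_nonneg_left (mul_nonneg (sub_nonneg.mpr hr1) (sub_nonneg.mpr h3))
          (show 0 ≤ r by linarith)]
  have hval : ∀ z : ℝ, 0 ≤ z → φ (log (1 + z / B)) = log (1 + z / A) := by
    intro z hz
    simp only [φ]
    rw [exp_log (by positivity)]
    congr 1
    rw [hr]
    field_simp
    ring
  set y := log (1 + e / B) with hy
  set Y := log (1 + E / B) with hY
  have hy0 : 0 ≤ y := log_nonneg (by have : 0 ≤ e / B := by positivity
                                     linarith)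
  have hY0 : 0 < Y := log_pos (by have : 0 < E / B := by positivity
                                  linarith)
  have hyY : y ≤ Y := by
    apply log_le_log (by positivity)
    have : e / B ≤ E / B := div_le_div_of_nonneg_right heE hB.le
    linarith
  have hφ0 : φ 0 = 0 := by simp [φ]
  have h2 := hconc.2 (show Y ∈ Set.Ici (0 : ℝ) from hY0.le) (show (0 : ℝ) ∈ Set.Ici (0 : ℝ) by simp)
    (show 0 ≤ y / Y by positivity) (show 0 ≤ 1 - y / Y by
      have : y / Y ≤ 1 := (div_le_one hY0).mpr hyY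
      linarith) (by ring)
  simp only [smul_eq_mul, hφ0, mul_zero, add_zero] at h2
  have e1 : y / Y * Y = y := by field_simp
  rw [e1, hval E hE.le, hval e he] at h2
  have h3 : y / Y * log (1 + E / A) * Y ≤ log (1 + e / A) * Y :=
    mul_le_mul_of_nonneg_right h2 hY0.le
  have e2 : y / Y * log (1 + E / A) * Y = y * log (1 + E / A) := by field_simp
  rw [e2] at h3
  exact h3

/-- Step 2 of the sign of `κ`: the termwise comparison. -/
theorem Lam_cmp {a b : ℝ} (ha : 1 < a) (hab : a ≤ b) :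
    Lam (1 / b) * log ((a + b) / a) ≤ Lam (1 / a) * log ((a + b) / b) := by
  have ha0 : 0 < a := by linarith
  have hb0 : 0 < b := by linarith
  have hs : 0 < a + b := by linarith
  have hm0 : 0 < a / (a + b) := by positivity
  have hm1 : a / (a + b) ≤ 1 / 2 := by
    rw [div_le_iff₀ hs]
    linarith
  have hk := key_sq_log hm0 hm1
  have e1 : 1 - a / (a + b) = b / (a + b) := by
    field_simp
    ring
  rw [e1] at hk
  have e2 : -log (a / (a + b)) = log ((a + b) / a) := by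
    rw [← log_inv, inv_div]
  have e3 : -log (b / (a + b)) = log ((a + b) / b) := by
    rw [← log_inv, inv_div]
  rw [e2, e3, div_pow, div_pow] at hk
  set ℓ := log ((a + b) / a) with hℓ
  set ℓ' := log ((a + b) / b) with hℓ'
  have hℓ0 : 0 ≤ ℓ := log_nonneg (by rw [one_le_div ha0]; linarith)
  have hℓ'0 : 0 ≤ ℓ' := log_nonneg (by rw [one_le_div hb0]; linarith)
  have hk2 : a ^ 2 * ℓ ≤ b ^ 2 * ℓ' := by
    have h3 : 0 < (a + b) ^ 2 := by positivity
    have e4 : a ^ 2 / (a + b) ^ 2 * ℓ = (a ^ 2 * ℓ) / (a + b) ^ 2 := by ring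
    have e5 : b ^ 2 / (a + b) ^ 2 * ℓ' = (b ^ 2 * ℓ') / (a + b) ^ 2 := by ring
    rw [e4, e5] at hk
    exact (div_le_div_iff_of_pos_right h3).mp hk
  have h1a : |1 / a| < 1 := by
    rw [abs_of_pos (by positivity), div_lt_one ha0]
    exact ha
  have h1b : |1 / b| < 1 := by
    rw [abs_of_pos (by positivity), div_lt_one hb0]
    linarith
  have hs1 := (hasSum_Lam h1b).mul_right ℓ
  have hs2 := (hasSum_Lam h1a).mul_right ℓ'
  refine hasSum_le (fun n => ?_) hs1 hs2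
  have hn : (0 : ℝ) < 2 * (n : ℝ) + 2 := by positivity
  rw [div_mul_eq_mul_div, div_mul_eq_mul_div]
  apply div_le_div_of_nonneg_right _ hn.le
  -- reduce to the square case
  have e6 : (1 / b) ^ (2 * n + 2) = (1 / b) ^ (2 * n) * (1 / b ^ 2) := by
    rw [pow_add]
    congr 1
    exact one_div_pow b 2
  have e7 : (1 / a) ^ (2 * n + 2) = (1 / a) ^ (2 * n) * (1 / a ^ 2) := by
    rw [pow_add]
    congr 1
    exact one_div_pow a 2
  rw [e6, e7]
  have h4 : (1 / b) ^ (2 * n) ≤ (1 / a) ^ (2 * n) := by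
    apply pow_le_pow_left₀ (by positivity)
    exact one_div_le_one_div_of_le ha0 hab
  have h5 : (1 / b ^ 2) * ℓ ≤ (1 / a ^ 2) * ℓ' := by
    have h6 : 0 < a ^ 2 * b ^ 2 := by positivity
    rw [div_mul_eq_mul_div, div_mul_eq_mul_div, div_le_div_iff₀ (by positivity) (by positivity)]
    nlinarith
  have h7 : 0 ≤ (1 / b ^ 2) * ℓ := by positivity
  calc (1 / b) ^ (2 * n) * (1 / b ^ 2) * ℓ = (1 / b) ^ (2 * n) * ((1 / b ^ 2) * ℓ) := by ring
    _ ≤ (1 / a) ^ (2 * n) * ((1 / b ^ 2) * ℓ) := mul_le_mul_of_nonneg_right h4 h7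
    _ ≤ (1 / a) ^ (2 * n) * ((1 / a ^ 2) * ℓ') := mul_le_mul_of_nonneg_left h5 (by positivity)
    _ = _ := by ring

lemma log_sq_sub_one {t : ℝ} (ht : 1 < t) : log (1 + 1 / (t ^ 2 - 1)) = 2 * Lam (1 / t) := by
  have h1 : 0 < t ^ 2 - 1 := by nlinarith
  have h2 : 0 < t := by linarith
  unfold Lam
  have e1 : 1 + 1 / (t ^ 2 - 1) = (1 - (1 / t) ^ 2)⁻¹ := by
    field_simp
    ring
  rw [e1, log_inv]
  ring

lemma cross_abstract {LAe LBe LA1 LB1 ℓ ℓ' : ℝ} (hLA1 : 0 < LA1) (hLAe : 0 ≤ LAe)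
    (hℓ : 0 ≤ ℓ)
    (s1 : LBe * LA1 ≤ LAe * LB1) (s2 : LB1 / 2 * ℓ ≤ LA1 / 2 * ℓ') :
    LBe * (2 * ℓ + LA1) ≤ LAe * (2 * ℓ' + LB1) := by
  have t2 : LB1 * (2 * ℓ + LA1) ≤ LA1 * (2 * ℓ' + LB1) := by
    have e1 : LB1 * (2 * ℓ + LA1) = 4 * (LB1 / 2 * ℓ) + LB1 * LA1 := by ring
    have e2 : LA1 * (2 * ℓ' + LB1) = 4 * (LA1 / 2 * ℓ') + LB1 * LA1 := by ring
    rw [e1, e2]
    linarith
  have hD : 0 ≤ 2 * ℓ + LA1 := by positivity
  have h1 : LBe * LA1 * (2 * ℓ + LA1) ≤ LAe * LB1 * (2 * ℓ + LA1) :=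
    mul_le_mul_of_nonneg_right s1 hD
  have h2 : LAe * (LB1 * (2 * ℓ + LA1)) ≤ LAe * (LA1 * (2 * ℓ' + LB1)) :=
    mul_le_mul_of_nonneg_left t2 hLAe
  have h3 : LA1 * (LBe * (2 * ℓ + LA1)) ≤ LA1 * (LAe * (2 * ℓ' + LB1)) := by
    calc LA1 * (LBe * (2 * ℓ + LA1)) = LBe * LA1 * (2 * ℓ + LA1) := by ring
      _ ≤ LAe * LB1 * (2 * ℓ + LA1) := h1
      _ = LAe * (LB1 * (2 * ℓ + LA1)) := by ring
      _ ≤ LAe * (LA1 * (2 * ℓ' + LB1)) := h2
      _ = LA1 * (LAe * (2 * ℓ' + LB1)) := by ring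
  exact le_of_mul_le_mul_left h3 hLA1

lemma log_decomp {t s : ℝ} (ht : 1 < t) (hs : 0 < s) :
    2 * log s - log (t ^ 2 - 1) = 2 * log (s / t) + log (1 + 1 / (t ^ 2 - 1)) := by
  have h0 : 0 < t := by linarith
  have h1 : 0 < t ^ 2 - 1 := by nlinarith
  have e1 : 1 + 1 / (t ^ 2 - 1) = t ^ 2 / (t ^ 2 - 1) := by
    field_simp
    ring
  rw [e1, log_div (by positivity) h1.ne', log_div hs.ne' h0.ne', log_pow]
  push_cast
  ring

lemma log_decomp2 {t ρ : ℝ} (ht : 1 < t) (hρ1 : ρ ^ 2 ≤ 1) :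
    log (t ^ 2 - ρ ^ 2) = log (t ^ 2 - 1) + log (1 + (1 - ρ ^ 2) / (t ^ 2 - 1)) := by
  have h1 : 0 < t ^ 2 - 1 := by nlinarith
  have h2 : 0 < 1 + (1 - ρ ^ 2) / (t ^ 2 - 1) := by
    have : 0 ≤ (1 - ρ ^ 2) / (t ^ 2 - 1) := div_nonneg (by linarith) h1.le
    linarith
  rw [← log_mul h1.ne' h2.ne']
  congr 1
  field_simp
  ring

/-- The sign of `κ` in logarithmic form. -/
theorem kappa_cross {a b ρ : ℝ} (ha : 1 < a) (hab : a ≤ b) (hρ0 : 0 ≤ ρ) (hρ1 : ρ ≤ 1) :
    (2 * log (a + b) - log (a ^ 2 - ρ ^ 2)) * (2 * log (a + b) - log (b ^ 2 - 1))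
      ≤ (2 * log (a + b) - log (b ^ 2 - ρ ^ 2)) * (2 * log (a + b) - log (a ^ 2 - 1)) := by
  have ha0 : 0 < a := by linarith
  have hb0 : 0 < b := by linarith
  have hb1 : 1 < b := by linarith
  have hs : 0 < a + b := by linarith
  have hρ2 : ρ ^ 2 ≤ 1 := pow_le_one₀ hρ0 hρ1
  have hA0 : 0 < a ^ 2 - 1 := by nlinarith
  have hAB : a ^ 2 - 1 ≤ b ^ 2 - 1 := by nlinarith
  have hB0 : 0 < b ^ 2 - 1 := by nlinarith
  have he0 : 0 ≤ 1 - ρ ^ 2 := by linarith
  have he1 : 1 - ρ ^ 2 ≤ 1 := by nlinarith [sq_nonneg ρ]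
  have s1 := log_ratio_cmp hA0 hAB he0 he1 one_pos
  have d1 := log_decomp ha hs
  have d2 := log_decomp hb1 hs
  have hLA1pos : 0 < log (1 + 1 / (a ^ 2 - 1)) := log_pos (by
    have : 0 < 1 / (a ^ 2 - 1) := by positivity
    linarith)
  have hLAe0 : 0 ≤ log (1 + (1 - ρ ^ 2) / (a ^ 2 - 1)) := log_nonneg (by
    have : 0 ≤ (1 - ρ ^ 2) / (a ^ 2 - 1) := by positivity
    linarith)
  have hℓ0 : 0 ≤ log ((a + b) / a) := log_nonneg (by rw [one_le_div ha0]; linarith)
  have t3 := cross_abstract hLA1pos hLAe0 hℓ0 s1 (by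
    have e1 : log (1 + 1 / (b ^ 2 - 1)) / 2 = Lam (1 / b) := by
      rw [log_sq_sub_one hb1]; ring
    have e2 : log (1 + 1 / (a ^ 2 - 1)) / 2 = Lam (1 / a) := by
      rw [log_sq_sub_one ha]; ring
    rw [e1, e2]
    have e3 := Lam_cmp ha hab
    exact e3)
  rw [← d1, ← d2] at t3
  rw [log_decomp2 ha hρ2, log_decomp2 hb1 hρ2]
  have e1 : ∀ X Y : ℝ, 2 * log (a + b) - (X + Y) = (2 * log (a + b) - X) - Y := by
    intro X Y
    ring
  rw [e1, e1]
  generalize log (1 + (1 - ρ ^ 2) / (a ^ 2 - 1)) = LAe at *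
  generalize log (1 + (1 - ρ ^ 2) / (b ^ 2 - 1)) = LBe at *
  generalize 2 * log (a + b) - log (a ^ 2 - 1) = DA at *
  generalize 2 * log (a + b) - log (b ^ 2 - 1) = DB at *
  linarith [t3, show (DA - LAe) * DB - (DB - LBe) * DA = LBe * DA - LAe * DB by ring]

end Vale.Agent.P322
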