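import Vale.Agent.P322.PKappa

/-!
The plane theorem: the exact tangent planes of the two-point entropy function.
-/

namespace Vale.Agent.P322

open Real

/-- The two-point function. -/
noncomputable def Psi (ρ u v : ℝ) : ℝ :=
  (binEntropy ((u + v) / 2 + ρ * (u - v) / 2) + binEntropy ((u + v) / 2 - ρ * (u - v) / 2)) / 2

/-- `2 log s - log (t² - 1)`. -/
noncomputable def DD (s t : ℝ) : ℝ := 2 * log s - log (t ^ 2 - 1)

/-- `2 log s - log (t² - ρ²)`. -/
noncomputable def NN (ρ s t : ℝ) : ℝ := 2 * log s - log (t ^ 2 - ρ ^ 2)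

/-- The multiplier `μ` of the plane with data `a', b'`. -/
noncomputable def pMu (ρ a' b' : ℝ) : ℝ := NN ρ (a' + b') b' / DD (a' + b') b'

/-- The coefficient `κ` of the mean. -/
noncomputable def pKap (ρ a' b' : ℝ) : ℝ :=
  (NN ρ (a' + b') a' - pMu ρ a' b' * DD (a' + b') a') / 2

/-- The coefficient `ν` of the difference. -/
noncomputable def pNu (ρ a' b' : ℝ) : ℝ :=
  (pMu ρ a' b' * (Art (1 / a') + Art (1 / b'))
    - ρ * (Art (ρ * (1 / a')) + Art (ρ * (1 / b')))) / 2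

section basics

variable {ρ a' b' : ℝ}

lemma inv_lt_one_of {t : ℝ} (ht : 1 < t) : 1 / t < 1 := by
  rw [div_lt_one (by linarith)]
  exact ht

lemma inv_pos_of {t : ℝ} (ht : 1 < t) : 0 < 1 / t := by
  have : 0 < t := by linarith
  positivity

lemma DD_decomp {s t : ℝ} (ht : 1 < t) (hs : t + 1 ≤ s) :
    DD s t = 2 * (log s - log (t + 1)) + 2 * Art (1 / t) := by
  have h0 : 0 < t := by linarith
  have e1 : 1 + 1 / t = (t + 1) / t := by
    field_simp
  have e2 : 1 - 1 / t = (t - 1) / t := by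
    field_simp
  unfold DD Art
  rw [e1, e2, log_div (by linarith) h0.ne', log_div (by linarith) h0.ne',
    show t ^ 2 - 1 = (t + 1) * (t - 1) by ring, log_mul (by linarith) (by linarith)]
  ring

lemma NN_decomp {s t : ℝ} (ht : 1 < t) (hρ0 : 0 ≤ ρ) (hρ1 : ρ ≤ 1) (hs : t + 1 ≤ s) :
    NN ρ s t = 2 * (log s - log (t + 1)) + 2 * (log (1 + 1 / t) + Lam (ρ * (1 / t))) := by
  have h0 : 0 < t := by linarith
  have e1 : 1 + 1 / t = (t + 1) / t := by
    field_simp
  have hq : 0 < t ^ 2 - ρ ^ 2 := by nlinarith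
  have e2 : 1 - (ρ * (1 / t)) ^ 2 = (t ^ 2 - ρ ^ 2) / t ^ 2 := by
    field_simp
  unfold NN Lam
  rw [e1, e2, log_div (by linarith) h0.ne', log_div hq.ne' (by positivity), log_pow]
  push_cast
  ring

lemma log_add_Lam_le {τ : ℝ} (hρ0 : 0 ≤ ρ) (hρ1 : ρ ≤ 1) (h0 : 0 < τ) (h1 : τ < 1) :
    log (1 + τ) + Lam (ρ * τ) ≤ Art τ := by
  have h2 : Art τ = log (1 + τ) + Lam τ := by
    linarith [Art_sub_Lam h0 h1]
  rw [h2]
  have h3 : Lam (ρ * τ) ≤ Lam τ := by
    unfold Lam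
    have : (ρ * τ) ^ 2 ≤ τ ^ 2 := by
      rw [mul_pow]
      have : ρ ^ 2 ≤ 1 := pow_le_one₀ hρ0 hρ1
      nlinarith [sq_nonneg τ]
    have h4 : 0 < 1 - τ ^ 2 := by nlinarith
    have h5 : log (1 - τ ^ 2) ≤ log (1 - (ρ * τ) ^ 2) := log_le_log h4 (by linarith)
    linarith
  linarith

lemma Lam_nonneg {z : ℝ} (h : |z| < 1) : 0 ≤ Lam z :=
  (hasSum_Lam h).nonneg fun n => by
    have : Even (2 * n + 2) := ⟨n + 1, by ring⟩
    have h2 := this.pow_nonneg z
    positivity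

end basics

/-- The standing assumptions on the plane data. -/
structure PData (ρ a' b' : ℝ) : Prop where
  ρ0 : 0 < ρ
  ρ1 : ρ ≤ 1
  a1 : 1 < a'
  ab : a' ≤ b'

section data

variable {ρ a' b' : ℝ} (P : PData ρ a' b')
include P

lemma PData.b1 : 1 < b' := lt_of_lt_of_le P.a1 P.ab
lemma PData.a0 : 0 < a' := by linarith [P.a1]
lemma PData.b0 : 0 < b' := by linarith [P.b1]
lemma PData.s0 : 0 < a' + b' := by linarith [P.a0, P.b0]
lemma PData.ub : b' + 1 ≤ a' + b' := by linarith [P.a1]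
lemma PData.ua : a' + 1 ≤ a' + b' := by linarith [P.b1]

lemma PData.DDb : 0 < DD (a' + b') b' := by
  rw [DD_decomp P.b1 P.ub]
  have h1 := Art_pos (inv_pos_of P.b1) (inv_lt_one_of P.b1)
  have h2 : log (b' + 1) ≤ log (a' + b') := log_le_log (by linarith [P.b0]) P.ub
  linarith

lemma PData.DDa : 0 < DD (a' + b') a' := by
  rw [DD_decomp P.a1 P.ua]
  have h1 := Art_pos (inv_pos_of P.a1) (inv_lt_one_of P.a1)
  have h2 : log (a' + 1) ≤ log (a' + b') := log_le_log (by linarith [P.a0]) P.ua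
  linarith

lemma PData.mu_nonneg : 0 ≤ pMu ρ a' b' := by
  unfold pMu
  apply div_nonneg _ P.DDb.le
  rw [NN_decomp P.b1 P.ρ0.le P.ρ1 P.ub]
  have h2 : log (b' + 1) ≤ log (a' + b') := log_le_log (by linarith [P.b0]) P.ub
  have h3 : 0 ≤ log (1 + 1 / b') := log_nonneg (by
    have := inv_pos_of P.b1
    linarith)
  have h4 : 0 ≤ Lam (ρ * (1 / b')) := by
    apply Lam_nonneg
    have h5 := inv_pos_of P.b1
    have h6 := inv_lt_one_of P.b1
    rw [abs_of_pos (mul_pos P.ρ0 h5)]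
    nlinarith [P.ρ1]
  linarith

lemma PData.mu_le_one : pMu ρ a' b' ≤ 1 := by
  unfold pMu
  rw [div_le_one P.DDb]
  rw [NN_decomp P.b1 P.ρ0.le P.ρ1 P.ub, DD_decomp P.b1 P.ub]
  have := log_add_Lam_le P.ρ0.le P.ρ1 (inv_pos_of P.b1) (inv_lt_one_of P.b1)
  linarith

lemma PData.mu_mul : pMu ρ a' b' * DD (a' + b') b' = NN ρ (a' + b') b' := by
  unfold pMu
  have := P.DDb
  field_simp

/-- The lower bound for `μ` in terms of the smaller parameter. -/
lemma PData.mu_Art : log (1 + 1 / b') + Lam (ρ * (1 / b')) ≤ pMu ρ a' b' * Art (1 / b') := by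
  have h1 := P.mu_mul
  rw [NN_decomp P.b1 P.ρ0.le P.ρ1 P.ub, DD_decomp P.b1 P.ub] at h1
  have h2 : log (b' + 1) ≤ log (a' + b') := log_le_log (by linarith [P.b0]) P.ub
  have h3 := log_add_Lam_le P.ρ0.le P.ρ1 (inv_pos_of P.b1) (inv_lt_one_of P.b1)
  have h4 := P.mu_le_one
  have h5 : 0 ≤ log (a' + b') - log (b' + 1) := by linarith
  -- `μ (Δ + X) = Δ + Z` with `μ ≤ 1`
  have h6 : (1 - pMu ρ a' b') * (log (a' + b') - log (b' + 1)) ≥ 0 :=
    mul_nonneg (by linarith) h5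
  nlinarith

lemma PData.C_b : ρ * Sg (ρ * (1 / b')) ≤ pMu ρ a' b' * Sg (1 / b') := by
  have h0 := inv_pos_of P.b1
  have h1 := inv_lt_one_of P.b1
  have hs := star_ineq P.ρ0 P.ρ1 h0 h1
  have hm := P.mu_Art
  have hS := Sg_nonneg h0 h1
  have hA := Art_pos h0 h1
  have h2 : Art (1 / b') * (ρ * Sg (ρ * (1 / b'))) ≤ Art (1 / b') * (pMu ρ a' b' * Sg (1 / b')) := by
    calc _ ≤ (log (1 + 1 / b') + Lam (ρ * (1 / b'))) * Sg (1 / b') := hs
      _ ≤ (pMu ρ a' b' * Art (1 / b')) * Sg (1 / b') := mul_le_mul_of_nonneg_right hm hS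
      _ = _ := by ring
  exact le_of_mul_le_mul_left h2 hA

lemma PData.order : 1 / b' ≤ 1 / a' := one_div_le_one_div_of_le P.a0 P.ab

lemma PData.C_a : ρ * Sg (ρ * (1 / a')) ≤ pMu ρ a' b' * Sg (1 / a') :=
  C_mono P.ρ0 P.ρ1 (inv_pos_of P.b1) P.order (inv_lt_one_of P.a1) P.C_b

lemma PData.Art_b : ρ * Art (ρ * (1 / b')) ≤ pMu ρ a' b' * Art (1 / b') := by
  refine le_trans ?_ P.mu_Art
  have h0 := inv_pos_of P.b1
  have h1 := inv_lt_one_of P.b1
  set τ := 1 / b' with hτ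
  have hρτ0 : 0 < ρ * τ := mul_pos P.ρ0 h0
  have hρτ1 : ρ * τ < 1 := by nlinarith [P.ρ1]
  have hρτ2 : ρ * τ ≤ τ := by nlinarith [P.ρ1]
  have h2 : ρ * Art (ρ * τ) - Lam (ρ * τ)
      = (ρ + 1) / 2 * log (1 + ρ * τ) + (1 - ρ) / 2 * log (1 - ρ * τ) := by
    unfold Art Lam
    rw [show 1 - (ρ * τ) ^ 2 = (1 + ρ * τ) * (1 - ρ * τ) by ring,
      log_mul (by linarith) (by linarith)]
    ring
  have h3 : log (1 - ρ * τ) ≤ 0 := log_nonpos (by linarith) (by linarith)
  have h4 : log (1 + ρ * τ) ≤ log (1 + τ) := log_le_log (by linarith) (by linarith)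
  have h5 : 0 ≤ log (1 + ρ * τ) := log_nonneg (by linarith)
  have h6 : (1 - ρ) / 2 * log (1 - ρ * τ) ≤ 0 :=
    mul_nonpos_of_nonneg_of_nonpos (by linarith [P.ρ1]) h3
  have h7 : (ρ + 1) / 2 * log (1 + ρ * τ) ≤ log (1 + ρ * τ) := by
    have : (ρ + 1) / 2 ≤ 1 := by linarith [P.ρ1]
    nlinarith
  linarith

lemma PData.Art_a : ρ * Art (ρ * (1 / a')) ≤ pMu ρ a' b' * Art (1 / a') :=
  Art_mono P.ρ0 P.ρ1 (inv_pos_of P.b1) P.order (inv_lt_one_of P.a1) P.Art_b

lemma PData.nu_nonneg : 0 ≤ pNu ρ a' b' := by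
  unfold pNu
  have h1 := P.Art_a
  have h2 := P.Art_b
  nlinarith

lemma PData.kap_nonpos : pKap ρ a' b' ≤ 0 := by
  unfold pKap
  have h1 := kappa_cross P.a1 P.ab P.ρ0.le P.ρ1
  have h2 := P.DDb
  have h3 : NN ρ (a' + b') a' - pMu ρ a' b' * DD (a' + b') a' ≤ 0 := by
    unfold pMu
    have h4 : NN ρ (a' + b') a' * DD (a' + b') b' ≤ NN ρ (a' + b') b' * DD (a' + b') a' := h1
    rw [sub_nonpos, div_mul_eq_mul_div, le_div_iff₀ h2]
    exact h4
  linarith

/-- The first critical equation. -/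
lemma PData.CE_b : (1 - pMu ρ a' b') * log ((a' + b') / b')
    = pMu ρ a' b' * Lam (1 / b') - Lam (ρ * (1 / b')) := by
  have h := P.mu_mul
  have hb := P.b0
  have hb2 : 0 < b' ^ 2 - 1 := by nlinarith [P.b1]
  have hb3 : 0 < b' ^ 2 - ρ ^ 2 := by nlinarith [P.b1, P.ρ1, P.ρ0]
  have e1 : Lam (1 / b') = log b' - log (b' ^ 2 - 1) / 2 := by
    unfold Lam
    have : 1 - (1 / b') ^ 2 = (b' ^ 2 - 1) / b' ^ 2 := by
      field_simp
    rw [this, log_div hb2.ne' (by positivity), log_pow]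
    push_cast
    ring
  have e2 : Lam (ρ * (1 / b')) = log b' - log (b' ^ 2 - ρ ^ 2) / 2 := by
    unfold Lam
    have : 1 - (ρ * (1 / b')) ^ 2 = (b' ^ 2 - ρ ^ 2) / b' ^ 2 := by
      field_simp
    rw [this, log_div hb3.ne' (by positivity), log_pow]
    push_cast
    ring
  rw [e1, e2, log_div P.s0.ne' hb.ne']
  unfold DD NN at h
  nlinarith

/-- The second critical equation. -/
lemma PData.CE_a : (1 - pMu ρ a' b') * log ((a' + b') / a') - pKap ρ a' b'
    = pMu ρ a' b' * Lam (1 / a') - Lam (ρ * (1 / a')) := by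
  have ha := P.a0
  have ha2 : 0 < a' ^ 2 - 1 := by nlinarith [P.a1]
  have ha3 : 0 < a' ^ 2 - ρ ^ 2 := by nlinarith [P.a1, P.ρ1, P.ρ0]
  have e1 : Lam (1 / a') = log a' - log (a' ^ 2 - 1) / 2 := by
    unfold Lam
    have : 1 - (1 / a') ^ 2 = (a' ^ 2 - 1) / a' ^ 2 := by
      field_simp
    rw [this, log_div ha2.ne' (by positivity), log_pow]
    push_cast
    ring
  have e2 : Lam (ρ * (1 / a')) = log a' - log (a' ^ 2 - ρ ^ 2) / 2 := by
    unfold Lam
    have : 1 - (ρ * (1 / a')) ^ 2 = (a' ^ 2 - ρ ^ 2) / a' ^ 2 := by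
      field_simp
    rw [this, log_div ha3.ne' (by positivity), log_pow]
    push_cast
    ring
  rw [e1, e2, log_div P.s0.ne' ha.ne']
  unfold pKap DD NN
  ring

/-- The function `𝓗` whose nonnegativity is the plane inequality. -/
theorem PData.core {a b : ℝ} (ha : 1 < a) (hb : 1 < b) :
    0 ≤ (1 - pMu ρ a' b') * (a * log ((a + b) / a) + b * log ((a + b) / b))
      + (pMu ρ a' b' * Xi (1 / a) - Xi (ρ * (1 / a))) / (1 / a)
      + (pMu ρ a' b' * Xi (1 / b) - Xi (ρ * (1 / b))) / (1 / b)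
      - pKap ρ a' b' * a - 2 * pNu ρ a' b' := by
  have ha0 : 0 < a := by linarith
  have hb0 : 0 < b := by linarith
  have ha'0 := P.a0
  have hb'0 := P.b0
  set μ := pMu ρ a' b' with hμ
  set κ := pKap ρ a' b' with hκ
  set ωa := μ * Lam (1 / a') - Lam (ρ * (1 / a')) with hωa
  set ωb := μ * Lam (1 / b') - Lam (ρ * (1 / b')) with hωb
  set Xa := 2 * a' - a' ^ 2 / a with hXa
  set Xb := 2 * b' - b' ^ 2 / b with hXb
  have h1 := N_tangent ha0 hb0 ha'0 hb'0
  have hY2 := Y_tangent (μ := μ) P.ρ0 P.ρ1 (inv_pos_of P.b1) (inv_lt_one_of P.b1)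
    (inv_pos_of hb) (inv_lt_one_of hb) P.C_b
  have hY3 := Y_tangent (μ := μ) P.ρ0 P.ρ1 (inv_pos_of P.a1) (inv_lt_one_of P.a1)
    (inv_pos_of ha) (inv_lt_one_of ha) P.C_a
  -- rewrite the tangent values
  have val : ∀ t t' : ℝ, 0 < t → 0 < t' →
      (μ * Xi (1 / t') - Xi (ρ * (1 / t'))) / (1 / t')
        + (μ * Lam (1 / t') - Lam (ρ * (1 / t'))) / (1 / t') ^ 2 * (1 / t - 1 / t')
      = μ * Art (1 / t') - ρ * Art (ρ * (1 / t'))
        - (μ * Lam (1 / t') - Lam (ρ * (1 / t'))) * (2 * t' - t' ^ 2 / t) := by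
    intro t t' h0 h0'
    unfold Xi
    field_simp
    ring
  rw [val b b' hb0 hb'0] at hY2
  rw [val a a' ha0 ha'0] at hY3
  rw [← hωb, ← hXb] at hY2
  rw [← hωa, ← hXa] at hY3
  have hCEa : (1 - μ) * log ((a' + b') / a') = ωa + κ := by
    have := P.CE_a
    rw [← hμ, ← hκ, ← hωa] at this
    linarith
  have hCEb : (1 - μ) * log ((a' + b') / b') = ωb := P.CE_b
  have hN : Xa * (ωa + κ) + Xb * ωb
      ≤ (1 - μ) * (a * log ((a + b) / a) + b * log ((a + b) / b)) := by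
    have h2 : 0 ≤ 1 - μ := by linarith [P.mu_le_one]
    have h3 := mul_le_mul_of_nonneg_left h1 h2
    refine le_trans (le_of_eq ?_) h3
    rw [← hCEa, ← hCEb]
    ring
  have hκa : -κ * Xa ≤ -κ * a := by
    have h2 : 0 ≤ -κ := by linarith [P.kap_nonpos]
    apply mul_le_mul_of_nonneg_left _ h2
    rw [hXa]
    have : a - (2 * a' - a' ^ 2 / a) = (a - a') ^ 2 / a := by
      field_simp
      ring
    have h3 : 0 ≤ (a - a') ^ 2 / a := by positivity
    linarith
  have hν : 2 * pNu ρ a' b' = μ * (Art (1 / a') + Art (1 / b'))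
      - ρ * (Art (ρ * (1 / a')) + Art (ρ * (1 / b'))) := by
    unfold pNu
    ring
  have e : Xa * (ωa + κ) + Xb * ωb - κ * Xa = Xa * ωa + Xb * ωb := by ring
  nlinarith

end data

section identity

lemma binEntropy_eq (p : ℝ) : binEntropy p = -(p * log p) - (1 - p) * log (1 - p) := by
  unfold binEntropy
  rw [log_inv, log_inv]
  ring

lemma Xi_eq {z : ℝ} (h0 : -1 < z) (h1 : z < 1) :
    Xi z = ((1 + z) * log (1 + z) + (1 - z) * log (1 - z)) / 2 := by
  unfold Xi Art Lam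
  rw [show 1 - z ^ 2 = (1 + z) * (1 - z) by ring, log_mul (by linarith) (by linarith)]
  ring

/-- The function `t Xi(θ/t)` in the coordinates of the two-point function. -/
lemma scaledXi {t q θ : ℝ} (ht : 0 < t) (hq : 0 < q) (hθ0 : 0 ≤ θ) (hθ : θ * q / 2 < t) :
    Xi (θ * (1 / (2 * t / q))) / (1 / (2 * t / q))
      = ((t + θ * q / 2) * log (t + θ * q / 2) + (t - θ * q / 2) * log (t - θ * q / 2)
          - 2 * t * log t) / q := by
  have hP : 0 < t + θ * q / 2 := by positivity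
  have hP' : 0 < t - θ * q / 2 := by linarith
  have e0 : θ * (1 / (2 * t / q)) = θ * q / 2 / t := by
    field_simp
  have hz0 : 0 ≤ θ * q / 2 / t := by positivity
  have hz1 : θ * q / 2 / t < 1 := by
    rw [div_lt_one ht]
    exact hθ
  rw [e0, Xi_eq (by linarith) hz1]
  have e1 : 1 + θ * q / 2 / t = (t + θ * q / 2) / t := by
    field_simp
  have e2 : 1 - θ * q / 2 / t = (t - θ * q / 2) / t := by
    field_simp
  rw [e1, e2, log_div hP.ne' ht.ne', log_div hP'.ne' ht.ne']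
  generalize log (t + θ * q / 2) = l1
  generalize log (t - θ * q / 2) = l2
  generalize log t = l3
  field_simp
  ring

/-- The identity between the two-point function and `𝓗`. -/
theorem plane_identity {m q ρ μ κ ν : ℝ} (hq : 0 < q) (h1 : q / 2 < m) (h2 : q / 2 < 1 - m)
    (hρ0 : 0 ≤ ρ) (hρ1 : ρ ≤ 1) :
    (q / 2) * ((1 - μ) * ((2 * m / q) * log ((2 * m / q + 2 * (1 - m) / q) / (2 * m / q))
          + (2 * (1 - m) / q) * log ((2 * m / q + 2 * (1 - m) / q) / (2 * (1 - m) / q)))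
        + (μ * Xi (1 / (2 * m / q)) - Xi (ρ * (1 / (2 * m / q)))) / (1 / (2 * m / q))
        + (μ * Xi (1 / (2 * (1 - m) / q)) - Xi (ρ * (1 / (2 * (1 - m) / q))))
            / (1 / (2 * (1 - m) / q))
        - κ * (2 * m / q) - 2 * ν)
      = (binEntropy (m + ρ * q / 2) + binEntropy (m - ρ * q / 2)) / 2 - κ * m - ν * q
        - μ * (binEntropy (m + q / 2) + binEntropy (m - q / 2)) / 2 := by
  have hm : 0 < m := by linarith
  have hm' : 0 < 1 - m := by linarith
  have hρq : ρ * q ≤ q := by nlinarith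
  have hρ2 : ρ * q / 2 < m := by linarith
  have hρ3 : ρ * q / 2 < 1 - m := by linarith
  have e1 := scaledXi hm hq zero_le_one (by linarith : (1 : ℝ) * q / 2 < m)
  have e2 := scaledXi hm hq hρ0 hρ2
  have e3 := scaledXi hm' hq zero_le_one (by linarith : (1 : ℝ) * q / 2 < 1 - m)
  have e4 := scaledXi hm' hq hρ0 hρ3
  simp only [one_mul] at e1 e3
  have r1 : (μ * Xi (1 / (2 * m / q)) - Xi (ρ * (1 / (2 * m / q)))) / (1 / (2 * m / q))
      = μ * (Xi (1 / (2 * m / q)) / (1 / (2 * m / q)))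
        - Xi (ρ * (1 / (2 * m / q))) / (1 / (2 * m / q)) := by ring
  have r2 : (μ * Xi (1 / (2 * (1 - m) / q)) - Xi (ρ * (1 / (2 * (1 - m) / q))))
        / (1 / (2 * (1 - m) / q))
      = μ * (Xi (1 / (2 * (1 - m) / q)) / (1 / (2 * (1 - m) / q)))
        - Xi (ρ * (1 / (2 * (1 - m) / q))) / (1 / (2 * (1 - m) / q)) := by ring
  rw [r1, r2, e1, e2, e3, e4]
  have l1 : log ((2 * m / q + 2 * (1 - m) / q) / (2 * m / q)) = -log m := by
    have : (2 * m / q + 2 * (1 - m) / q) / (2 * m / q) = m⁻¹ := by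
      field_simp
      ring
    rw [this, log_inv]
  have l2 : log ((2 * m / q + 2 * (1 - m) / q) / (2 * (1 - m) / q)) = -log (1 - m) := by
    have : (2 * m / q + 2 * (1 - m) / q) / (2 * (1 - m) / q) = (1 - m)⁻¹ := by
      field_simp
      ring
    rw [this, log_inv]
  rw [l1, l2]
  simp only [binEntropy_eq]
  have t1 : 1 - (m + ρ * q / 2) = 1 - m - ρ * q / 2 := by ring
  have t2 : 1 - (m - ρ * q / 2) = 1 - m + ρ * q / 2 := by ring
  have t3 : 1 - (m + q / 2) = 1 - m - q / 2 := by ring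
  have t4 : 1 - (m - q / 2) = 1 - m + q / 2 := by ring
  rw [t1, t2, t3, t4]
  generalize log (m + ρ * q / 2) = l1
  generalize log (m - ρ * q / 2) = l2
  generalize log (m + q / 2) = l3
  generalize log (m - q / 2) = l4
  generalize log (1 - m - ρ * q / 2) = l5
  generalize log (1 - m + ρ * q / 2) = l6
  generalize log (1 - m - q / 2) = l7
  generalize log (1 - m + q / 2) = l8
  generalize log m = l9
  generalize log (1 - m) = l10
  field_simp
  ring

end identity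

section final

variable {ρ a' b' : ℝ}

lemma Psi_comm (ρ u v : ℝ) : Psi ρ u v = Psi ρ v u := by
  unfold Psi
  rw [show (u + v) / 2 + ρ * (u - v) / 2 = (v + u) / 2 - ρ * (v - u) / 2 by ring,
    show (u + v) / 2 - ρ * (u - v) / 2 = (v + u) / 2 + ρ * (v - u) / 2 by ring]
  ring

/-- The plane inequality on `u > v`. -/
theorem PData.plane_pos (P : PData ρ a' b') {u v : ℝ} (hu : u < 1) (hv : 0 < v) (huv : v < u) :
    pKap ρ a' b' * ((u + v) / 2) + pNu ρ a' b' * (u - v)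
        + pMu ρ a' b' * (binEntropy u + binEntropy v) / 2 ≤ Psi ρ u v := by
  set m := (u + v) / 2 with hm
  set q := u - v with hq
  have hq0 : 0 < q := by rw [hq]; linarith
  have h1 : q / 2 < m := by rw [hm, hq]; linarith
  have h2 : q / 2 < 1 - m := by rw [hm, hq]; linarith
  have hm0 : 0 < m := by linarith
  have hm1 : 0 < 1 - m := by linarith
  have ha : 1 < 2 * m / q := by
    rw [one_lt_div hq0]
    linarith
  have hb : 1 < 2 * (1 - m) / q := by
    rw [one_lt_div hq0]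
    linarith
  have hc := P.core ha hb
  have hid := plane_identity (μ := pMu ρ a' b') (κ := pKap ρ a' b') (ν := pNu ρ a' b') hq0 h1 h2
    P.ρ0.le P.ρ1
  have hpos : 0 ≤ q / 2 * ((1 - pMu ρ a' b') * ((2 * m / q) *
        log ((2 * m / q + 2 * (1 - m) / q) / (2 * m / q))
          + (2 * (1 - m) / q) * log ((2 * m / q + 2 * (1 - m) / q) / (2 * (1 - m) / q)))
        + (pMu ρ a' b' * Xi (1 / (2 * m / q)) - Xi (ρ * (1 / (2 * m / q)))) / (1 / (2 * m / q))
        + (pMu ρ a' b' * Xi (1 / (2 * (1 - m) / q)) - Xi (ρ * (1 / (2 * (1 - m) / q))))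
            / (1 / (2 * (1 - m) / q))
        - pKap ρ a' b' * (2 * m / q) - 2 * pNu ρ a' b') := mul_nonneg (by positivity) hc
  rw [hid] at hpos
  have eu : m + q / 2 = u := by rw [hm, hq]; ring
  have ev : m - q / 2 = v := by rw [hm, hq]; ring
  rw [eu, ev] at hpos
  unfold Psi
  rw [← hm, ← hq]
  have e3 : ρ * q / 2 = ρ * q / 2 := rfl
  linarith

/-- The plane inequality on the open square. -/
theorem PData.plane (P : PData ρ a' b') {u v : ℝ} (hu0 : 0 < u) (hu : u < 1) (hv0 : 0 < v)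
    (hv : v < 1) :
    pKap ρ a' b' * ((u + v) / 2) + pNu ρ a' b' * (u - v)
        + pMu ρ a' b' * (binEntropy u + binEntropy v) / 2 ≤ Psi ρ u v := by
  rcases lt_trichotomy v u with h | h | h
  · exact P.plane_pos hu hv0 h
  · subst h
    have e : Psi ρ v v = binEntropy v := by
      unfold Psi
      rw [show (v + v) / 2 + ρ * (v - v) / 2 = v by ring, show (v + v) / 2 - ρ * (v - v) / 2 = v by ring]
      ring
    rw [e, show (v + v) / 2 = v by ring, show v - v = 0 by ring]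
    have h1 := P.kap_nonpos
    have h2 := P.mu_le_one
    have h3 : 0 ≤ binEntropy v := binEntropy_nonneg hv0.le hv.le
    have h4 : pKap ρ a' b' * v ≤ 0 := mul_nonpos_of_nonpos_of_nonneg h1 hv0.le
    have h5 : pMu ρ a' b' * binEntropy v ≤ binEntropy v := by nlinarith
    linarith
  · have h1 := P.plane_pos hv hu0 h
    rw [Psi_comm, show (u + v) / 2 = (v + u) / 2 by ring,
      show binEntropy u + binEntropy v = binEntropy v + binEntropy u by ring]
    have h2 := P.nu_nonneg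
    have h3 : pNu ρ a' b' * (u - v) ≤ pNu ρ a' b' * (v - u) :=
      mul_le_mul_of_nonneg_left (by linarith) h2
    linarith

/-- The value of `𝓗` at the tangency point vanishes. -/
theorem PData.core_eq (P : PData ρ a' b') :
    (1 - pMu ρ a' b') * (a' * log ((a' + b') / a') + b' * log ((a' + b') / b'))
      + (pMu ρ a' b' * Xi (1 / a') - Xi (ρ * (1 / a'))) / (1 / a')
      + (pMu ρ a' b' * Xi (1 / b') - Xi (ρ * (1 / b'))) / (1 / b')
      - pKap ρ a' b' * a' - 2 * pNu ρ a' b' = 0 := by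
  have ha'0 := P.a0
  have hb'0 := P.b0
  have hCEa := P.CE_a
  have hCEb := P.CE_b
  set μ := pMu ρ a' b' with hμ
  set κ := pKap ρ a' b' with hκ
  have val : ∀ t' : ℝ, 0 < t' →
      (μ * Xi (1 / t') - Xi (ρ * (1 / t'))) / (1 / t')
      = μ * Art (1 / t') - ρ * Art (ρ * (1 / t'))
        - (μ * Lam (1 / t') - Lam (ρ * (1 / t'))) * t' := by
    intro t' h0'
    unfold Xi
    field_simp
    ring
  rw [val a' ha'0, val b' hb'0]
  have hν : 2 * pNu ρ a' b' = μ * (Art (1 / a') + Art (1 / b'))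
      - ρ * (Art (ρ * (1 / a')) + Art (ρ * (1 / b'))) := by
    unfold pNu
    ring
  rw [hν, ← hCEa, ← hCEb]
  ring

/-- Equality of the plane at the tangency point, in the coordinates `m, q`. -/
theorem plane_eq {ρ m q : ℝ} (P : PData ρ (2 * m / q) (2 * (1 - m) / q)) (hq : 0 < q)
    (h1 : q / 2 < m) (h2 : q / 2 < 1 - m) :
    pKap ρ (2 * m / q) (2 * (1 - m) / q) * m + pNu ρ (2 * m / q) (2 * (1 - m) / q) * q
      + pMu ρ (2 * m / q) (2 * (1 - m) / q)
        * (binEntropy (m + q / 2) + binEntropy (m - q / 2)) / 2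
      = (binEntropy (m + ρ * q / 2) + binEntropy (m - ρ * q / 2)) / 2 := by
  have hid := plane_identity (μ := pMu ρ (2 * m / q) (2 * (1 - m) / q))
    (κ := pKap ρ (2 * m / q) (2 * (1 - m) / q)) (ν := pNu ρ (2 * m / q) (2 * (1 - m) / q))
    hq h1 h2 P.ρ0.le P.ρ1
  rw [P.core_eq, mul_zero] at hid
  linarith

end final

end Vale.Agent.P322
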