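import Mathlib

/-!
Power series and the sign-change lemma behind the plane theorem for the Courtade-Kumar
induction.  Notation: `Lam z = -log(1-z²)/2`, `Art z = artanh z`, `Xi z = z Art z - Lam z`.
-/

namespace Vale.Agent.P322

open Real

/-- `Lam z = -log(1-z²)/2 = Σ z^(2j)/(2j)`. -/
noncomputable def Lam (z : ℝ) : ℝ := -(log (1 - z ^ 2)) / 2

/-- `Art z = (log(1+z) - log(1-z))/2 = Σ z^(2j+1)/(2j+1)`. -/
noncomputable def Art (z : ℝ) : ℝ := (log (1 + z) - log (1 - z)) / 2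

/-- `Xi z = z Art z - Lam z = ((1+z)log(1+z)+(1-z)log(1-z))/2 = Σ z^(2j)/(2j(2j-1))`. -/
noncomputable def Xi (z : ℝ) : ℝ := z * Art z - Lam z

/-- `Sg z = 2 Lam z / z - Art z`, with series `Σ (2n/((2n+1)(2n+2))) z^(2n+1)`. -/
noncomputable def Sg (z : ℝ) : ℝ := 2 * Lam z / z - Art z

lemma hasSum_of_eq {f g : ℕ → ℝ} {a b : ℝ} (h : HasSum g a) (hfg : ∀ n, f n = g n)
    (hab : b = a) : HasSum f b := by
  have e : f = g := funext hfg
  rw [e, hab]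
  exact h

lemma hasSum_Lam {z : ℝ} (hz : |z| < 1) :
    HasSum (fun n : ℕ => z ^ (2 * n + 2) / (2 * (n : ℝ) + 2)) (Lam z) := by
  have h2 : |z ^ 2| < 1 := by
    rw [abs_pow]
    exact pow_lt_one₀ (abs_nonneg z) hz (by norm_num)
  have h := (hasSum_pow_div_log_of_abs_lt_one h2).mul_left (1 / 2 : ℝ)
  have e : (1 / 2 : ℝ) * (-log (1 - z ^ 2)) = Lam z := by
    unfold Lam
    ring
  rw [e] at h
  refine hasSum_of_eq h (fun n => ?_) rfl
  rw [← pow_mul, show 2 * (n + 1) = 2 * n + 2 by ring]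
  have : (2 * (n : ℝ) + 2) ≠ 0 := by positivity
  have : ((n : ℝ) + 1) ≠ 0 := by positivity
  field_simp

lemma hasSum_Art {z : ℝ} (hz : |z| < 1) :
    HasSum (fun n : ℕ => z ^ (2 * n + 1) / (2 * (n : ℝ) + 1)) (Art z) := by
  have h := (hasSum_log_sub_log_of_abs_lt_one hz).mul_left (1 / 2 : ℝ)
  have e : (1 / 2 : ℝ) * (log (1 + z) - log (1 - z)) = Art z := by
    unfold Art
    ring
  rw [e] at h
  refine hasSum_of_eq h (fun n => ?_) rfl
  have : (2 * (n : ℝ) + 1) ≠ 0 := by positivity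
  field_simp

lemma hasSum_Xi {z : ℝ} (hz : |z| < 1) :
    HasSum (fun n : ℕ => z ^ (2 * n + 2) / ((2 * (n : ℝ) + 2) * (2 * (n : ℝ) + 1)))
      (Xi z) := by
  have h := ((hasSum_Art hz).mul_left z).sub (hasSum_Lam hz)
  refine hasSum_of_eq h (fun n => ?_) (by rfl)
  have h1 : (2 * (n : ℝ) + 2) ≠ 0 := by positivity
  have h2 : (2 * (n : ℝ) + 1) ≠ 0 := by positivity
  rw [show z ^ (2 * n + 2) = z * z ^ (2 * n + 1) by ring]
  field_simp
  ring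

lemma hasSum_Sg {z : ℝ} (hz0 : z ≠ 0) (hz : |z| < 1) :
    HasSum (fun n : ℕ => (2 * (n : ℝ)) / ((2 * (n : ℝ) + 1) * (2 * (n : ℝ) + 2)) * z ^ (2 * n + 1))
      (Sg z) := by
  have h := ((hasSum_Lam hz).mul_left (2 / z)).sub (hasSum_Art hz)
  have e : 2 / z * Lam z - Art z = Sg z := by
    unfold Sg
    ring
  rw [e] at h
  refine hasSum_of_eq h (fun n => ?_) (by rfl)
  have h1 : (2 * (n : ℝ) + 2) ≠ 0 := by positivity
  have h2 : (2 * (n : ℝ) + 1) ≠ 0 := by positivity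
  rw [show z ^ (2 * n + 2) = z * z ^ (2 * n + 1) by ring]
  field_simp
  ring

/-- The sign-change lemma. -/
theorem sign_change {A Q : ℕ → ℝ} {S T : ℝ} (hQ : Monotone Q)
    (hA : ∀ i j, i ≤ j → 0 < A i → 0 ≤ A j) (hS : HasSum A S)
    (hT : HasSum (fun n => A n * Q n) T) (hS0 : 0 ≤ S) : ∃ J, Q J * S ≤ T := by
  by_cases h : ∃ i, 0 < A i
  · classical
    refine ⟨Nat.find h, ?_⟩
    set J := Nat.find h with hJ
    have hlow : ∀ j, j < J → A j ≤ 0 := fun j hj => not_lt.mp (Nat.find_min h hj)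
    have hhigh : ∀ j, J ≤ j → 0 ≤ A j := fun j hj => hA J j hj (Nat.find_spec h)
    have hs := hT.sub (hS.mul_right (Q J))
    have hn : 0 ≤ T - S * Q J := by
      refine hs.nonneg fun n => ?_
      have e : A n * Q n - A n * Q J = A n * (Q n - Q J) := by ring
      rw [e]
      rcases lt_or_ge n J with hn | hn
      · exact mul_nonneg_of_nonpos_of_nonpos (hlow n hn) (by linarith [hQ hn.le])
      · exact mul_nonneg (hhigh n hn) (by linarith [hQ hn])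
    linarith
  · push Not at h
    have hS1 : S ≤ 0 := hS.nonpos h
    have hS2 : S = 0 := le_antisymm hS1 hS0
    have hA0 : ∀ n, A n = 0 := by
      intro n
      have hneg := hS.neg
      have h3 : -A n ≤ -S := le_hasSum hneg n (fun j _ => by linarith [h j])
      have := h n
      rw [hS2] at h3
      linarith
    have hT0 : T = 0 := by
      have e : (fun n => A n * Q n) = fun _ => 0 := by
        funext n
        rw [hA0 n, zero_mul]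
      rw [e] at hT
      exact hT.unique hasSum_zero
    refine ⟨0, ?_⟩
    rw [hS2, hT0, mul_zero]

/-- Consequence with nonnegative multipliers. -/
theorem sign_change_nonneg {A Q : ℕ → ℝ} {S T : ℝ} (hQ : Monotone Q) (hQ0 : ∀ n, 0 ≤ Q n)
    (hA : ∀ i j, i ≤ j → 0 < A i → 0 ≤ A j) (hS : HasSum A S)
    (hT : HasSum (fun n => A n * Q n) T) (hS0 : 0 ≤ S) : 0 ≤ T := by
  obtain ⟨J, hJ⟩ := sign_change hQ hA hS hT hS0
  exact le_trans (mul_nonneg (hQ0 J) hS0) hJ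

/-- The sign of `μ - ρ^(2n+2)` is monotone in `n`. -/
lemma gcoef_mono {μ ρ : ℝ} (h0 : 0 ≤ ρ) (h1 : ρ ≤ 1) {i j : ℕ} (hij : i ≤ j) :
    μ - ρ ^ (2 * i + 2) ≤ μ - ρ ^ (2 * j + 2) := by
  have : ρ ^ (2 * j + 2) ≤ ρ ^ (2 * i + 2) :=
    pow_le_pow_of_le_one h0 h1 (by omega)
  linarith

/-- Products `g n * p n` with `g` monotone and `p` nonnegative change sign at most once. -/
lemma sign_of_mono_mul {g p : ℕ → ℝ} (hg : Monotone g) (hp : ∀ n, 0 ≤ p n) :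
    ∀ i j, i ≤ j → 0 < g i * p i → 0 ≤ g j * p j := by
  intro i j hij h
  have hgi : 0 < g i := by
    by_contra hc
    push Not at hc
    have := mul_nonpos_of_nonpos_of_nonneg hc (hp i)
    linarith
  exact mul_nonneg (by linarith [hg hij]) (hp j)

section Bq

/-- The divided second difference used for the tangent inequality. -/
noncomputable def Bq (y : ℝ) (m : ℕ) : ℝ :=
  (y ^ (m + 2) - 1 - ((m : ℝ) + 2) * (y - 1)) / ((m : ℝ) + 1)

lemma Bq_aux {y : ℝ} (hy : 0 < y) (l : ℕ) :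
    0 ≤ (l : ℝ) * y ^ (l + 1) - ((l : ℝ) + 1) * y ^ l + 1 := by
  induction l with
  | zero => simp
  | succ l ih =>
    have e : ((l + 1 : ℕ) : ℝ) * y ^ (l + 1 + 1) - (((l + 1 : ℕ) : ℝ) + 1) * y ^ (l + 1) + 1
        = ((l : ℝ) * y ^ (l + 1) - ((l : ℝ) + 1) * y ^ l + 1)
          + ((l : ℝ) + 1) * y ^ l * (y - 1) ^ 2 := by
      push_cast
      ring
    rw [e]
    have : 0 ≤ ((l : ℝ) + 1) * y ^ l * (y - 1) ^ 2 := by positivity
    linarith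

lemma Bq_succ {y : ℝ} (hy : 0 < y) (m : ℕ) : Bq y m ≤ Bq y (m + 1) := by
  unfold Bq
  have h1 : (0 : ℝ) < (m : ℝ) + 1 := by positivity
  have h2 : (0 : ℝ) < ((m + 1 : ℕ) : ℝ) + 1 := by positivity
  rw [div_le_div_iff₀ h1 h2]
  have := Bq_aux hy (m + 1)
  have e : ((y ^ (m + 1 + 2) - 1 - (((m + 1 : ℕ) : ℝ) + 2) * (y - 1)) * ((m : ℝ) + 1))
      - ((y ^ (m + 2) - 1 - ((m : ℝ) + 2) * (y - 1)) * (((m + 1 : ℕ) : ℝ) + 1))
      = y * (((m + 1 : ℕ) : ℝ) * y ^ (m + 1 + 1) - (((m + 1 : ℕ) : ℝ) + 1) * y ^ (m + 1) + 1) := by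
    push_cast
    ring
  have h3 : 0 ≤ y * (((m + 1 : ℕ) : ℝ) * y ^ (m + 1 + 1) - (((m + 1 : ℕ) : ℝ) + 1) * y ^ (m + 1) + 1) :=
    mul_nonneg hy.le this
  linarith

lemma Bq_mono {y : ℝ} (hy : 0 < y) : Monotone (Bq y) :=
  monotone_nat_of_le_succ (Bq_succ hy)

lemma Bq_zero (y : ℝ) : Bq y 0 = (y - 1) ^ 2 := by
  unfold Bq
  norm_num
  ring

lemma Bq_nonneg {y : ℝ} (hy : 0 < y) (m : ℕ) : 0 ≤ Bq y m := by
  have := Bq_mono hy (Nat.zero_le m)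
  rw [Bq_zero] at this
  exact le_trans (sq_nonneg _) this

end Bq

/-- The multiplier sequence for the tangent inequality. -/
noncomputable def Qn (y : ℝ) (n : ℕ) : ℝ := Bq y (2 * n - 1)

lemma Qn_mono {y : ℝ} (hy : 0 < y) : Monotone (Qn y) := by
  intro i j hij
  exact Bq_mono hy (by omega)

lemma Qn_nonneg {y : ℝ} (hy : 0 < y) (n : ℕ) : 0 ≤ Qn y n := Bq_nonneg hy _

/-- Series for `Y τ = (μ Xi τ - Xi(ρτ))/τ`. -/
lemma hasSum_Y {μ ρ τ : ℝ} (hρ0 : 0 ≤ ρ) (hρ1 : ρ ≤ 1) (h0 : 0 < τ) (h1 : τ < 1) :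
    HasSum (fun n : ℕ => (μ - ρ ^ (2 * n + 2)) / ((2 * (n : ℝ) + 2) * (2 * (n : ℝ) + 1))
      * τ ^ (2 * n + 1)) ((μ * Xi τ - Xi (ρ * τ)) / τ) := by
  have hτ : |τ| < 1 := by rwa [abs_of_pos h0]
  have hρτ : |ρ * τ| < 1 := by
    rw [abs_of_nonneg (mul_nonneg hρ0 h0.le)]
    nlinarith
  have h := (((hasSum_Xi hτ).mul_left μ).sub (hasSum_Xi hρτ)).mul_right (1 / τ)
  have e : (μ * Xi τ - Xi (ρ * τ)) * (1 / τ) = (μ * Xi τ - Xi (ρ * τ)) / τ := by ring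
  rw [e] at h
  refine hasSum_of_eq h (fun n => ?_) rfl
  have h3 : (2 * (n : ℝ) + 2) ≠ 0 := by positivity
  have h4 : (2 * (n : ℝ) + 1) ≠ 0 := by positivity
  rw [mul_pow, show τ ^ (2 * n + 2) = τ * τ ^ (2 * n + 1) by ring]
  field_simp

/-- Series for `Y' σ = (μ Lam σ - Lam(ρσ))/σ²`. -/
lemma hasSum_Yd {μ ρ τ : ℝ} (hρ0 : 0 ≤ ρ) (hρ1 : ρ ≤ 1) (h0 : 0 < τ) (h1 : τ < 1) :
    HasSum (fun n : ℕ => (μ - ρ ^ (2 * n + 2)) / (2 * (n : ℝ) + 2) * τ ^ (2 * n))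
      ((μ * Lam τ - Lam (ρ * τ)) / τ ^ 2) := by
  have hτ : |τ| < 1 := by rwa [abs_of_pos h0]
  have hρτ : |ρ * τ| < 1 := by
    rw [abs_of_nonneg (mul_nonneg hρ0 h0.le)]
    nlinarith
  have h := (((hasSum_Lam hτ).mul_left μ).sub (hasSum_Lam hρτ)).mul_right (1 / τ ^ 2)
  have e : (μ * Lam τ - Lam (ρ * τ)) * (1 / τ ^ 2) = (μ * Lam τ - Lam (ρ * τ)) / τ ^ 2 := by ring
  rw [e] at h
  refine hasSum_of_eq h (fun n => ?_) rfl
  have h3 : (2 * (n : ℝ) + 2) ≠ 0 := by positivity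
  rw [mul_pow, show τ ^ (2 * n + 2) = τ ^ 2 * τ ^ (2 * n) by ring]
  field_simp

/-- Series for the functional of condition `C`. -/
lemma hasSum_C {μ ρ τ : ℝ} (hρ0 : 0 < ρ) (hρ1 : ρ ≤ 1) (h0 : 0 < τ) (h1 : τ < 1) :
    HasSum (fun n : ℕ => (μ - ρ ^ (2 * n + 2)) *
        ((2 * (n : ℝ)) / ((2 * (n : ℝ) + 1) * (2 * (n : ℝ) + 2)) * τ ^ (2 * n + 1)))
      (μ * Sg τ - ρ * Sg (ρ * τ)) := by
  have hτ : |τ| < 1 := by rwa [abs_of_pos h0]
  have hρτ : |ρ * τ| < 1 := by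
    rw [abs_of_nonneg (mul_nonneg hρ0.le h0.le)]
    nlinarith
  have h := ((hasSum_Sg h0.ne' hτ).mul_left μ).sub
    ((hasSum_Sg (mul_pos hρ0 h0).ne' hρτ).mul_left ρ)
  refine hasSum_of_eq h (fun n => ?_) rfl
  rw [mul_pow, show ρ ^ (2 * n + 2) = ρ * ρ ^ (2 * n + 1) by ring]
  ring

lemma C_coef_nonneg {τ : ℝ} (h0 : 0 < τ) (n : ℕ) :
    0 ≤ (2 * (n : ℝ)) / ((2 * (n : ℝ) + 1) * (2 * (n : ℝ) + 2)) * τ ^ (2 * n + 1) := by
  positivity

/-- The tangent inequality for `Y` under condition `C`. -/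
theorem Y_tangent {μ ρ σ τ : ℝ} (hρ0 : 0 < ρ) (hρ1 : ρ ≤ 1) (hσ0 : 0 < σ) (hσ1 : σ < 1)
    (hτ0 : 0 < τ) (hτ1 : τ < 1) (hC : ρ * Sg (ρ * σ) ≤ μ * Sg σ) :
    (μ * Xi σ - Xi (ρ * σ)) / σ + (μ * Lam σ - Lam (ρ * σ)) / σ ^ 2 * (τ - σ)
      ≤ (μ * Xi τ - Xi (ρ * τ)) / τ := by
  have hy : 0 < τ / σ := div_pos hτ0 hσ0
  have hS := hasSum_C (μ := μ) hρ0 hρ1 hσ0 hσ1
  have hT : HasSum (fun n : ℕ => ((μ - ρ ^ (2 * n + 2)) *
        ((2 * (n : ℝ)) / ((2 * (n : ℝ) + 1) * (2 * (n : ℝ) + 2)) * σ ^ (2 * n + 1))) * Qn (τ / σ) n)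
      ((μ * Xi τ - Xi (ρ * τ)) / τ - (μ * Xi σ - Xi (ρ * σ)) / σ
        - (μ * Lam σ - Lam (ρ * σ)) / σ ^ 2 * (τ - σ)) := by
    have h1 := ((hasSum_Y (μ := μ) hρ0.le hρ1 hτ0 hτ1).sub (hasSum_Y (μ := μ) hρ0.le hρ1 hσ0 hσ1)).sub
      ((hasSum_Yd (μ := μ) hρ0.le hρ1 hσ0 hσ1).mul_right (τ - σ))
    refine hasSum_of_eq h1 (fun n => ?_) rfl
    rcases n with _ | k
    · simp
      ring
    · have e : Qn (τ / σ) (k + 1) = Bq (τ / σ) (2 * k + 1) := by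
        unfold Qn
        congr 1
      rw [e]
      unfold Bq
      have hσne : σ ≠ 0 := hσ0.ne'
      have hp : (τ / σ) ^ (2 * k + 1 + 2) * σ ^ (2 * (k + 1) + 1) = τ ^ (2 * (k + 1) + 1) := by
        rw [show 2 * k + 1 + 2 = 2 * (k + 1) + 1 by ring, ← mul_pow]
        congr 1
        field_simp
      have hq : (τ / σ - 1) * σ ^ (2 * (k + 1) + 1) = σ ^ (2 * (k + 1)) * (τ - σ) := by
        rw [show 2 * (k + 1) + 1 = (2 * (k + 1)) + 1 by ring, pow_succ]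
        field_simp
      have hk1 : ((2 : ℝ) * ((k + 1 : ℕ) : ℝ) + 2) ≠ 0 := by positivity
      have hk2 : ((2 : ℝ) * ((k + 1 : ℕ) : ℝ) + 1) ≠ 0 := by positivity
      have hk3 : ((2 : ℝ) * ((k + 1 : ℕ) : ℝ)) ≠ 0 := by positivity
      have hk4 : (((2 * k + 1 : ℕ) : ℝ) + 1) = 2 * ((k + 1 : ℕ) : ℝ) := by
        push_cast
        ring
      have hk5 : (((2 * k + 1 : ℕ) : ℝ) + 2) = 2 * ((k + 1 : ℕ) : ℝ) + 1 := by
        push_cast
        ring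
      rw [hk4, hk5]
      set P := σ ^ (2 * (k + 1) + 1) with hP
      set M := ((k + 1 : ℕ) : ℝ) with hM
      have hM0 : M ≠ 0 := by
        intro h0
        rw [h0] at hk3
        simp at hk3
      have main : ((2 * M) / ((2 * M + 1) * (2 * M + 2)) * P) *
            (((τ / σ) ^ (2 * k + 1 + 2) - 1 - (2 * M + 1) * (τ / σ - 1)) / (2 * M))
          = ((τ / σ) ^ (2 * k + 1 + 2) * P - P - (2 * M + 1) * ((τ / σ - 1) * P))
            / ((2 * M + 2) * (2 * M + 1)) := by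
        generalize (τ / σ) ^ (2 * k + 1 + 2) = Z
        generalize (τ / σ - 1) = W
        field_simp
      calc _ = (μ - ρ ^ (2 * (k + 1) + 2)) * (((2 * M) / ((2 * M + 1) * (2 * M + 2)) * P) *
            (((τ / σ) ^ (2 * k + 1 + 2) - 1 - (2 * M + 1) * (τ / σ - 1)) / (2 * M))) := by ring
        _ = _ := by
          rw [main, hp, hq]
          field_simp
  have hfin := sign_change_nonneg (Qn_mono hy) (Qn_nonneg hy)
    (by
      intro i j hij hi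
      refine sign_of_mono_mul (g := fun n => μ - ρ ^ (2 * n + 2)) ?_ (C_coef_nonneg hσ0) i j hij hi
      intro a b hab
      exact gcoef_mono hρ0.le hρ1 hab) hS hT (by linarith)
  linarith

/-- Condition `C` propagates upward. -/
theorem C_mono {μ ρ σ σ' : ℝ} (hρ0 : 0 < ρ) (hρ1 : ρ ≤ 1) (hσ0 : 0 < σ) (hσσ : σ ≤ σ')
    (hσ1 : σ' < 1) (hC : ρ * Sg (ρ * σ) ≤ μ * Sg σ) : ρ * Sg (ρ * σ') ≤ μ * Sg σ' := by
  have hσ'0 : 0 < σ' := lt_of_lt_of_le hσ0 hσσ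
  have hS := hasSum_C (μ := μ) hρ0 hρ1 hσ0 (lt_of_le_of_lt hσσ hσ1)
  have hy : 1 ≤ σ' / σ := (one_le_div hσ0).mpr hσσ
  have hT := hasSum_C (μ := μ) hρ0 hρ1 hσ'0 hσ1
  have hT' : HasSum (fun n : ℕ => ((μ - ρ ^ (2 * n + 2)) *
        ((2 * (n : ℝ)) / ((2 * (n : ℝ) + 1) * (2 * (n : ℝ) + 2)) * σ ^ (2 * n + 1)))
        * (σ' / σ) ^ (2 * n + 1)) (μ * Sg σ' - ρ * Sg (ρ * σ')) := by
    refine hasSum_of_eq hT (fun n => ?_) rfl
    rw [mul_assoc, mul_assoc, ← mul_pow]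
    congr 3
    field_simp
  have hfin := sign_change_nonneg (Q := fun n : ℕ => (σ' / σ) ^ (2 * n + 1))
    (by
      intro a b hab
      exact pow_le_pow_right₀ hy (by omega))
    (fun n => by positivity)
    (by
      intro i j hij hi
      refine sign_of_mono_mul (g := fun n => μ - ρ ^ (2 * n + 2)) ?_ (C_coef_nonneg hσ0) i j hij hi
      intro a b hab
      exact gcoef_mono hρ0.le hρ1 hab) hS hT' (by linarith)
  linarith

/-- The statement for `artanh` used for the sign of `ν`. -/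
theorem Art_mono {μ ρ σ σ' : ℝ} (hρ0 : 0 < ρ) (hρ1 : ρ ≤ 1) (hσ0 : 0 < σ) (hσσ : σ ≤ σ')
    (hσ1 : σ' < 1) (hC : ρ * Art (ρ * σ) ≤ μ * Art σ) : ρ * Art (ρ * σ') ≤ μ * Art σ' := by
  have hσ'0 : 0 < σ' := lt_of_lt_of_le hσ0 hσσ
  have hy : 1 ≤ σ' / σ := (one_le_div hσ0).mpr hσσ
  have key : ∀ τ : ℝ, 0 < τ → τ < 1 →
      HasSum (fun n : ℕ => (μ - ρ ^ (2 * n + 2)) * (τ ^ (2 * n + 1) / (2 * (n : ℝ) + 1)))
        (μ * Art τ - ρ * Art (ρ * τ)) := by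
    intro τ h0 h1
    have hτ : |τ| < 1 := by rwa [abs_of_pos h0]
    have hρτ : |ρ * τ| < 1 := by
      rw [abs_of_nonneg (mul_nonneg hρ0.le h0.le)]
      nlinarith
    have h := ((hasSum_Art hτ).mul_left μ).sub ((hasSum_Art hρτ).mul_left ρ)
    refine hasSum_of_eq h (fun n => ?_) rfl
    rw [mul_pow, show ρ ^ (2 * n + 2) = ρ * ρ ^ (2 * n + 1) by ring]
    ring
  have hS := key σ hσ0 (lt_of_le_of_lt hσσ hσ1)
  have hT := key σ' hσ'0 hσ1
  have hT' : HasSum (fun n : ℕ => ((μ - ρ ^ (2 * n + 2)) * (σ ^ (2 * n + 1) / (2 * (n : ℝ) + 1)))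
        * (σ' / σ) ^ (2 * n + 1)) (μ * Art σ' - ρ * Art (ρ * σ')) := by
    refine hasSum_of_eq hT (fun n => ?_) rfl
    rw [mul_assoc]
    congr 1
    rw [show σ' ^ (2 * n + 1) = σ ^ (2 * n + 1) * (σ' / σ) ^ (2 * n + 1) by
      rw [← mul_pow]
      congr 1
      field_simp]
    ring
  have hfin := sign_change_nonneg (Q := fun n : ℕ => (σ' / σ) ^ (2 * n + 1))
    (by
      intro a b hab
      exact pow_le_pow_right₀ hy (by omega))
    (fun n => by positivity)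
    (by
      intro i j hij hi
      refine sign_of_mono_mul (g := fun n => μ - ρ ^ (2 * n + 2))
        (p := fun n => σ ^ (2 * n + 1) / (2 * (n : ℝ) + 1)) ?_ (fun n => by positivity) i j hij hi
      intro a b hab
      exact gcoef_mono hρ0.le hρ1 hab) hS hT' (by linarith)
  linarith

lemma Sg_nonneg {τ : ℝ} (h0 : 0 < τ) (h1 : τ < 1) : 0 ≤ Sg τ := by
  have hτ : |τ| < 1 := by rwa [abs_of_pos h0]
  exact (hasSum_Sg h0.ne' hτ).nonneg fun n => C_coef_nonneg h0 n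

lemma Art_pos {τ : ℝ} (h0 : 0 < τ) (h1 : τ < 1) : 0 < Art τ := by
  unfold Art
  have : log (1 - τ) < log (1 + τ) := log_lt_log (by linarith) (by linarith)
  linarith

lemma Art_sub_Lam {τ : ℝ} (h0 : 0 < τ) (h1 : τ < 1) : Art τ - Lam τ = log (1 + τ) := by
  unfold Art Lam
  have e : 1 - τ ^ 2 = (1 + τ) * (1 - τ) := by ring
  rw [e, log_mul (by linarith) (by linarith)]
  ring

/-- The inequality `(**)`. -/
theorem star_ineq {ρ τ : ℝ} (hρ0 : 0 < ρ) (hρ1 : ρ ≤ 1) (h0 : 0 < τ) (h1 : τ < 1) :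
    Art τ * (ρ * Sg (ρ * τ)) ≤ (log (1 + τ) + Lam (ρ * τ)) * Sg τ := by
  have hτ : |τ| < 1 := by rwa [abs_of_pos h0]
  have hρτ : |ρ * τ| < 1 := by
    rw [abs_of_nonneg (mul_nonneg hρ0.le h0.le)]
    nlinarith
  have hSg := Sg_nonneg h0 h1
  have hArt := Art_pos h0 h1
  have hlog : 0 ≤ log (1 + τ) := log_nonneg (by linarith)
  -- the series at `ρ`
  have hρS := (hasSum_Sg (mul_pos hρ0 h0).ne' hρτ).mul_left ρ
  have hL := hasSum_Lam hρτ
  have hT : HasSum (fun n : ℕ => (Art τ * ((2 * (n : ℝ)) / ((2 * (n : ℝ) + 1) * (2 * (n : ℝ) + 2))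
        * τ ^ (2 * n + 1)) - τ ^ (2 * n + 2) / (2 * (n : ℝ) + 2) * Sg τ) * (-(ρ ^ (2 * n + 2))))
      (Lam (ρ * τ) * Sg τ - Art τ * (ρ * Sg (ρ * τ))) := by
    have h := (hL.mul_right (Sg τ)).sub (hρS.mul_left (Art τ))
    refine hasSum_of_eq h (fun n => ?_) rfl
    rw [mul_pow, mul_pow, show ρ ^ (2 * n + 2) = ρ * ρ ^ (2 * n + 1) by ring]
    ring
  have hS : HasSum (fun n : ℕ => Art τ * ((2 * (n : ℝ)) / ((2 * (n : ℝ) + 1) * (2 * (n : ℝ) + 2))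
        * τ ^ (2 * n + 1)) - τ ^ (2 * n + 2) / (2 * (n : ℝ) + 2) * Sg τ)
      (log (1 + τ) * Sg τ) := by
    have h := ((hasSum_Sg h0.ne' hτ).mul_left (Art τ)).sub ((hasSum_Lam hτ).mul_right (Sg τ))
    have e : Art τ * Sg τ - Lam τ * Sg τ = log (1 + τ) * Sg τ := by
      rw [← Art_sub_Lam h0 h1]
      ring
    rwa [e] at h
  obtain ⟨J, hJ⟩ := sign_change (Q := fun n : ℕ => -(ρ ^ (2 * n + 2)))
    (by
      intro a b hab
      have : ρ ^ (2 * b + 2) ≤ ρ ^ (2 * a + 2) :=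
        pow_le_pow_of_le_one hρ0.le hρ1 (by omega)
      simpa using this)
    (by
      intro i j hij hi
      -- write the coefficient as a monotone factor times a nonnegative one
      have fac : ∀ n : ℕ, Art τ * ((2 * (n : ℝ)) / ((2 * (n : ℝ) + 1) * (2 * (n : ℝ) + 2))
          * τ ^ (2 * n + 1)) - τ ^ (2 * n + 2) / (2 * (n : ℝ) + 2) * Sg τ
          = (Art τ * ((2 * (n : ℝ)) / (2 * (n : ℝ) + 1)) - τ * Sg τ)
            * (τ ^ (2 * n + 1) / (2 * (n : ℝ) + 2)) := by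
        intro n
        have h1' : (2 * (n : ℝ) + 2) ≠ 0 := by positivity
        have h2' : (2 * (n : ℝ) + 1) ≠ 0 := by positivity
        rw [show τ ^ (2 * n + 2) = τ * τ ^ (2 * n + 1) by ring]
        field_simp
      rw [fac] at hi ⊢
      refine sign_of_mono_mul (g := fun n : ℕ => Art τ * ((2 * (n : ℝ)) / (2 * (n : ℝ) + 1)) - τ * Sg τ)
        (p := fun n : ℕ => τ ^ (2 * n + 1) / (2 * (n : ℝ) + 2)) ?_ (fun n => by positivity) i j hij hi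
      intro a b hab
      have hab' : (a : ℝ) ≤ b := by exact_mod_cast hab
      have h3 : (2 * (a : ℝ)) / (2 * (a : ℝ) + 1) ≤ (2 * (b : ℝ)) / (2 * (b : ℝ) + 1) := by
        rw [div_le_div_iff₀ (by positivity) (by positivity)]
        nlinarith
      have := mul_le_mul_of_nonneg_left h3 hArt.le
      simp only
      linarith)
    hS hT (mul_nonneg hlog hSg)
  have hpow : ρ ^ (2 * J + 2) ≤ 1 := pow_le_one₀ hρ0.le hρ1
  have h5 : (log (1 + τ) * Sg τ) * ρ ^ (2 * J + 2) ≤ log (1 + τ) * Sg τ :=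
    mul_le_of_le_one_right (mul_nonneg hlog hSg) hpow
  have h6 : -(ρ ^ (2 * J + 2)) * (log (1 + τ) * Sg τ)
      ≤ Lam (ρ * τ) * Sg τ - Art τ * (ρ * Sg (ρ * τ)) := hJ
  nlinarith

end Vale.Agent.P322
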