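import Vale.Agent.P322.PSeries

/-!
The joint convexity of `N` in the coordinates `τ₀ = 1/b`, `τ₁ = 1/a`, and the sign of `κ`.
-/

namespace Vale.Agent.P322

open Real

/-- The pointwise integrand inequality integrated over `[0,1]`. -/
theorem g_tangent {p r p' r' : ℝ} (hp : 0 < p) (hr : 0 < r) (hp' : 0 < p') (hr' : 0 < r') :
    (2 - r / r') * (1 / r') * log ((p' + r') / p') - (p - (r / r') * p') / (p' * (p' + r'))
      ≤ (1 / r) * log ((p + r) / p) := by
  set β := r / r' with hβ
  set α := p - β * p' with hα
  let G : ℝ → ℝ := fun s => (1 / r) * log (p + s * r) - ((2 - β) / r') * log (p' + s * r')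
    - α / (r' * (p' + s * r'))
  have hξ : ∀ s : ℝ, 0 ≤ s → 0 < p + s * r := fun s hs => by positivity
  have hξ' : ∀ s : ℝ, 0 ≤ s → 0 < p' + s * r' := fun s hs => by positivity
  have hd : ∀ s : ℝ, 0 ≤ s → HasDerivAt G
      (1 / (p + s * r) - (2 - β) / (p' + s * r') + α / (p' + s * r') ^ 2) s := by
    intro s hs
    have h1 : HasDerivAt (fun s => p + s * r) r s := by
      simpa using ((hasDerivAt_id s).mul_const r).const_add p
    have h2 : HasDerivAt (fun s => p' + s * r') r' s := by
      simpa using ((hasDerivAt_id s).mul_const r').const_add p'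
    have h3 := (h1.log (hξ s hs).ne').const_mul (1 / r)
    have h4 := (h2.log (hξ' s hs).ne').const_mul ((2 - β) / r')
    have h5 : HasDerivAt (fun s => α / (r' * (p' + s * r')))
        (-α / (p' + s * r') ^ 2) s := by
      have h6 := ((h2.const_mul r').inv (by have := hξ' s hs; positivity)).const_mul α
      refine (h6.congr_deriv ?_).congr_of_eventuallyEq (Filter.Eventually.of_forall fun t => ?_)
      · have := hξ' s hs
        field_simp
      · simp [div_eq_mul_inv]
    refine ((h3.sub h4).sub h5).congr_deriv ?_
    have := hξ s hs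
    have := hξ' s hs
    field_simp
    ring
  have hmono : MonotoneOn G (Set.Icc 0 1) := by
    apply monotoneOn_of_deriv_nonneg (convex_Icc 0 1)
    · exact fun s hs => (hd s hs.1).continuousAt.continuousWithinAt
    · intro s hs
      rw [interior_Icc] at hs
      exact (hd s hs.1.le).differentiableAt.differentiableWithinAt
    · intro s hs
      rw [interior_Icc] at hs
      rw [(hd s hs.1.le).deriv]
      have h1 := hξ s hs.1.le
      have h2 := hξ' s hs.1.le
      have e : 1 / (p + s * r) - (2 - β) / (p' + s * r') + α / (p' + s * r') ^ 2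
          = (1 / (p + s * r)) * (1 - (p + s * r) / (p' + s * r')) ^ 2 := by
        have hz : p + s * r = α + β * (p' + s * r') := by
          rw [hα, hβ]
          field_simp
          ring
        rw [hz]
        have h3 : α + β * (p' + s * r') ≠ 0 := by rw [← hz]; exact h1.ne'
        field_simp
        ring
      rw [e]
      positivity
  have h01 := hmono (show (0 : ℝ) ∈ Set.Icc (0 : ℝ) 1 by simp) (show (1 : ℝ) ∈ Set.Icc (0 : ℝ) 1 by simp)
    (by norm_num)
  simp only [G, zero_mul, add_zero, one_mul] at h01
  rw [log_div (by positivity) hp.ne', log_div (by positivity) hp'.ne']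
  have e : (1 / r) * log p - ((2 - β) / r') * log p' - α / (r' * p')
      ≤ (1 / r) * log (p + r) - ((2 - β) / r') * log (p' + r') - α / (r' * (p' + r')) := h01
  have e2 : α / (r' * p') - α / (r' * (p' + r')) = α / (p' * (p' + r')) := by
    field_simp
    ring
  have e3 : (2 - β) * (1 / r') * (log (p' + r') - log p')
      = ((2 - β) / r') * log (p' + r') - ((2 - β) / r') * log p' := by ring
  have e4 : (1 / r) * (log (p + r) - log p) = (1 / r) * log (p + r) - (1 / r) * log p := by ring
  rw [e3, e4]
  linarith

/-- The tangent inequality for `N(a,b) = a log((a+b)/a) + b log((a+b)/b)` with respect to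
the coordinates `1/a`, `1/b`. -/
theorem N_tangent {a b a' b' : ℝ} (ha : 0 < a) (hb : 0 < b) (ha' : 0 < a') (hb' : 0 < b') :
    (2 * a' - a' ^ 2 / a) * log ((a' + b') / a') + (2 * b' - b' ^ 2 / b) * log ((a' + b') / b')
      ≤ a * log ((a + b) / a) + b * log ((a + b) / b) := by
  have h1 := g_tangent (p := 1 / b) (r := 1 / a) (p' := 1 / b') (r' := 1 / a')
    (by positivity) (by positivity) (by positivity) (by positivity)
  have h2 := g_tangent (p := 1 / a) (r := 1 / b) (p' := 1 / a') (r' := 1 / b')
    (by positivity) (by positivity) (by positivity) (by positivity)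
  have e1 : (1 / b + 1 / a) / (1 / b) = (a + b) / a := by
    field_simp
  have e2 : (1 / a + 1 / b) / (1 / a) = (a + b) / b := by
    field_simp
    ring
  have e1' : (1 / b' + 1 / a') / (1 / b') = (a' + b') / a' := by
    field_simp
  have e2' : (1 / a' + 1 / b') / (1 / a') = (a' + b') / b' := by
    field_simp
    ring
  rw [e1, e1'] at h1
  rw [e2, e2'] at h2
  have e3 : (1 / (1 / a)) = a := by field_simp
  have e4 : (1 / (1 / b)) = b := by field_simp
  have e5 : (1 / (1 / a')) = a' := by field_simp
  have e6 : (1 / (1 / b')) = b' := by field_simp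
  rw [e3, e5] at h1
  rw [e4, e6] at h2
  have e7 : (2 - 1 / a / (1 / a')) * a' = 2 * a' - a' ^ 2 / a := by
    field_simp
  have e8 : (2 - 1 / b / (1 / b')) * b' = 2 * b' - b' ^ 2 / b := by
    field_simp
  rw [e7] at h1
  rw [e8] at h2
  have e9 : (1 / b - 1 / a / (1 / a') * (1 / b')) / (1 / b' * (1 / b' + 1 / a'))
      + (1 / a - 1 / b / (1 / b') * (1 / a')) / (1 / a' * (1 / a' + 1 / b')) = 0 := by
    field_simp
    ring
  linarith

end Vale.Agent.P322
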