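import Vale.Agent.P322.GBound

/-!
Explicit planes below `S(u,w)` at low noise.
-/

namespace Vale.Agent.P322

open Real

/-- The size conditions on the noise `ε`; `ℓ = log (1/ε)`. -/
structure Small (ε ℓ : ℝ) : Prop where
  pos : 0 < ε
  hl : ℓ = -log ε
  big : 41.5 ≤ ℓ
  tiny : ε * (ℓ + 1) ^ 3 ≤ 1 / 1000

lemma Small.sq {ε ℓ : ℝ} (hs : Small ε ℓ) : ε * (ℓ + 1) ^ 2 ≤ 1 / 40000 := by
  have h1 := hs.tiny
  have h2 := hs.big
  have h3 := hs.pos
  have h4 : 0 ≤ ε * (ℓ + 1) ^ 2 := by positivity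
  nlinarith

lemma Small.lin {ε ℓ : ℝ} (hs : Small ε ℓ) : ε * (ℓ + 1) ≤ 1 / 1000000 := by
  have h1 := hs.sq
  have h2 := hs.big
  have h3 := hs.pos
  have h4 : 0 ≤ ε * (ℓ + 1) := by positivity
  nlinarith

lemma Small.eps {ε ℓ : ℝ} (hs : Small ε ℓ) : ε ≤ 1 / 10000000 := by
  have h1 := hs.lin
  have h2 := hs.big
  have h3 := hs.pos
  nlinarith

lemma Small.logα {ε ℓ : ℝ} (hs : Small ε ℓ) :
    0 ≤ -log (1 - ε) ∧ ε ≤ -log (1 - ε) ∧ (1 - ε) * (-log (1 - ε)) ≤ ε := by
  have h3 := hs.pos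
  have h4 := hs.eps
  have hα : 0 < 1 - ε := by linarith
  have h5 : log (1 - ε) ≤ (1 - ε) - 1 := log_le_sub_one_of_pos hα
  have h6 : 1 - (1 - ε)⁻¹ ≤ log (1 - ε) := one_sub_inv_le_log_of_pos hα
  have h7 : (1 - ε) * (1 - (1 - ε)⁻¹) = -ε := by
    field_simp
    ring
  refine ⟨by linarith, by linarith, ?_⟩
  have := mul_le_mul_of_nonneg_left h6 hα.le
  rw [h7] at this
  linarith

lemma Small.H_eq {ε ℓ : ℝ} (hs : Small ε ℓ) :
    binEntropy ε = ε * ℓ + (1 - ε) * (-log (1 - ε)) := by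
  rw [hs.hl]
  unfold binEntropy
  rw [log_inv, log_inv]

lemma Small.H_lower {ε ℓ : ℝ} (hs : Small ε ℓ) : ε * ℓ + (1 - ε) * ε ≤ binEntropy ε := by
  rw [hs.H_eq]
  have := hs.logα.2.1
  have h3 := hs.eps
  have : (1 - ε) * ε ≤ (1 - ε) * (-log (1 - ε)) :=
    mul_le_mul_of_nonneg_left this (by linarith)
  linarith

lemma Small.H_upper {ε ℓ : ℝ} (hs : Small ε ℓ) : binEntropy ε ≤ ε * (ℓ + 1) := by
  rw [hs.H_eq]
  have := hs.logα.2.2
  linarith

lemma Small.H_pos {ε ℓ : ℝ} (hs : Small ε ℓ) : 0 < binEntropy ε := by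
  have := hs.H_lower
  have h3 := hs.eps
  have h4 := hs.pos
  have h5 := hs.big
  have : 0 < ε * ℓ := by positivity
  have : 0 < (1 - ε) * ε := mul_pos (by linarith) h4
  linarith

/-- The tangent bound for the atom `ε e` against `1 - ε`. -/
lemma GG_beta_le {ε ℓ : ℝ} (hs : Small ε ℓ) {e : ℝ} (he0 : 0 ≤ e) :
    GG (ε * e) (1 - ε) ≤ 2 * binEntropy ε * e + ε ^ 2 := by
  have h0 := hs.pos
  have h1 := hs.eps
  have hr : 0 < 1 / ε ^ 2 := by positivity
  have ht := GG_tangent (a := ε * e) (b := 1 - ε) (mul_nonneg h0.le he0) (by linarith) hr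
  have e1 : 1 / (1 / ε ^ 2) = ε ^ 2 := by field_simp
  rw [e1] at ht
  have l1 : log (1 + ε ^ 2) ≤ ε ^ 2 := by
    have := log_le_sub_one_of_pos (show 0 < 1 + ε ^ 2 by positivity)
    linarith
  have e2 : 1 + 1 / ε ^ 2 = (1 + ε ^ 2) / ε ^ 2 := by field_simp; ring
  have l2 : log (1 + 1 / ε ^ 2) ≤ ε ^ 2 + 2 * ℓ := by
    rw [e2, log_div (by positivity) (by positivity), log_pow, hs.hl]
    push_cast
    linarith
  have hH := hs.H_lower
  have t1 : ε * e * log (1 + 1 / ε ^ 2) ≤ ε * e * (ε ^ 2 + 2 * ℓ) :=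
    mul_le_mul_of_nonneg_left l2 (mul_nonneg h0.le he0)
  have t2 : (1 - ε) * log (1 + ε ^ 2) ≤ (1 - ε) * ε ^ 2 :=
    mul_le_mul_of_nonneg_left l1 (by linarith)
  have t3 : 2 * (ε * ℓ + (1 - ε) * ε) * e ≤ 2 * binEntropy ε * e :=
    mul_le_mul_of_nonneg_right (by linarith) he0
  have t4 : 0 ≤ ε * e * (2 * (1 - ε) - ε ^ 2) :=
    mul_nonneg (mul_nonneg h0.le he0) (by nlinarith)
  have t5 : 0 ≤ ε ^ 3 := by positivity
  nlinarith

/-- The bound `log (1 + 20 (ℓ+1)) ≤ ℓ/2 - ε`. -/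
lemma Small.log_K {ε ℓ : ℝ} (hs : Small ε ℓ) : log (1 + 20 * (ℓ + 1)) ≤ ℓ / 2 - ε := by
  have hb := hs.big
  have h1 := hs.eps
  have hpos : 0 < (1 + 20 * (ℓ + 1)) / 64 := by positivity
  have h2 := log_le_sub_one_of_pos hpos
  rw [log_div (by positivity) (by norm_num)] at h2
  have e : log 64 = 6 * log 2 := by
    rw [show (64 : ℝ) = 2 ^ 6 by norm_num, log_pow]
    norm_num
  rw [e] at h2
  have := log_two_lt_d9
  linarith

/-- The plane separating at mid range. -/
lemma sep_mid {ε ℓ : ℝ} (hs : Small ε ℓ) {e : ℝ} (he : e ∈ Set.Icc (0 : ℝ) (1 / 2)) :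
    F1 ε e ≤ (ε * (1 - ε) / (20 * binEntropy ε)) * binEntropy e + 2 * binEntropy ε * e
      + binEntropy ε * 1 * (1 / 2 - e) := by
  have h0 := hs.pos
  have h1 := hs.eps
  have hb := hs.big
  have hHp := hs.H_pos
  have hHl := hs.H_lower
  have hHu := hs.H_upper
  have hsq := hs.sq
  have hle0 : 0 ≤ e := he.1
  set H := binEntropy ε with hH
  set K := 20 * (ℓ + 1) with hK
  have hKpos : 0 < K := by positivity
  have hr : 0 < 1 / K := by positivity
  have ht := GG_tangent (a := (1 - ε) * e) (b := ε) (mul_nonneg (by linarith) hle0) h0.le hr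
  have e1 : 1 / (1 / K) = K := by field_simp
  rw [e1] at ht
  have l1 : log (1 + 1 / K) ≤ 1 / K := by
    have := log_le_sub_one_of_pos (show 0 < 1 + 1 / K by positivity)
    linarith
  have t1 : (1 - ε) * e * log (1 + 1 / K) ≤ (1 - ε) * e * (1 / K) :=
    mul_le_mul_of_nonneg_left l1 (mul_nonneg (by linarith) hle0)
  have lK := hs.log_K
  rw [← hK] at lK
  have t2 := GG_beta_le hs hle0
  rw [← hH] at t2
  set μ₁ := ε * (1 - ε) / (20 * H) with hμ
  have hμ0 : 0 ≤ μ₁ := by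
    rw [hμ]
    exact div_nonneg (mul_nonneg h0.le (by linarith)) (by positivity)
  have tl : ε * log (1 + K) ≤ ε * (ℓ / 2 - ε) := mul_le_mul_of_nonneg_left lK h0.le
  have hlin := linear_le_entropy (μ := μ₁) (p := 0) (q := 1 / 2)
    (a₀ := ε * log (1 + K) + ε ^ 2 - H / 2) (a₁ := (1 - ε) * (1 / K) + H) hμ0 (le_refl _)
    (by norm_num) (by norm_num)
    (by
      rw [binEntropy_zero]
      nlinarith)
    (by
      rw [one_div 2, binEntropy_two_inv]
      set w := (1 - ε) / (ℓ + 1) with hw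
      have hw0 : 0 < w := by
        rw [hw]
        apply div_pos <;> linarith
      have hμw : w / 20 ≤ μ₁ := by
        rw [hμ, hw, div_div, div_le_div_iff₀ (by positivity) (by positivity)]
        have : (1 - ε) * H ≤ (1 - ε) * (ε * (ℓ + 1)) :=
          mul_le_mul_of_nonneg_left hHu (by linarith)
        nlinarith
      have hsmall : ε * (ℓ / 2 - ε) + ε ^ 2 ≤ w * (1 / 400) := by
        rw [hw, div_mul_eq_mul_div, le_div_iff₀ (by linarith)]
        nlinarith
      have hprod : w / 20 * log 2 ≤ μ₁ * log 2 :=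
        mul_le_mul_of_nonneg_right hμw (log_pos (by norm_num)).le
      have hl2 : w / 20 * 0.6931 ≤ w / 20 * log 2 :=
        mul_le_mul_of_nonneg_left (by linarith [log_two_gt_d9]) (by positivity)
      have h3 : (1 - ε) * (1 / K) = w / 20 := by
        rw [hK, hw]
        field_simp
      rw [h3]
      nlinarith)
    he
  have hlog0 : 0 ≤ log (1 + K) := log_nonneg (by linarith)
  unfold F1
  nlinarith

/-- `-t log t ≤ 0.37` for `t > 0`. -/
lemma neg_mul_log_le {t : ℝ} (ht : 0 < t) : t * (-log t) ≤ 0.37 := by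
  have hE : 0 < exp 1 := exp_pos 1
  have h1 := one_sub_inv_le_log_of_pos (show 0 < t * exp 1 by positivity)
  rw [log_mul ht.ne' hE.ne', log_exp] at h1
  have h2 : -log t ≤ (t * exp 1)⁻¹ := by linarith
  have h3 := mul_le_mul_of_nonneg_left h2 ht.le
  have e : t * (t * exp 1)⁻¹ = (exp 1)⁻¹ := by
    field_simp
  rw [e] at h3
  have h4 : (exp 1)⁻¹ ≤ 0.37 := by
    rw [inv_le_comm₀ hE (by norm_num)]
    have := exp_one_gt_d9
    norm_num at this ⊢
    linarith
  linarith

/-- The lower bound `h(e) ≥ e · log (1/e)`. -/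
lemma entropy_ge_mul_log {e : ℝ} (h0 : 0 ≤ e) (h1 : e ≤ 1) : e * (-log e) ≤ binEntropy e := by
  unfold binEntropy
  rw [log_inv, log_inv]
  have : 0 ≤ (1 - e) * (-log (1 - e)) :=
    mul_nonneg (by linarith) (by
      have := log_nonpos (show 0 ≤ 1 - e by linarith) (by linarith)
      linarith)
  linarith

/-- The defect near zero. -/
lemma F1_small {ε ℓ : ℝ} (hs : Small ε ℓ) {e : ℝ} (he0 : 0 < e) (he1 : e ≤ ε) :
    F1 ε e ≤ e * (-log e - (1 - 2 * ε) * ℓ + 1.7) := by
  have h0 := hs.pos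
  have h1 := hs.eps
  have hα : 0 < 1 - ε := by linarith
  obtain ⟨ld0, ld1, ld2⟩ := hs.logα
  set D := -log (1 - ε) with hD
  set Lg := -log e with hLg
  have hlogε : log ε = -ℓ := by rw [hs.hl]; ring
  -- first term
  set a := (1 - ε) * e with ha
  have ha0 : 0 < a := by positivity
  have hab : a ≤ ε := by
    rw [ha]
    nlinarith
  have f1 : GG a ε ≤ a * (log 2 - ℓ + D + Lg + 1) := by
    rw [GG_eq ha0 h0]
    have l1 : log (1 + ε / a) ≤ log 2 - ℓ + D + Lg := by
      have hle : 1 + ε / a ≤ 2 * ε / a := by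
        have : 1 ≤ ε / a := (one_le_div ha0).mpr hab
        have e : 2 * ε / a = ε / a + ε / a := by ring
        rw [e]
        linarith
      have h2 := log_le_log (by positivity) hle
      rw [log_div (by positivity) ha0.ne', log_mul (by norm_num) h0.ne', ha,
        log_mul hα.ne' he0.ne', hlogε] at h2
      linarith
    have l2 : log (1 + a / ε) ≤ a / ε := by
      have := log_le_sub_one_of_pos (show 0 < 1 + a / ε by positivity)
      linarith
    have t1 := mul_le_mul_of_nonneg_left l1 ha0.le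
    have t2 := mul_le_mul_of_nonneg_left l2 h0.le
    have e2 : ε * (a / ε) = a := by field_simp
    rw [e2] at t2
    nlinarith
  -- second term
  set a' := ε * e with ha'
  have ha'0 : 0 < a' := by positivity
  have f2 : GG a' (1 - ε) ≤ a' * (ℓ + Lg + 1) := by
    rw [GG_eq ha'0 hα]
    have l1 : log (1 + (1 - ε) / a') ≤ ℓ + Lg := by
      have hle : 1 + (1 - ε) / a' ≤ 1 / a' := by
        have e3 : 1 + (1 - ε) / a' = (a' + (1 - ε)) / a' := by field_simp
        rw [e3]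
        apply div_le_div_of_nonneg_right _ ha'0.le
        rw [ha']
        nlinarith
      have h2 := log_le_log (by positivity) hle
      rw [one_div, log_inv, ha', log_mul h0.ne' he0.ne', hlogε] at h2
      linarith
    have l2 : log (1 + a' / (1 - ε)) ≤ a' / (1 - ε) := by
      have := log_le_sub_one_of_pos (show 0 < 1 + a' / (1 - ε) by positivity)
      linarith
    have t1 := mul_le_mul_of_nonneg_left l1 ha'0.le
    have t2 := mul_le_mul_of_nonneg_left l2 hα.le
    have e2 : (1 - ε) * (a' / (1 - ε)) = a' := by field_simp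
    rw [e2] at t2
    nlinarith
  unfold F1
  have hl2 := log_two_lt_d9
  have key : a * (log 2 - ℓ + D + Lg + 1) + a' * (ℓ + Lg + 1) ≤ e * (Lg - (1 - 2 * ε) * ℓ + 1.7) := by
    have e4 : a * (log 2 - ℓ + D + Lg + 1) + a' * (ℓ + Lg + 1)
        = e * (Lg - (1 - 2 * ε) * ℓ + ((1 - ε) * (log 2 + 1) + (1 - ε) * D + ε)) := by
      rw [ha, ha']
      ring
    rw [e4]
    apply mul_le_mul_of_nonneg_left _ he0.le
    have : (1 - ε) * (log 2 + 1) ≤ log 2 + 1 := by
      have := log_pos (show (1 : ℝ) < 2 by norm_num)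
      nlinarith
    linarith
  linarith

/-- The numerator of the plane slopes. -/
noncomputable def K0 (ε ℓ : ℝ) : ℝ := (1 - 2 * ε) * ℓ - 1 - ℓ / 10

/-- The slope of the plane attached to `x`. -/
noncomputable def lamx (ε ℓ x : ℝ) : ℝ := K0 ε ℓ / (ℓ + -log x)

lemma Small.K0_lower {ε ℓ : ℝ} (hs : Small ε ℓ) : 9 / 10 * ℓ - 1 - 1 / 100000 ≤ K0 ε ℓ := by
  unfold K0
  have := hs.lin
  have h0 := hs.pos
  have hb := hs.big
  nlinarith

lemma Small.K0_upper {ε ℓ : ℝ} (hs : Small ε ℓ) : K0 ε ℓ ≤ 9 / 10 * ℓ := by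
  unfold K0
  have h0 := hs.pos
  have hb := hs.big
  have : 0 ≤ ε * ℓ := by positivity
  nlinarith

lemma log_neg_nonneg {x : ℝ} (hx0 : 0 < x) (hx1 : x ≤ 1) : 0 ≤ -log x := by
  have := log_nonpos hx0.le hx1
  linarith

lemma Small.lamx_nonneg {ε ℓ x : ℝ} (hs : Small ε ℓ) (hx0 : 0 < x) (hx1 : x ≤ 1) :
    0 ≤ lamx ε ℓ x := by
  unfold lamx
  have := hs.K0_lower
  have hb := hs.big
  have := log_neg_nonneg hx0 hx1
  apply div_nonneg <;> linarith

lemma Small.lamx_le {ε ℓ x : ℝ} (hs : Small ε ℓ) (hx0 : 0 < x) (hx1 : x ≤ 1) :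
    lamx ε ℓ x ≤ 9 / 10 := by
  unfold lamx
  have := hs.K0_upper
  have hb := hs.big
  have := log_neg_nonneg hx0 hx1
  rw [div_le_iff₀ (by linarith)]
  linarith

lemma Small.lamx_mul {ε ℓ x : ℝ} (hs : Small ε ℓ) (hx0 : 0 < x) (hx1 : x ≤ 1) :
    lamx ε ℓ x * (ℓ + -log x) = K0 ε ℓ := by
  unfold lamx
  have hb := hs.big
  have := log_neg_nonneg hx0 hx1
  have : ℓ + -log x ≠ 0 := by
    have : 0 < ℓ + -log x := by linarith
    exact this.ne'
  field_simp

/-- The separation condition for the plane attached to `x`. -/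
lemma sep_px {ε ℓ x : ℝ} (hs : Small ε ℓ) (hx0 : 0 < x) (hx1 : x ≤ 1) {e : ℝ}
    (he : e ∈ Set.Icc (0 : ℝ) (1 / 2)) :
    F1 ε e ≤ (1 - lamx ε ℓ x) * binEntropy e + 2 * binEntropy ε * e
      + binEntropy ε * (x / ℓ) * (1 / 2 - e) := by
  have h0 := hs.pos
  have h1 := hs.eps
  have hb := hs.big
  have hHp := hs.H_pos
  have hHl := hs.H_lower
  have hlam0 := hs.lamx_nonneg hx0 hx1
  have hlam1 := hs.lamx_le hx0 hx1
  have hℓ : 0 < ℓ := by linarith
  obtain ⟨he0, he1⟩ := he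
  have hhe := binEntropy_nonneg he0 (show e ≤ 1 by linarith)
  have hδ : 0 ≤ x / ℓ := by positivity
  set H := binEntropy ε with hH
  set lam := lamx ε ℓ x with hlam
  have hrem : 0 ≤ H * (x / ℓ) * (1 / 2 - e) :=
    mul_nonneg (mul_nonneg hHp.le hδ) (by linarith)
  rcases eq_or_lt_of_le he0 with rfl | he0'
  · rw [F1_zero, binEntropy_zero]
    linarith
  by_cases hcase : e ≤ ε
  · -- the range `0 < e ≤ ε`
    have f := F1_small hs he0' hcase
    have g1 := entropy_ge_mul_log he0 (show e ≤ 1 by linarith)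
    set Lg := -log e with hLg
    have hm : (1 - lam) * (e * Lg) ≤ (1 - lam) * binEntropy e :=
      mul_le_mul_of_nonneg_left g1 (by linarith)
    have hmul := hs.lamx_mul hx0 hx1
    rw [← hlam] at hmul
    have hK := hs.K0_upper
    have hK1 : K0 ε ℓ ≤ (1 - 2 * ε) * ℓ - 1.7 := by
      unfold K0
      linarith
    -- Fenchel
    have hεx : 0 < ε * x := by positivity
    have ht : 0 < e / (ε * x) := by positivity
    have hf := neg_mul_log_le ht
    have elog : -log (e / (ε * x)) = Lg - ℓ - -log x := by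
      rw [log_div he0'.ne' hεx.ne', log_mul h0.ne' hx0.ne', hs.hl, hLg]
      ring
    rw [elog] at hf
    have hf2 := mul_le_mul_of_nonneg_left hf hεx.le
    have e5 : ε * x * (e / (ε * x) * (Lg - ℓ - -log x)) = e * (Lg - ℓ - -log x) := by
      field_simp
    rw [e5] at hf2
    have hf3 := mul_le_mul_of_nonneg_left hf2 hlam0
    have hf4 : lam * (e * (Lg - ℓ - -log x)) = e * (lam * Lg - K0 ε ℓ) := by
      rw [← hmul]
      ring
    rw [hf4] at hf3
    have hf5 : lam * (ε * x * 0.37) ≤ ε * x * 0.37 := by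
      have : 0 ≤ ε * x * 0.37 := by positivity
      nlinarith
    -- the remainder
    have hrem2 : ε * x * (1 / 2 - ε) ≤ H * (x / ℓ) * (1 / 2 - e) := by
      have h6 : ε * ℓ ≤ H := by
        have : 0 ≤ (1 - ε) * ε := mul_nonneg (by linarith) h0.le
        linarith
      have h7 : ε * x ≤ H * (x / ℓ) := by
        have : ε * ℓ * (x / ℓ) ≤ H * (x / ℓ) := mul_le_mul_of_nonneg_right h6 hδ
        have e6 : ε * ℓ * (x / ℓ) = ε * x := by
          field_simp
        linarith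
      calc ε * x * (1 / 2 - ε) ≤ ε * x * (1 / 2 - e) :=
            mul_le_mul_of_nonneg_left (by linarith) hεx.le
        _ ≤ H * (x / ℓ) * (1 / 2 - e) := mul_le_mul_of_nonneg_right h7 (by linarith)
    have hrem3 : ε * x * 0.37 ≤ ε * x * (1 / 2 - ε) :=
      mul_le_mul_of_nonneg_left (by norm_num; linarith) hεx.le
    have hee : e * (Lg - (1 - 2 * ε) * ℓ + 1.7) ≤ e * (Lg - K0 ε ℓ) :=
      mul_le_mul_of_nonneg_left (by linarith) he0
    have hfin : e * (Lg - K0 ε ℓ) - (1 - lam) * (e * Lg) = e * (lam * Lg - K0 ε ℓ) := by ring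
    have h8 : 0 ≤ 2 * H * e := by positivity
    linarith
  · -- the range `ε ≤ e ≤ 1/2`
    rw [not_le] at hcase
    have hr : (0 : ℝ) < 1 / 15 := by norm_num
    have ht := GG_tangent (a := (1 - ε) * e) (b := ε) (mul_nonneg (by linarith) he0) h0.le hr
    have e1 : 1 + 1 / (1 / 15 : ℝ) = 2 ^ 4 := by norm_num
    rw [e1, log_pow] at ht
    have l1 : log (1 + 1 / 15) ≤ 1 / 15 := by
      have := log_le_sub_one_of_pos (show (0 : ℝ) < 1 + 1 / 15 by norm_num)
      linarith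
    have t1 : (1 - ε) * e * log (1 + 1 / 15) ≤ (1 - ε) * e * (1 / 15) :=
      mul_le_mul_of_nonneg_left l1 (mul_nonneg (by linarith) he0)
    have t2 := GG_beta_le hs he0
    rw [← hH] at t2
    have hl2 := log_two_lt_d9
    have hl3 := log_two_gt_d9
    have hlin := linear_le_entropy (μ := 1 / 10) (p := ε) (q := 1 / 2)
      (a₀ := ε * (4 * log 2) + ε ^ 2) (a₁ := (1 - ε) * (1 / 15)) (by norm_num) h0.le
      (by linarith) (by norm_num)
      (by
        rw [← hH]
        have : ε * ℓ ≤ H := by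
          have : 0 ≤ (1 - ε) * ε := mul_nonneg (by linarith) h0.le
          linarith
        have h9 : ε * 41.5 ≤ ε * ℓ := mul_le_mul_of_nonneg_left hb h0.le
        nlinarith)
      (by
        rw [one_div 2, binEntropy_two_inv]
        nlinarith)
      (show e ∈ Set.Icc ε (1 / 2) from ⟨hcase.le, he1⟩)
    have hmono : 1 / 10 * binEntropy e ≤ (1 - lam) * binEntropy e :=
      mul_le_mul_of_nonneg_right (by linarith) hhe
    unfold F1
    norm_num at ht t1 hlin ⊢
    nlinarith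

/-- The plane attached to `x`. -/
lemma plane_px {ε ℓ x : ℝ} (hs : Small ε ℓ) (hx0 : 0 < x) (hx1 : x ≤ 1) {u w : ℝ}
    (hu : u ∈ Set.Icc (0 : ℝ) 1) (hw : w ∈ Set.Icc (0 : ℝ) 1) :
    lamx ε ℓ x * (binEntropy u + binEntropy w) + binEntropy ε * (2 - x / ℓ) * |u - w|
      ≤ SS ε u w := by
  have h0 := hs.pos
  have h1 := hs.eps
  have hb := hs.big
  have hℓ : 0 < ℓ := by linarith
  have hlam1 := hs.lamx_le hx0 hx1
  have := plane_of_sep (ε := ε) (μ := 1 - lamx ε ℓ x) (δ := x / ℓ) h0.le (by linarith)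
    (by
      have hl3 := log_two_gt_d9
      rw [div_le_iff₀ (by linarith)]
      have h2 := hs.H_upper
      have h3 := hs.lin
      nlinarith)
    (by positivity)
    (fun e he => sep_px hs hx0 hx1 he) hu hw
  rwa [sub_sub_cancel] at this

/-- The mid-range plane. -/
lemma plane_mid {ε ℓ : ℝ} (hs : Small ε ℓ) {u w : ℝ}
    (hu : u ∈ Set.Icc (0 : ℝ) 1) (hw : w ∈ Set.Icc (0 : ℝ) 1) :
    (1 - ε * (1 - ε) / (20 * binEntropy ε)) * (binEntropy u + binEntropy w)
      + binEntropy ε * |u - w| ≤ SS ε u w := by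
  have h0 := hs.pos
  have h1 := hs.eps
  have hb := hs.big
  have hHp := hs.H_pos
  have := plane_of_sep (ε := ε) (μ := ε * (1 - ε) / (20 * binEntropy ε)) (δ := 1) h0.le (by linarith)
    (by
      have hl3 := log_two_gt_d9
      rw [div_le_div_iff₀ (by linarith) (by positivity)]
      have h2 := hs.H_upper
      have h3 := hs.sq
      have h4 : binEntropy ε * binEntropy ε ≤ (ε * (ℓ + 1)) * (ε * (ℓ + 1)) :=
        mul_le_mul h2 h2 hHp.le (by positivity)
      have h5 : (ε * (ℓ + 1)) * (ε * (ℓ + 1)) ≤ ε * (1 / 40000) := by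
        have : ε * (ε * (ℓ + 1) ^ 2) ≤ ε * (1 / 40000) := mul_le_mul_of_nonneg_left h3 h0.le
        nlinarith
      have h6 : 0.6 ≤ (1 - ε) * log 2 := by nlinarith
      have h7 : ε * 0.6 ≤ ε * ((1 - ε) * log 2) := mul_le_mul_of_nonneg_left h6 h0.le
      nlinarith)
    (by norm_num)
    (fun e he => sep_mid hs he) hu hw
  norm_num at this
  linarith

end Vale.Agent.P322
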