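import Vale.Agent.P322.Defs

/-!
The power inequality: for `g` with values in `[0,1]` and mean `a`, with `p = noise ε g`,
`avg ((p (1-p))^γ) ≥ (γ ε (1-ε))^γ * 4 a (1-a)` for `1/2 ≤ γ < 1`.
-/

namespace Vale.Agent.P322

open Finset

/-- The sum over the cube splits along the first coordinate. -/
lemma sum_cube_succ {n : ℕ} (F : Cube (n + 1) → ℝ) :
    ∑ x, F x = ∑ x : Cube n, F (Fin.cons true x) + ∑ x : Cube n, F (Fin.cons false x) := by
  rw [← (Fin.consEquiv (fun _ : Fin (n + 1) => Bool)).sum_comp, Fintype.sum_prod_type,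
    Fintype.sum_bool]
  rfl

lemma avg_succ {n : ℕ} (F : Cube (n + 1) → ℝ) :
    avg F = (avg (fun x : Cube n => F (Fin.cons true x))
      + avg (fun x : Cube n => F (Fin.cons false x))) / 2 := by
  unfold avg
  rw [sum_cube_succ, pow_succ]
  have : (2 : ℝ) ^ n ≠ 0 := by positivity
  field_simp

lemma channel_cons {n : ℕ} (ε : ℝ) (a b : Bool) (x y : Cube n) :
    channel ε (Fin.cons a x : Cube (n + 1)) (Fin.cons b y) =
      (if b = a then 1 - ε else ε) * channel ε x y := by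
  unfold channel
  rw [Fin.prod_univ_succ]
  simp

lemma noise_cons_true {n : ℕ} (ε : ℝ) (g : Cube (n + 1) → ℝ) (y : Cube n) :
    noise ε g (Fin.cons true y) =
      (1 - ε) * noise ε (fun x => g (Fin.cons true x)) y
        + ε * noise ε (fun x => g (Fin.cons false x)) y := by
  unfold noise
  rw [sum_cube_succ, mul_sum, mul_sum]
  congr 1 <;> refine sum_congr rfl fun x _ => ?_ <;> rw [channel_cons] <;> simp <;> ring

lemma noise_cons_false {n : ℕ} (ε : ℝ) (g : Cube (n + 1) → ℝ) (y : Cube n) :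
    noise ε g (Fin.cons false y) =
      ε * noise ε (fun x => g (Fin.cons true x)) y
        + (1 - ε) * noise ε (fun x => g (Fin.cons false x)) y := by
  unfold noise
  rw [sum_cube_succ, mul_sum, mul_sum]
  congr 1 <;> refine sum_congr rfl fun x _ => ?_ <;> rw [channel_cons] <;> simp <;> ring

lemma noise_zero_dim (ε : ℝ) (g : Cube 0 → ℝ) (y : Cube 0) : noise ε g y = g y := by
  unfold noise channel
  simp [Subsingleton.elim _ y]

lemma avg_zero_dim (F : Cube 0 → ℝ) (y : Cube 0) : avg F = F y := by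
  unfold avg
  simp [Subsingleton.elim _ y]

/-- The noise operator preserves `[0,1]`-valued functions. -/
lemma noise_mem {ε : ℝ} (h0 : 0 ≤ ε) (h1 : ε ≤ 1) :
    ∀ {n : ℕ} (g : Cube n → ℝ), (∀ x, 0 ≤ g x ∧ g x ≤ 1) → ∀ y, 0 ≤ noise ε g y ∧ noise ε g y ≤ 1 := by
  intro n
  induction n with
  | zero =>
    intro g hg y
    rw [noise_zero_dim]
    exact hg y
  | succ n ih =>
    intro g hg y
    have hp := ih (fun x => g (Fin.cons true x)) (fun x => hg _)
    have hm := ih (fun x => g (Fin.cons false x)) (fun x => hg _)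
    obtain ⟨b, y', rfl⟩ : ∃ b y', y = Fin.cons b y' :=
      ⟨y 0, Fin.tail y, (Fin.cons_self_tail y).symm⟩
    cases b
    · rw [noise_cons_false]
      have h2 := hp y'
      have h3 := hm y'
      constructor
      · have := mul_nonneg h0 h2.1
        have := mul_nonneg (sub_nonneg.2 h1) h3.1
        linarith
      · nlinarith [h2.1, h2.2, h3.1, h3.2]
    · rw [noise_cons_true]
      have h2 := hp y'
      have h3 := hm y'
      constructor
      · have := mul_nonneg h0 h3.1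
        have := mul_nonneg (sub_nonneg.2 h1) h2.1
        linarith
      · nlinarith [h2.1, h2.2, h3.1, h3.2]

/-- The noise operator preserves the mean. -/
lemma avg_noise {ε : ℝ} : ∀ {n : ℕ} (g : Cube n → ℝ), avg (noise ε g) = avg g := by
  intro n
  induction n with
  | zero =>
    intro g
    have y : Cube 0 := fun i => i.elim0
    rw [avg_zero_dim _ y, avg_zero_dim _ y, noise_zero_dim]
  | succ n ih =>
    intro g
    rw [avg_succ, avg_succ g]
    simp only [noise_cons_true, noise_cons_false]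
    have e1 := ih (fun x => g (Fin.cons true x))
    have e2 := ih (fun x => g (Fin.cons false x))
    rw [← e1, ← e2]
    unfold avg
    simp only [sum_add_distrib, ← mul_sum]
    ring

lemma avg_mono {n : ℕ} {F G : Cube n → ℝ} (h : ∀ y, F y ≤ G y) : avg F ≤ avg G := by
  unfold avg
  gcongr
  exact h _

lemma avg_add {n : ℕ} (F G : Cube n → ℝ) : avg (fun y => F y + G y) = avg F + avg G := by
  unfold avg
  rw [sum_add_distrib, add_div]

lemma avg_const_mul {n : ℕ} (c : ℝ) (F : Cube n → ℝ) : avg (fun y => c * F y) = c * avg F := by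
  unfold avg
  rw [← mul_sum, mul_div_assoc]

lemma avg_nonneg {n : ℕ} {F : Cube n → ℝ} (h : ∀ y, 0 ≤ F y) : 0 ≤ avg F := by
  unfold avg
  have := sum_nonneg (fun y (_ : y ∈ univ) => h y)
  positivity

/-- Concavity of `t ↦ t ^ γ`, in homogeneous form. -/
lemma concave_split {γ : ℝ} (hγ0 : 0 < γ) (hγ1 : γ < 1) {x y ν : ℝ} (hx : 0 ≤ x) (hy : 0 ≤ y)
    (hν0 : 0 ≤ ν) (hν1 : ν ≤ 1) :
    (1 - ν) ^ (1 - γ) * x ^ γ + ν ^ (1 - γ) * y ^ γ ≤ (x + y) ^ γ := by
  have h1γ : (1 - γ) ≠ 0 := by linarith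
  rcases eq_or_lt_of_le hν0 with rfl | hν0'
  · simp only [sub_zero, Real.one_rpow, one_mul, Real.zero_rpow h1γ, zero_mul, add_zero]
    exact Real.rpow_le_rpow hx (by linarith) hγ0.le
  rcases eq_or_lt_of_le hν1 with rfl | hν1'
  · simp only [sub_self, Real.zero_rpow h1γ, zero_mul, zero_add, Real.one_rpow, one_mul]
    exact Real.rpow_le_rpow hy (by linarith) hγ0.le
  have hc := Real.concaveOn_rpow hγ0.le hγ1.le
  have h1ν : 0 < 1 - ν := by linarith
  have := hc.2 (x := x / (1 - ν)) (y := y / ν) (Set.mem_Ici.2 (by positivity))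
    (Set.mem_Ici.2 (by positivity)) h1ν.le hν0 (by ring)
  simp only [smul_eq_mul] at this
  have e1 : (1 - ν) * (x / (1 - ν)) + ν * (y / ν) = x + y := by field_simp
  rw [e1] at this
  refine le_trans (le_of_eq ?_) this
  rw [Real.div_rpow hx h1ν.le, Real.div_rpow hy hν0, Real.rpow_sub h1ν, Real.rpow_sub hν0',
    Real.rpow_one, Real.rpow_one]
  have h3 : (1 - ν) ^ γ ≠ 0 := (Real.rpow_pos_of_pos h1ν γ).ne'
  have h4 : ν ^ γ ≠ 0 := (Real.rpow_pos_of_pos hν0' γ).ne'
  field_simp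

/-- The convex combination bound for the two conditional terms. -/
lemma concave_comb {γ : ℝ} (hγ0 : 0 < γ) (hγ1 : γ < 1) {α β X Y : ℝ} (hα : 0 ≤ α) (hβ : 0 ≤ β)
    (hαβ : α + β = 1) (hX : 0 ≤ X) (hY : 0 ≤ Y) :
    α * X ^ γ + β * Y ^ γ ≤ (α * X + β * Y) ^ γ := by
  have hc := Real.concaveOn_rpow hγ0.le hγ1.le
  have := hc.2 (x := X) (y := Y) (Set.mem_Ici.2 hX) (Set.mem_Ici.2 hY) hα hβ hαβ
  simpa [smul_eq_mul] using this

/-- The pointwise inequality. -/
lemma pointwise {γ : ℝ} (hγ0 : 0 < γ) (hγ1 : γ < 1) {α β X Y Z ν : ℝ} (hα : 0 ≤ α) (hβ : 0 ≤ β)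
    (hαβ : α + β = 1) (hX : 0 ≤ X) (hY : 0 ≤ Y) (hZ : 0 ≤ Z) (hν0 : 0 ≤ ν) (hν1 : ν ≤ 1) :
    (1 - ν) ^ (1 - γ) * (α * X ^ γ + β * Y ^ γ) + ν ^ (1 - γ) * (α * β * Z) ^ γ
      ≤ (α * X + β * Y + α * β * Z) ^ γ := by
  have h1 := concave_comb hγ0 hγ1 hα hβ hαβ hX hY
  have h2 := concave_split hγ0 hγ1 (x := α * X + β * Y) (y := α * β * Z) (ν := ν)
    (by positivity) (by positivity) hν0 hν1
  refine le_trans ?_ h2
  have h3 : 0 ≤ (1 - ν) ^ (1 - γ) := Real.rpow_nonneg (by linarith) _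
  nlinarith [mul_le_mul_of_nonneg_left h1 h3]

/-- Jensen for the convex power, giving the lower bound for the third term. -/
lemma avg_rpow_abs_ge {n : ℕ} {γ : ℝ} (hγ : 1 / 2 ≤ γ) (t : Cube n → ℝ) :
    (((avg t) ^ 2)) ^ γ ≤ avg (fun y => ((t y) ^ 2) ^ γ) := by
  have hpos : (0 : ℝ) < 2 ^ n := by positivity
  have hcard : (∑ _y : Cube n, ((1 : ℝ) / 2 ^ n)) = 1 := by
    simp [Finset.card_univ]
  have key := Real.rpow_arith_mean_le_arith_mean_rpow (univ : Finset (Cube n))
    (fun _ => (1 : ℝ) / 2 ^ n) (fun y => |t y|) (fun _ _ => by positivity) hcard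
    (fun _ _ => abs_nonneg _) (p := 2 * γ) (by linarith)
  have h1 : |avg t| ≤ ∑ y, (1 : ℝ) / 2 ^ n * |t y| := by
    unfold avg
    rw [sum_div, ]
    refine le_trans (abs_sum_le_sum_abs _ _) (le_of_eq ?_)
    refine sum_congr rfl fun y _ => ?_
    rw [abs_div, abs_of_pos hpos]
    ring
  have h2 : ((avg t) ^ 2) ^ γ = |avg t| ^ (2 * γ) := by
    rw [Real.rpow_mul (abs_nonneg _), Real.rpow_two, sq_abs]
  have h3 : ∀ y, ((t y) ^ 2) ^ γ = |t y| ^ (2 * γ) := fun y => by
    rw [Real.rpow_mul (abs_nonneg _), Real.rpow_two, sq_abs]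
  rw [h2]
  simp only [h3]
  calc |avg t| ^ (2 * γ) ≤ (∑ y, (1 : ℝ) / 2 ^ n * |t y|) ^ (2 * γ) :=
        Real.rpow_le_rpow (abs_nonneg _) h1 (by linarith)
    _ ≤ _ := key
    _ = _ := by
        unfold avg
        rw [sum_div]
        refine sum_congr rfl fun y _ => ?_
        ring

/-- The closing numerical step of the induction. -/
lemma closing {γ A W e D : ℝ} (hγ : 1 / 2 ≤ γ) (hγ1 : γ < 1) (hA : 0 ≤ A) (he1 : e ≤ 1)
    (hD : 0 ≤ D) (hDe : D ≤ e) (hW : (γ * A) ^ γ * (e - D) ≤ W) :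
    ∃ ν : ℝ, 0 ≤ ν ∧ ν ≤ 1 ∧
      (γ * A) ^ γ * e ≤ (1 - ν) ^ (1 - γ) * W + ν ^ (1 - γ) * (A * D) ^ γ := by
  have hγ0 : 0 < γ := by linarith
  have h1γ : (0 : ℝ) < 1 - γ := by linarith
  have hC : 0 ≤ (γ * A) ^ γ := Real.rpow_nonneg (by positivity) _
  by_cases hDγ : γ ≤ D
  · refine ⟨1, zero_le_one, le_refl _, ?_⟩
    simp only [sub_self, Real.zero_rpow h1γ.ne', zero_mul, zero_add, Real.one_rpow, one_mul]
    calc (γ * A) ^ γ * e ≤ (γ * A) ^ γ * 1 := by gcongr
      _ = (γ * A) ^ γ := mul_one _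
      _ ≤ (A * D) ^ γ := by
        apply Real.rpow_le_rpow (by positivity) _ hγ0.le
        nlinarith
  · rw [not_le] at hDγ
    refine ⟨D / γ, by positivity, (div_le_one hγ0).2 hDγ.le, ?_⟩
    set ν := D / γ with hν
    have hν0 : 0 ≤ ν := by positivity
    have hν1 : ν < 1 := (div_lt_one hγ0).2 hDγ
    have hDν : D = γ * ν := by rw [hν]; field_simp
    have h1ν : 0 < 1 - ν := by linarith
    have hP : 0 < (1 - ν) ^ (1 - γ) := Real.rpow_pos_of_pos h1ν _
    -- the second term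
    have h2 : ν ^ (1 - γ) * (A * D) ^ γ = (γ * A) ^ γ * ν := by
      rcases eq_or_lt_of_le hν0 with h0 | h0
      · have hD0 : D = 0 := by rw [hDν, ← h0, mul_zero]
        rw [← h0, hD0]
        simp [Real.zero_rpow h1γ.ne']
      · rw [hDν]
        have e1 : A * (γ * ν) = (γ * A) * ν := by ring
        rw [e1, Real.mul_rpow (by positivity) h0.le, ]
        have e2 : ν ^ (1 - γ) * ν ^ γ = ν := by
          rw [← Real.rpow_add h0]
          simp
        calc ν ^ (1 - γ) * ((γ * A) ^ γ * ν ^ γ) = (γ * A) ^ γ * (ν ^ (1 - γ) * ν ^ γ) := by ring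
          _ = _ := by rw [e2]
    rw [h2]
    -- Bernoulli
    have hB : (1 - ν) ^ γ ≤ 1 - D := by
      have := rpow_one_add_le_one_add_mul_self (s := -ν) (by linarith) hγ0.le hγ1.le
      have e3 : 1 + -ν = 1 - ν := by ring
      rw [e3] at this
      rw [hDν]
      linarith
    have hB2 : 1 - ν ≤ (1 - ν) ^ (1 - γ) * (1 - D) := by
      have e2 : (1 - ν) ^ (1 - γ) * (1 - ν) ^ γ = 1 - ν := by
        rw [← Real.rpow_add h1ν]
        simp
      calc 1 - ν = (1 - ν) ^ (1 - γ) * (1 - ν) ^ γ := e2.symm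
        _ ≤ _ := by gcongr
    have hD1 : 0 < 1 - D := by linarith
    have hνD : D ≤ ν := by
      rw [hDν]
      nlinarith
    -- main
    have h5 : e ≤ (1 - ν) ^ (1 - γ) * (e - D) + ν := by
      have h6 : (1 - D) * e ≤ (1 - D) * ((1 - ν) ^ (1 - γ) * (e - D) + ν) := by
        have h7 : (1 - ν) * (e - D) ≤ (1 - ν) ^ (1 - γ) * (1 - D) * (e - D) :=
          mul_le_mul_of_nonneg_right hB2 (by linarith)
        nlinarith [mul_nonneg (sub_nonneg.2 he1) (sub_nonneg.2 hνD)]
      exact le_of_mul_le_mul_left h6 hD1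
    calc (γ * A) ^ γ * e ≤ (γ * A) ^ γ * ((1 - ν) ^ (1 - γ) * (e - D) + ν) := by gcongr
      _ = (1 - ν) ^ (1 - γ) * ((γ * A) ^ γ * (e - D)) + (γ * A) ^ γ * ν := by ring
      _ ≤ (1 - ν) ^ (1 - γ) * W + (γ * A) ^ γ * ν := by gcongr

/-- The power inequality. -/
theorem power_ineq {ε γ : ℝ} (h0 : 0 ≤ ε) (h1 : ε ≤ 1) (hγ : 1 / 2 ≤ γ) (hγ1 : γ < 1) :
    ∀ {n : ℕ} (g : Cube n → ℝ), (∀ x, 0 ≤ g x ∧ g x ≤ 1) →
      (γ * (ε * (1 - ε))) ^ γ * (4 * avg g * (1 - avg g)) ≤
        avg (fun y => (noise ε g y * (1 - noise ε g y)) ^ γ) := by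
  have hγ0 : 0 < γ := by linarith
  have hα : 0 ≤ 1 - ε := sub_nonneg.2 h1
  have hA : 0 ≤ ε * (1 - ε) := mul_nonneg h0 hα
  intro n
  induction n with
  | zero =>
    intro g hg
    have y : Cube 0 := fun i => i.elim0
    rw [avg_zero_dim g y, avg_zero_dim _ y, noise_zero_dim]
    have hgy := hg y
    set u := g y
    have hφ : 0 ≤ u * (1 - u) := mul_nonneg hgy.1 (by linarith [hgy.2])
    have hφ1 : u * (1 - u) ≤ 1 / 4 := by nlinarith [sq_nonneg (u - 1 / 2)]
    have hA1 : ε * (1 - ε) ≤ 1 / 4 := by nlinarith [sq_nonneg (ε - 1 / 2)]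
    rcases eq_or_lt_of_le hφ with hz | hz
    · rw [← hz]
      have : 4 * u * (1 - u) = 0 := by linarith
      rw [this]
      simp [Real.zero_rpow hγ0.ne']
    -- φ^γ ≥ 4^(1-γ) φ and C ≤ 4^(-γ)
    have e1 : (γ * (ε * (1 - ε))) ^ γ ≤ (1 / 4 : ℝ) ^ γ :=
      Real.rpow_le_rpow (by positivity) (by nlinarith) hγ0.le
    have e2 : (1 / 4 : ℝ) ^ γ * (4 * (u * (1 - u))) ≤ (u * (1 - u)) ^ γ := by
      have e3 : (u * (1 - u)) ^ γ = (u * (1 - u)) ^ (γ - 1) * (u * (1 - u)) := by
        rw [Real.rpow_sub_one hz.ne', div_mul_cancel₀ _ hz.ne']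
      have e4 : (1 / 4 : ℝ) ^ (γ - 1) ≤ (u * (1 - u)) ^ (γ - 1) :=
        Real.rpow_le_rpow_of_nonpos hz hφ1 (by linarith)
      have e5 : (1 / 4 : ℝ) ^ γ * 4 = (1 / 4 : ℝ) ^ (γ - 1) := by
        rw [Real.rpow_sub_one (by norm_num)]
        norm_num
        ring
      rw [e3]
      nlinarith
    have e6 : 4 * u * (1 - u) = 4 * (u * (1 - u)) := by ring
    rw [e6]
    calc _ ≤ (1 / 4 : ℝ) ^ γ * (4 * (u * (1 - u))) := by gcongr
      _ ≤ _ := e2
  | succ n ih =>
    intro g hg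
    set gp : Cube n → ℝ := fun x => g (Fin.cons true x) with hgp
    set gm : Cube n → ℝ := fun x => g (Fin.cons false x) with hgm
    have hgp01 : ∀ x, 0 ≤ gp x ∧ gp x ≤ 1 := fun x => hg _
    have hgm01 : ∀ x, 0 ≤ gm x ∧ gm x ≤ 1 := fun x => hg _
    have ihp := ih gp hgp01
    have ihm := ih gm hgm01
    set u := noise ε gp with hu
    set w := noise ε gm with hw
    have hu01 := noise_mem h0 h1 gp hgp01
    have hw01 := noise_mem h0 h1 gm hgm01
    set ap := avg gp with hap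
    set am := avg gm with ham
    have hap01 : 0 ≤ ap ∧ ap ≤ 1 := by
      constructor
      · exact avg_nonneg fun y => (hgp01 y).1
      · have := avg_mono (F := gp) (G := fun _ => 1) fun y => (hgp01 y).2
        refine le_trans this ?_
        unfold avg
        simp [Finset.card_univ]
    have ham01 : 0 ≤ am ∧ am ≤ 1 := by
      constructor
      · exact avg_nonneg fun y => (hgm01 y).1
      · have := avg_mono (F := gm) (G := fun _ => 1) fun y => (hgm01 y).2
        refine le_trans this ?_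
        unfold avg
        simp [Finset.card_univ]
    have havg : avg g = (ap + am) / 2 := avg_succ g
    rw [havg]
    set e := 4 * ((ap + am) / 2) * (1 - (ap + am) / 2) with he
    set D := (ap - am) ^ 2 with hD
    set ep := 4 * ap * (1 - ap) with hep
    set em := 4 * am * (1 - am) with hem
    have hid : (ep + em) / 2 = e - D := by
      rw [hep, hem, he, hD]
      ring
    have hep0 : 0 ≤ ep := by
      rw [hep]
      have := mul_nonneg hap01.1 (sub_nonneg.2 hap01.2)
      linarith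
    have hem0 : 0 ≤ em := by
      rw [hem]
      have := mul_nonneg ham01.1 (sub_nonneg.2 ham01.2)
      linarith
    have he1 : e ≤ 1 := by
      rw [he]
      nlinarith [sq_nonneg ((ap + am) / 2 - 1 / 2)]
    have hD0 : 0 ≤ D := sq_nonneg _
    have hDe : D ≤ e := by linarith
    -- the average of the two sections
    set W := (avg (fun y => (u y * (1 - u y)) ^ γ) + avg (fun y => (w y * (1 - w y)) ^ γ)) / 2
      with hWdef
    have hW : (γ * (ε * (1 - ε))) ^ γ * (e - D) ≤ W := by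
      rw [← hid, hWdef]
      have := add_le_add ihp ihm
      have e1 : (γ * (ε * (1 - ε))) ^ γ * ((ep + em) / 2) =
        ((γ * (ε * (1 - ε))) ^ γ * ep + (γ * (ε * (1 - ε))) ^ γ * em) / 2 := by ring
      rw [e1]
      linarith
    obtain ⟨ν, hν0, hν1, hclose⟩ := closing hγ hγ1 hA he1 hD0 hDe hW
    refine le_trans hclose ?_
    -- the pointwise inequalities
    rw [avg_succ]
    have hpt : ∀ y : Cube n,
        (1 - ν) ^ (1 - γ) * ((1 - ε) * (u y * (1 - u y)) ^ γ + ε * (w y * (1 - w y)) ^ γ)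
          + ν ^ (1 - γ) * ((1 - ε) * ε * (u y - w y) ^ 2) ^ γ
          ≤ (noise ε g (Fin.cons true y) * (1 - noise ε g (Fin.cons true y))) ^ γ := by
      intro y
      have hy1 := hu01 y
      have hy2 := hw01 y
      have := pointwise hγ0 hγ1 (α := 1 - ε) (β := ε) (X := u y * (1 - u y)) (Y := w y * (1 - w y))
        (Z := (u y - w y) ^ 2) (ν := ν) hα h0 (by ring)
        (mul_nonneg hy1.1 (by linarith [hy1.2])) (mul_nonneg hy2.1 (by linarith [hy2.2]))
        (sq_nonneg _) hν0 hν1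
      refine le_trans this (le_of_eq ?_)
      rw [noise_cons_true]
      congr 1
      ring
    have hpt2 : ∀ y : Cube n,
        (1 - ν) ^ (1 - γ) * (ε * (u y * (1 - u y)) ^ γ + (1 - ε) * (w y * (1 - w y)) ^ γ)
          + ν ^ (1 - γ) * (ε * (1 - ε) * (u y - w y) ^ 2) ^ γ
          ≤ (noise ε g (Fin.cons false y) * (1 - noise ε g (Fin.cons false y))) ^ γ := by
      intro y
      have hy1 := hu01 y
      have hy2 := hw01 y
      have := pointwise hγ0 hγ1 (α := ε) (β := 1 - ε) (X := u y * (1 - u y)) (Y := w y * (1 - w y))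
        (Z := (u y - w y) ^ 2) (ν := ν) h0 hα (by ring)
        (mul_nonneg hy1.1 (by linarith [hy1.2])) (mul_nonneg hy2.1 (by linarith [hy2.2]))
        (sq_nonneg _) hν0 hν1
      refine le_trans this (le_of_eq ?_)
      rw [noise_cons_false]
      congr 1
      ring
    have hav1 := avg_mono hpt
    have hav2 := avg_mono hpt2
    -- Jensen for the third term
    have hJ : (ε * (1 - ε) * D) ^ γ ≤ avg (fun y => (ε * (1 - ε) * (u y - w y) ^ 2) ^ γ) := by
      have htt := avg_rpow_abs_ge hγ (fun y => u y - w y)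
      have hdiff : avg (fun y => u y - w y) = ap - am := by
        have h3 : (fun y => u y - w y) = (fun y => u y + (-1) * w y) := by
          funext y
          ring
        rw [h3, avg_add, avg_const_mul, hu, hw, avg_noise, avg_noise]
        ring
      rw [hdiff] at htt
      rw [Real.mul_rpow hA hD0]
      simp only [Real.mul_rpow hA (sq_nonneg _)]
      rw [avg_const_mul]
      have := Real.rpow_nonneg hA γ
      gcongr
    -- assemble
    have hP : 0 ≤ (1 - ν) ^ (1 - γ) := Real.rpow_nonneg (by linarith) _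
    have hN : 0 ≤ ν ^ (1 - γ) := Real.rpow_nonneg hν0 _
    simp only [avg_add, avg_const_mul] at hav1 hav2
    have e7 : (fun y => ((1 - ε) * ε * (u y - w y) ^ 2) ^ γ)
        = (fun y => (ε * (1 - ε) * (u y - w y) ^ 2) ^ γ) := by
      funext y
      congr 1
      ring
    rw [e7] at hav1
    rw [hWdef]
    have hJ' := mul_le_mul_of_nonneg_left hJ hN
    have eqq : (ε * (1 - ε) * D) = (ε * (1 - ε)) * D := rfl
    nlinarith [hav1, hav2, hJ']

end Vale.Agent.P322
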